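import Vale.Agent.P032X.H892.LtH
import Vale.Agent.P032X.H286.B73
import Vale.Agent.P032X.Cert.X3.T1
import Vale.Agent.P032X.Cert.X3.W2.WT
import Vale.Agent.P032X.Cert.X3.W2.WQ000
import Vale.Agent.P032X.Cert.X3.W2.WQ001
import Vale.Agent.P032X.Cert.X3.W2.WQ002
import Vale.Agent.P032X.Cert.X3.W2.WQ003

set_option maxRecDepth 1000000

namespace Vale.Agent.P032X.Cert.X3.W2.WH000

open Vale.Agent.P032.H820.K Vale.Agent.P032.H357.MK Vale.Agent.P032.H286.E Vale.Agent.P032.H61 Vale.Agent.P032.H61.TF Vale.Agent.P032.BlkE Vale.Agent.P032.BlkS Vale.Agent.P032.H357 Vale.Agent.P032 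

theorem w0 : Wx (EX xs7) Vale.Agent.P032X.Cert.X3.t1 (Vale.Agent.P032.Fam.fam3 Vale.Agent.P032.Fam.im0) WQ000.W0 := ⟨[0, 8, 16, 24, 32, 40, 48, 4, 12, 20, 28, 36, 44, 52, 60, 68, 76, 84, 92, 100, 108, 116, 124, 132, 140, 148, 156, 164, 172, 180, 188, 8967825, 79957465, 46403033, 60689881, 27545049, 50499033, 35720665, 65048025, 66194905, 58658265, 105955393, 38587865, 50236889, 46405265, 15652497, 105234433, 56213505, 125767129, 51416537, 1081345, 78696385, 31506497, 22334937, 17354201, 17862105, 68193753, 93490649, 33181145, 127798745, 132156889, 2424838, 2949126],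
  Vale.Agent.P032.Lt.q_of (e' := WQ000.e0) (by decide +kernel) WQ000.q0⟩

theorem w1 : Wx (EX xs7) Vale.Agent.P032X.Cert.X3.t1 (Vale.Agent.P032.Fam.fam3 Vale.Agent.P032.Fam.im0) WQ000.W1 := ⟨[0, 8, 16, 24, 32, 40, 48, 4, 12, 20, 28, 36, 44, 52, 60, 68, 76, 84, 92, 100, 108, 116, 124, 132, 140, 148, 156, 164, 172, 18366465, 37754785, 131661825, 30998593, 98107457, 12111641, 93159425, 50921537, 61656537, 74563609, 64552961, 23878145, 108576769, 41161377, 851974, 860166, 1376262, 2424838, 2433030, 2949126, 73565387194426],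
  Vale.Agent.P032.Lt.q_of (e' := WQ000.e1) (by decide +kernel) WQ000.q1⟩

theorem w2 : Wx (EX xs7) Vale.Agent.P032X.Cert.X3.t1 (Vale.Agent.P032.Fam.fam3 Vale.Agent.P032.Fam.im0) WQ000.W2 := ⟨[0, 8, 16, 24, 32, 40, 48, 4, 12, 20, 28, 36, 44, 52, 60, 68, 76, 84, 92, 100, 108, 116, 124, 132, 140, 148, 156, 164, 172, 180, 188, 34095105, 69995993, 31592001, 62721497, 6704601, 85856481, 5228641, 14175705, 1900550, 2949126],
  Vale.Agent.P032.Lt.q_of (e' := WQ000.e2) (by decide +kernel) WQ000.q2⟩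

theorem w3 : Wx (EX xs7) Vale.Agent.P032X.Cert.X3.t1 (Vale.Agent.P032.Fam.fam3 Vale.Agent.P032.Fam.im0) WQ000.W3 := ⟨[0, 8, 16, 24, 32, 40, 48, 4, 12, 20, 28, 36, 44, 52, 60, 68, 76, 84, 92, 100, 108, 116, 124, 132, 140, 148, 156, 164, 172, 180, 188, 196, 204, 212, 220, 228, 131334617, 100663297, 75039129, 123863105, 38273433, 9011609, 42566041, 16482305, 58425753, 49168449, 29179905, 26231193, 71827865, 6537625, 96371097, 46498201, 30966169, 55345625, 122454425, 59998681, 119373825, 116031489, 119472537, 32588185, 29261825, 33259521, 89489409, 80510977, 100368385, 24986009, 21200897, 77398017, 105087449, 29065625, 8208385, 129728513, 108757401, 45957121, 83591169, 19742721, 41762817, 117145601, 50036737, 125534617, 10616833, 8094105, 118063513, 24871321, 91980185, 75202969, 12403097, 62620057],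
  Vale.Agent.P032.Lt.q_of (e' := WQ000.e3) (by decide +kernel) WQ000.q3⟩

theorem w4 : Wx (EX xs7) Vale.Agent.P032X.Cert.X3.t1 (Vale.Agent.P032.Fam.fam3 Vale.Agent.P032.Fam.im0) WQ000.W4 := ⟨[0, 8, 16, 24, 32, 40, 48, 4, 12, 20, 28, 36, 44, 52, 60, 68, 76, 84, 92, 100, 108, 116, 124, 132, 140, 148, 156, 164, 172, 180, 188, 196, 204, 212, 298393, 65179033, 67407257, 133729689, 65424793, 12094873, 65949081, 1985945, 1215897, 132287897, 35540377, 65015193, 20172185],
  Vale.Agent.P032.Lt.q_of (e' := WQ000.e4) (by decide +kernel) WQ000.q4⟩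

theorem w5 : Wx (EX xs7) Vale.Agent.P032X.Cert.X3.t1 (Vale.Agent.P032.Fam.fam3 Vale.Agent.P032.Fam.im0) WQ000.W5 := ⟨[0, 8, 16, 24, 32, 40, 48, 4, 12, 20, 28, 36, 44, 52, 60, 68, 76, 84, 92, 100, 108, 116, 124, 132, 140, 148, 156, 164, 172, 180, 188, 196, 204, 212, 220, 228, 236, 244, 37224857, 31883673, 50184473, 92803841, 67633537, 6291929, 18874777, 40338073, 69206209, 131334553, 109576193, 35061761, 92045721, 76349849, 9781657, 36848025, 91750809, 13468057, 8012249, 71467417, 105120153, 58195969, 105054617, 9535897, 30966233, 22446489, 70090753, 43843993, 116916633, 111182233, 112034201, 117539225, 59326873, 114133193, 80576513, 125304833, 42041753, 16252929, 75595841, 121799065, 1704345, 77529497, 19759513, 33030553, 101581209, 78479769, 49168385, 54690201, 103645593, 83984385, 25772033, 130908569, 47022489, 30245273, 13402521, 6275481, 2884057, 2982297, 8487321, 28148121, 131072409, 52625409, 5915033, 6324633, 49807769, 65077657,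 60113305, 11370905, 86868377, 44924929, 43336089, 26558873, 53313665, 120422809, 10616897, 73433089, 2424838, 2949126],
  Vale.Agent.P032.Lt.q_of (e' := WQ000.e5) (by decide +kernel) WQ000.q5⟩

theorem w6 : Wx (EX xs7) Vale.Agent.P032X.Cert.X3.t1 (Vale.Agent.P032.Fam.fam3 Vale.Agent.P032.Fam.im0) WQ000.W6 := ⟨[0, 8, 16, 24, 32, 40, 48, 4, 12, 20, 28, 36, 44, 52, 60, 68, 76, 84, 92, 100, 108, 116, 124, 132, 140, 148, 156, 164, 172, 180, 188, 196, 31982913, 115412761, 20168705, 55050241, 21364737, 63193089, 88477465, 54919233, 128974977, 128978841, 2424838, 2949126],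
  Vale.Agent.P032.Lt.q_of (e' := WQ000.e6) (by decide +kernel) WQ000.q6⟩

theorem w7 : Wx (EX xs7) Vale.Agent.P032X.Cert.X3.t1 (Vale.Agent.P032.Fam.fam3 Vale.Agent.P032.Fam.im0) WQ000.W7 := ⟨[0, 8, 16, 24, 32, 40, 48, 4, 12, 20, 28, 36, 44, 52, 60, 68, 76, 84, 92, 100, 108, 116, 124, 84056329, 21221277],
  Vale.Agent.P032.Lt.q_of (e' := WQ000.e7) (by decide +kernel) WQ000.q7⟩

theorem w8 : Wx (EX xs7) Vale.Agent.P032X.Cert.X3.t1 (Vale.Agent.P032.Fam.fam3 Vale.Agent.P032.Fam.im0) WQ000.W8 := ⟨[0, 8, 16, 24, 32, 40, 48, 4, 12, 20, 28, 36, 44, 52, 60, 68, 76, 84, 92, 100, 108, 116, 124, 132, 140, 148, 156, 164, 172, 54067201, 66930509, 43286529, 3670489, 77791705, 73596929, 27459585, 10682369, 45875201, 112984065, 119734337, 128122881, 102367705, 60965337, 111346137, 26214401, 6488473, 58474905, 40042969, 44236801, 61014017, 6537217],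
  Vale.Agent.P032.Lt.q_of (e' := WQ000.e8) (by decide +kernel) WQ000.q8⟩

theorem w9 : Wx (EX xs7) Vale.Agent.P032X.Cert.X3.t1 (Vale.Agent.P032.Fam.fam3 Vale.Agent.P032.Fam.im0) WQ000.W9 := ⟨[0, 8, 16, 24, 32, 40, 48, 4, 12, 20, 28, 36, 44, 52, 60, 68, 76, 84, 92, 100, 108, 116, 124, 132, 140, 148, 156, 164, 172, 180, 55312385, 1560997, 64766361, 2424838, 2949126],
  Vale.Agent.P032.Lt.q_of (e' := WQ000.e9) (by decide +kernel) WQ000.q9⟩

theorem w10 : Wx (EX xs7) Vale.Agent.P032X.Cert.X3.t1 (Vale.Agent.P032.Fam.fam3 Vale.Agent.P032.Fam.im0) WQ000.W10 := ⟨[0, 8, 16, 24, 32, 40, 48, 4, 12, 20, 28, 36, 44, 52, 60, 68, 76, 84, 92, 100, 108, 116, 124, 132, 140, 148, 156, 164, 172, 180, 188, 196, 204, 78512129, 39469465, 13910425, 71827865, 6537625, 42566041, 119472537, 851974, 1900550, 2949126],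
  Vale.Agent.P032.Lt.q_of (e' := WQ000.e10) (by decide +kernel) WQ000.q10⟩

theorem w11 : Wx (EX xs7) Vale.Agent.P032X.Cert.X3.t1 (Vale.Agent.P032.Fam.fam3 Vale.Agent.P032.Fam.im0) WQ000.W11 := ⟨[0, 8, 16, 24, 32, 40, 48, 4, 12, 20, 28, 36, 44, 52, 60, 68, 76, 84, 92, 100, 108, 116, 124, 132, 140, 148, 156, 164, 172, 180, 188, 196, 204, 212, 131334145, 49217537, 33620377, 17580441, 31064473, 20431257, 87687169, 100729241, 67174809, 125895065, 8454553, 65945, 121372673, 75563417, 109117849, 803225, 29360537, 34357657, 134086657, 42008985, 67633537],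
  Vale.Agent.P032.Lt.q_of (e' := WQ000.e11) (by decide +kernel) WQ000.q11⟩

theorem w12 : Wx (EX xs7) Vale.Agent.P032X.Cert.X3.t1 (Vale.Agent.P032.Fam.fam3 Vale.Agent.P032.Fam.im0) WQ000.W12 := ⟨[0, 8, 16, 24, 32, 40, 48, 4, 12, 20, 28, 36, 44, 52, 60, 68, 76, 84, 92, 100, 108, 116, 124, 132, 140, 148, 156, 164, 172, 180, 188, 196, 204, 212, 220, 228, 236, 1559437, 115999129, 48890265, 68813209, 91291713, 61735321, 44958105, 65667481, 278937, 32113049, 41828761, 62734745, 41648537, 96174489],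
  Vale.Agent.P032.Lt.q_of (e' := WQ000.e12) (by decide +kernel) WQ000.q12⟩

theorem w13 : Wx (EX xs7) Vale.Agent.P032X.Cert.X3.t1 (Vale.Agent.P032.Fam.fam3 Vale.Agent.P032.Fam.im0) WQ000.W13 := ⟨[0, 8, 16, 24, 32, 40, 48, 4, 12, 20, 28, 36, 44, 52, 60, 68, 76, 84, 92, 100, 108, 116, 124, 132, 140, 148, 156, 164, 172, 180, 188, 196, 204, 212, 220, 228, 236, 244, 118652929, 100859905, 37503385, 58917273, 16973825, 98304001, 54427649, 121536513, 3948545, 87982081, 86671361, 49364993, 12304793, 70680577, 3571713, 9601433, 6291521, 79167961, 18874777, 1376262, 2424838, 2949126],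
  Vale.Agent.P032.Lt.q_of (e' := WQ000.e13) (by decide +kernel) WQ000.q13⟩

theorem w14 : Wx (EX xs7) Vale.Agent.P032X.Cert.X3.t1 (Vale.Agent.P032.Fam.fam3 Vale.Agent.P032.Fam.im0) WQ000.W14 := ⟨[0, 8, 16, 24, 32, 40, 48, 4, 12, 20, 28, 36, 44, 52, 60, 68, 76, 84, 92, 100, 108, 116, 124, 132, 140, 148, 156, 164, 172, 180, 188, 196, 204, 212, 220, 228, 131334145, 78512601, 50430425, 18907609, 76349441, 46744025, 21578201, 102957465, 111181825, 79790553, 123764737, 109150681, 111084761, 125927897, 12681217, 49807361, 116916225, 37847041, 88178689, 83984793, 25772441, 38354945, 43417601, 21070297, 65077249, 104956377, 13402113, 8486913, 59326465, 39878657, 96567769, 71401945, 112033793, 93979097, 117538817, 75596249, 42041345, 55345153, 4292609, 24805377, 15351809, 20431257, 92372993, 105578497, 125239297, 58130497, 91684865, 25264129, 121733121, 13189593, 127107073, 54624729, 40337665, 130023745, 69206617],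
  Vale.Agent.P032.Lt.q_of (e' := WQ000.e14) (by decide +kernel) WQ000.q14⟩

theorem w15 : Wx (EX xs7) Vale.Agent.P032X.Cert.X3.t1 (Vale.Agent.P032.Fam.fam3 Vale.Agent.P032.Fam.im0) WQ000.W15 := ⟨[0, 8, 16, 24, 32, 40, 48, 4, 12, 20, 28, 36, 44, 52, 60, 68, 76, 84, 92, 100, 108, 116, 124, 132, 140, 148, 156, 164, 172, 180, 188, 196, 204, 212, 220, 100663705, 46285273, 128024577, 50954649, 4718593, 55591193, 6537217, 42565633, 99680257, 16285697, 78872985, 71827457, 38273025, 29262233, 18432409, 39944193, 73498625, 107053057, 13451265, 23166977, 6389761],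
  Vale.Agent.P032.Lt.q_of (e' := WQ000.e15) (by decide +kernel) WQ000.q15⟩

theorem w16 : Wx (EX xs7) Vale.Agent.P032X.Cert.X3.t1 (Vale.Agent.P032.Fam.fam3 Vale.Agent.P032.Fam.im0) WQ000.W16 := ⟨[0, 8, 16, 24, 32, 40, 48, 4, 12, 20, 28, 36, 44, 52, 60, 68, 76, 84, 92, 100, 108, 116, 124, 132, 140, 148, 156, 164, 172, 180, 188, 196, 204, 55591193, 39666073, 132782273, 52035585, 103481345, 58851329, 46285273, 99680257, 54067201, 85590017, 8667137, 43646977, 17055745, 77201409, 112066561, 6537217, 50954649],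
  Vale.Agent.P032.Lt.q_of (e' := WQ000.e16) (by decide +kernel) WQ000.q16⟩

theorem w17 : Wx (EX xs7) Vale.Agent.P032X.Cert.X3.t1 (Vale.Agent.P032.Fam.fam3 Vale.Agent.P032.Fam.im0) WQ000.W17 := ⟨[0, 8, 16, 24, 32, 40, 48, 4, 12, 20, 28, 36, 44, 52, 60, 68, 76, 84, 92, 100, 108, 116, 124, 132, 140, 148, 156, 164, 172, 180, 188, 196, 204, 212, 78512129, 66584577, 44073025, 23740889, 111182297, 15352281, 38044121, 83296665, 125239769, 58130841, 91685337, 36536321, 49807833, 41353217, 20430913, 12681689, 123765209, 109150209, 16187393, 24576409, 105578969, 851974, 1376262, 1900550, 2949126],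
  Vale.Agent.P032.Lt.q_of (e' := WQ000.e17) (by decide +kernel) WQ000.q17⟩

theorem w18 : Wx (EX xs7) Vale.Agent.P032X.Cert.X3.t1 (Vale.Agent.P032.Fam.fam3 Vale.Agent.P032.Fam.im0) WQ000.W18 := ⟨[0, 8, 16, 24, 32, 40, 48, 4, 12, 20, 28, 36, 44, 52, 60, 68, 76, 84, 92, 100, 108, 116, 124, 132, 140, 148, 156, 164, 172, 180, 188, 196, 204, 212, 220, 31982849, 21564825, 5229977, 22020097, 53874073, 88868097, 47467929, 120360345, 860166, 1376262, 1900550, 2949126],
  Vale.Agent.P032.Lt.q_of (e' := WQ000.e18) (by decide +kernel) WQ000.q18⟩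

theorem w19 : Wx (EX xs7) Vale.Agent.P032X.Cert.X3.t1 (Vale.Agent.P032.Fam.fam3 Vale.Agent.P032.Fam.im0) WQ000.W19 := ⟨[0, 8, 16, 24, 32, 40, 48, 4, 12, 20, 28, 36, 44, 52, 60, 68, 76, 84, 92, 100, 108, 116, 124, 132, 140, 148, 21218069, 21863569, 60382353, 20913297, 104799377, 860166, 892934],
  Vale.Agent.P032.Lt.q_of (e' := WQ000.e19) (by decide +kernel) WQ000.q19⟩

theorem w20 : Wx (EX xs7) Vale.Agent.P032X.Cert.X3.t1 (Vale.Agent.P032.Fam.fam3 Vale.Agent.P032.Fam.im0) WQ000.W20 := ⟨[0, 8, 16, 24, 32, 40, 48, 4, 12, 20, 28, 36, 44, 52, 60, 68, 76, 84, 92, 100, 108, 116, 124, 132, 140, 148, 96763905, 42729473, 50188353, 73924737, 4194881, 3538945, 133107097, 16502617, 121307137, 851974, 860166, 1908742, 2424838, 2949126],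
  Vale.Agent.P032.Lt.q_of (e' := WQ000.e20) (by decide +kernel) WQ000.q20⟩

theorem w21 : Wx (EX xs7) Vale.Agent.P032X.Cert.X3.t1 (Vale.Agent.P032.Fam.fam3 Vale.Agent.P032.Fam.im0) WQ000.W21 := ⟨[0, 8, 16, 24, 32, 40, 48, 4, 12, 20, 28, 36, 44, 52, 60, 68, 76, 84, 92, 100, 108, 116, 124, 132, 140, 148, 156, 164, 55312385, 28311553, 75169793, 63078401, 130187265, 12910593, 80019457, 20430937, 46481409, 59441561, 1900550, 2949126],
  Vale.Agent.P032.Lt.q_of (e' := WQ000.e21) (by decide +kernel) WQ000.q21⟩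

theorem w22 : Wx (EX xs7) Vale.Agent.P032X.Cert.X3.t1 (Vale.Agent.P032.Fam.fam3 Vale.Agent.P032.Fam.im0) WQ000.W22 := ⟨[0, 8, 16, 24, 32, 40, 48, 4, 12, 20, 28, 36, 44, 52, 60, 68, 76, 84, 92, 100, 108, 116, 124, 132, 140, 148, 156, 164, 172, 180, 188, 196, 204, 212, 220, 228, 236, 244, 252, 260, 268, 276, 284, 292, 300, 308, 20267073, 28147713, 34897921, 60294673, 58196377, 91750401, 83361793, 1703937, 77529089, 101580801, 16253337, 80576921, 65077249, 6275073, 32391233, 2883649, 22446081, 13402113, 30244865, 47022081, 6324225, 70091161, 2981889, 42549249, 117538817, 103645185, 130908161, 83984793, 25772441, 125305241, 54689793, 49168793, 109576601],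
  Vale.Agent.P032.Lt.q_of (e' := WQ000.e22) (by decide +kernel) WQ000.q22⟩

theorem w23 : Wx (EX xs7) Vale.Agent.P032X.Cert.X3.t1 (Vale.Agent.P032.Fam.fam3 Vale.Agent.P032.Fam.im0) WQ000.W23 := ⟨[0, 8, 16, 24, 32, 40, 48, 4, 12, 20, 28, 36, 44, 52, 60, 68, 76, 84, 92, 100, 108, 116, 124, 132, 140, 148, 156, 164, 172, 180, 188, 196, 204, 212, 220, 228, 236, 244, 252, 260, 131334617, 100663297, 131072473, 103645657, 123863105, 88900057, 54755329, 31621121, 121864193, 88310233, 49168449, 47022553, 21200897, 100368385, 43844057, 30966169, 10289561, 122454425, 55935449, 33292289, 89489409, 80510977, 77398017, 13402585, 105087449, 20431297, 20430913, 8012185, 36848089],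
  Vale.Agent.P032.Lt.q_of (e' := WQ000.e23) (by decide +kernel) WQ000.q23⟩

theorem w24 : Wx (EX xs7) Vale.Agent.P032X.Cert.X3.t1 (Vale.Agent.P032.Fam.fam3 Vale.Agent.P032.Fam.im0) WQ000.W24 := ⟨[0, 8, 16, 24, 32, 40, 48, 4, 12, 20, 28, 36, 44, 52, 60, 68, 76, 84, 92, 100, 108, 116, 124, 132, 140, 148, 156, 164, 172, 55312385, 33620441, 54067201, 8454617, 20431321, 31064537, 66009, 100729305, 67174873, 803289, 75563481, 81396185, 121372737, 15073281, 29360601, 109117913, 1376262, 1900550, 2949126],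
  Vale.Agent.P032.Lt.q_of (e' := WQ000.e24) (by decide +kernel) WQ000.q24⟩

theorem w25 : Wx (EX xs7) Vale.Agent.P032X.Cert.X3.t1 (Vale.Agent.P032.Fam.fam3 Vale.Agent.P032.Fam.im0) WQ000.W25 := ⟨[0, 8, 16, 24, 32, 40, 48, 4, 12, 20, 28, 36, 44, 52, 60, 68, 76, 84, 92, 100, 108, 116, 124, 132, 140, 148, 156, 164, 172, 180, 188, 196, 204, 212, 220, 228, 236, 244, 252, 260, 268, 101581273, 123863105, 110100481, 50954241, 51986433, 38273433, 6537625, 42566041, 9011609, 18432001, 71827865, 10616833, 118063513, 76120065, 78872577, 55591553],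
  Vale.Agent.P032.Lt.q_of (e' := WQ000.e25) (by decide +kernel) WQ000.q25⟩

theorem w26 : Wx (EX xs7) Vale.Agent.P032X.Cert.X3.t1 (Vale.Agent.P032.Fam.fam3 Vale.Agent.P032.Fam.im0) WQ000.W26 := ⟨[0, 8, 16, 24, 32, 40, 48, 4, 12, 20, 28, 36, 44, 52, 60, 68, 76, 84, 92, 100, 108, 116, 124, 132, 140, 148, 156, 164, 172, 180, 188, 196, 204, 212, 220, 228, 36061185, 100663297, 16138241, 88900057, 46956953, 10420225, 55345625, 1475033, 82379225, 122454425, 8012185, 43844057, 20431297, 20430913, 59998681, 80510977, 30966169, 10289561, 13402585],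
  Vale.Agent.P032.Lt.q_of (e' := WQ000.e26) (by decide +kernel) WQ000.q26⟩

theorem w27 : Wx (EX xs7) Vale.Agent.P032X.Cert.X3.t1 (Vale.Agent.P032.Fam.fam3 Vale.Agent.P032.Fam.im0) WQ001.W27 := ⟨[0, 8, 16, 24, 32, 40, 48, 4, 12, 20, 28, 36, 44, 52, 60, 68, 76, 84, 92, 100, 108, 116, 124, 132, 140, 148, 156, 164, 172, 180, 188, 196, 204, 5508897, 88869857, 1560997, 589825, 18481153, 85590489, 130941401, 133235161, 67699009, 34144729, 66126297, 43647449, 99680729, 70123993, 132780633, 52036057],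
  Vale.Agent.P032.Lt.q_of (e' := WQ001.e27) (by decide +kernel) WQ001.q27⟩

theorem w28 : Wx (EX xs7) Vale.Agent.P032X.Cert.X3.t1 (Vale.Agent.P032.Fam.fam3 Vale.Agent.P032.Fam.im0) WQ001.W28 := ⟨[0, 8, 16, 24, 32, 40, 48, 4, 12, 20, 28, 36, 44, 52, 60, 68, 76, 84, 92, 100, 108, 116, 124, 132, 140, 148, 156, 164, 172, 180, 188, 196, 204, 212, 220, 12304793, 37126209, 55591425, 3571713, 70680577, 860166, 2424838, 2433030, 2949126],
  Vale.Agent.P032.Lt.q_of (e' := WQ001.e28) (by decide +kernel) WQ001.q28⟩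

theorem w29 : Wx (EX xs7) Vale.Agent.P032X.Cert.X3.t1 (Vale.Agent.P032.Fam.fam3 Vale.Agent.P032.Fam.im0) WQ001.W29 := ⟨[0, 8, 16, 24, 32, 40, 48, 4, 12, 20, 28, 36, 44, 52, 60, 68, 76, 84, 92, 100, 108, 116, 124, 132, 140, 148, 156, 21222509, 21856409, 104792217, 127205529, 40927385, 884742, 1376262, 1400838, 1417222, 1900550, 2424838],
  Vale.Agent.P032.Lt.q_of (e' := WQ001.e29) (by decide +kernel) WQ001.q29⟩

theorem w30 : Wx (EX xs7) Vale.Agent.P032X.Cert.X3.t1 (Vale.Agent.P032.Fam.fam3 Vale.Agent.P032.Fam.im0) WQ001.W30 := ⟨[0, 8, 16, 24, 32, 40, 48, 4, 12, 20, 28, 36, 44, 52, 60, 68, 76, 84, 92, 100, 108, 116, 124, 132, 140, 148, 156, 164, 172, 180, 188, 196, 204, 212, 220, 228, 236, 244, 252, 260, 25742809, 61656537, 51432921, 32407553, 56282585, 3850305, 132238809, 573505, 59129921, 12897753, 13225369, 52084737, 74498049, 2280921, 21938177, 75877849, 115723737, 50974169, 36097433, 95538649, 6671833, 48877017, 126468097, 128499713,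 35504129, 42319873, 46841857, 5750785, 20234241, 39763969, 49594369, 66178521, 5361113, 6344153, 97042433, 53530073, 27839897, 113364441, 122486785, 327686, 851974, 2424838, 2949126],
  Vale.Agent.P032.Lt.q_of (e' := WQ001.e30) (by decide +kernel) WQ001.q30⟩

theorem w31 : Wx (EX xs7) Vale.Agent.P032X.Cert.X3.t1 (Vale.Agent.P032.Fam.fam3 Vale.Agent.P032.Fam.im0) WQ001.W31 := ⟨[0, 8, 16, 24, 32, 40, 48, 4, 12, 20, 28, 36, 44, 52, 60, 68, 76, 84, 92, 100, 108, 116, 124, 132, 140, 148, 156, 164, 172, 180, 188, 196, 204, 25742745, 56282521, 19120129, 39698433, 59129857, 12897689, 21433753],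
  Vale.Agent.P032.Lt.q_of (e' := WQ001.e31) (by decide +kernel) WQ001.q31⟩

theorem w32 : Wx (EX xs7) Vale.Agent.P032X.Cert.X3.t1 (Vale.Agent.P032.Fam.fam3 Vale.Agent.P032.Fam.im0) WQ001.W32 := ⟨[0, 8, 16, 24, 32, 40, 48, 4, 12, 20, 28, 36, 44, 52, 60, 68, 76, 84, 92, 100, 108, 116, 124, 132, 140, 148, 156, 164, 172, 180, 83889241, 32411097, 1753089, 69062105, 25742809, 3850305, 132238809, 56282585, 51432921, 125566977, 39763969, 5033369, 49594369, 125419521, 18071553, 12635609, 22872065, 5426649, 49073625, 327686, 851974, 892934, 2424838, 2465798, 2949126, 74053936562362],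
  Vale.Agent.P032.Lt.q_of (e' := WQ001.e32) (by decide +kernel) WQ001.q32⟩

theorem w33 : Wx (EX xs7) Vale.Agent.P032X.Cert.X3.t1 (Vale.Agent.P032.Fam.fam3 Vale.Agent.P032.Fam.im0) WQ001.W33 := ⟨[0, 8, 16, 24, 32, 40, 48, 4, 12, 20, 28, 36, 44, 52, 60, 68, 76, 84, 92, 100, 108, 116, 124, 132, 140, 71880089, 29999169, 12517377, 770049, 114409473, 11321345, 28164097, 13352961, 65126401, 55689217, 33144833, 851974, 1900550, 2949126],
  Vale.Agent.P032.Lt.q_of (e' := WQ001.e33) (by decide +kernel) WQ001.q33⟩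

theorem w34 : Wx (EX xs7) Vale.Agent.P032X.Cert.X3.t1 (Vale.Agent.P032.Fam.fam3 Vale.Agent.P032.Fam.im0) WQ001.W34 := ⟨[0, 8, 16, 24, 32, 40, 48, 4, 12, 20, 28, 36, 44, 52, 60, 68, 76, 84, 92, 100, 108, 116, 124, 132, 140, 25661209, 37093377, 92799321, 50184537, 23838721, 106565401, 130976409, 62980097, 18890753, 55050241, 9764865, 21892505, 33996993, 39977193, 48529409, 14685137, 56628113, 57462681, 33996929, 30854937, 892934, 1417222, 1941510, 2424838, 2949126, 38397010067642, 56496110256314, 97102342742042, 97113610739738, 97113618079770, 97343162900506, 97354430898202, 97354438238234],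
  Vale.Agent.P032.Lt.q_of (e' := WQ001.e34) (by decide +kernel) WQ001.q34⟩

theorem w35 : Wx (EX xs7) Vale.Agent.P032X.Cert.X3.t1 (Vale.Agent.P032.Fam.fam3 Vale.Agent.P032.Fam.im0) WQ001.W35 := ⟨[0, 8, 16, 24, 32, 40, 48, 4, 12, 20, 28, 36, 44, 52, 60, 68, 76, 84, 92, 100, 108, 116, 124, 132, 140, 148, 156, 164, 172, 180, 188, 196, 204, 212, 220, 228, 22007193, 93195673, 80072089, 68275609, 41012633, 10600449, 31309825, 94486529, 51757057, 75087873, 117820825, 40226201, 45465601, 66702745, 76926361, 76136449, 60407809, 37601281],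
  Vale.Agent.P032.Lt.q_of (e' := WQ001.e35) (by decide +kernel) WQ001.q35⟩

theorem w36 : Wx (EX xs7) Vale.Agent.P032X.Cert.X3.t1 (Vale.Agent.P032.Fam.fam3 Vale.Agent.P032.Fam.im0) WQ001.W36 := ⟨[0, 8, 16, 24, 32, 40, 48, 4, 12, 20, 28, 36, 44, 52, 60, 68, 76, 84, 92, 100, 108, 116, 124, 132, 140, 148, 156, 164, 172, 180, 188, 196, 1753089, 93192193, 262145, 74563609, 132238809, 90820057, 17944025, 125566977, 77712857, 92012545, 15024129, 65552385, 16515073, 4440065, 111198209, 124895233, 38977537, 125157377, 127978969, 92323841, 56410113, 24035329, 26787841, 45203457, 65716225, 119062529, 98570113, 130023769, 98570433, 130023681, 104988673, 860166, 1908742, 2424838, 2433030, 2949126, 56248071716922, 56248079056954, 73565379854394, 73565387194426],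
  Vale.Agent.P032.Lt.q_of (e' := WQ001.e36) (by decide +kernel) WQ001.q36⟩

theorem w37 : Wx (EX xs7) Vale.Agent.P032X.Cert.X3.t1 (Vale.Agent.P032.Fam.fam3 Vale.Agent.P032.Fam.im0) WQ001.W37 := ⟨[0, 8, 16, 24, 32, 40, 48, 4, 12, 20, 28, 36, 44, 52, 60, 68, 76, 84, 92, 100, 108, 116, 124, 132, 140, 148, 156, 164, 172, 180, 188, 196, 204, 212, 220, 228, 236, 130023553, 8969361, 63622617, 56279041, 29999169, 17940481, 70369281, 33144833, 132235265, 102875137, 49922049, 116768769, 109428737, 112574465, 3491073, 5098969, 21614041, 113623041, 15450113, 97107969, 52281345, 89243649, 38125569, 131186689, 75612161, 3984857, 40226265, 30785537, 52809177, 50642945, 2080769, 11386881, 32409249, 17678337, 4969033, 335878, 851974, 860166, 1376262, 1900550, 1908742, 2949126, 18599366721594, 56488858320954],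
  Vale.Agent.P032.Lt.q_of (e' := WQ001.e37) (by decide +kernel) WQ001.q37⟩

theorem w38 : Wx (EX xs7) Vale.Agent.P032X.Cert.X3.t1 (Vale.Agent.P032.Fam.fam3 Vale.Agent.P032.Fam.im0) WQ001.W38 := ⟨[0, 8, 16, 24, 32, 40, 48, 4, 12, 20, 28, 36, 44, 52, 60, 68, 76, 84, 92, 100, 108, 116, 124, 132, 140, 148, 156, 164, 172, 180, 188, 8969361, 133283841, 40681473, 11321345, 11386881, 7585793, 14994905, 113885185, 52281345, 2080769, 3984857, 16436697],
  Vale.Agent.P032.Lt.q_of (e' := WQ001.e38) (by decide +kernel) WQ001.q38⟩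

theorem w39 : Wx (EX xs7) Vale.Agent.P032X.Cert.X3.t1 (Vale.Agent.P032.Fam.fam3 Vale.Agent.P032.Fam.im0) WQ001.W39 := ⟨[0, 8, 16, 24, 32, 40, 48, 4, 12, 20, 28, 36, 44, 52, 60, 68, 76, 84, 92, 100, 108, 116, 124, 132, 140, 148, 156, 164, 172, 180, 8969361, 100712513, 56413657, 12517377, 15977945, 7982553, 98305, 770049, 11321345, 28164097, 87080961, 13352961, 65126401, 55689217, 33144833, 58048513, 70897113, 130665945, 851974, 1900550, 2949126],
  Vale.Agent.P032.Lt.q_of (e' := WQ001.e39) (by decide +kernel) WQ001.q39⟩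

theorem w40 : Wx (EX xs7) Vale.Agent.P032X.Cert.X3.t1 (Vale.Agent.P032.Fam.fam3 Vale.Agent.P032.Fam.im0) WQ001.W40 := ⟨[0, 8, 16, 24, 32, 40, 48, 4, 12, 20, 28, 36, 44, 52, 60, 68, 76, 84, 92, 100, 108, 116, 124, 132, 140, 148, 156, 120651777, 105234497, 36290561, 27115521, 118865921, 114409473, 17547329, 23969857, 83787777, 28429785, 82952193, 3460569, 88195073, 76136513, 9551937, 15712257, 67207169, 14270465, 15863257, 80678361, 22659073, 4833345, 82427969, 860166, 1900550, 1908742, 2433030, 2949126, 2957318, 56248079056954, 73565387194426, 95730638610458],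
  Vale.Agent.P032.Lt.q_of (e' := WQ001.e40) (by decide +kernel) WQ001.q40⟩

theorem w41 : Wx (EX xs7) Vale.Agent.P032X.Cert.X3.t1 (Vale.Agent.P032.Fam.fam3 Vale.Agent.P032.Fam.im0) WQ001.W41 := ⟨[0, 8, 16, 24, 32, 40, 48, 4, 12, 20, 28, 36, 44, 52, 60, 68, 76, 84, 92, 100, 108, 116, 124, 132, 140, 148, 156, 164, 1756633, 10488921, 55918593, 35487809, 13975617, 23380033, 22364225, 102596673, 69042241, 19644481, 70631489, 79216641, 16236609, 19447873, 32411097, 130023553, 104992217, 1900550, 2949126, 95730605056026, 95730638610458],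
  Vale.Agent.P032.Lt.q_of (e' := WQ001.e41) (by decide +kernel) WQ001.q41⟩

theorem w42 : Wx (EX xs7) Vale.Agent.P032X.Cert.X3.t1 (Vale.Agent.P032.Fam.fam3 Vale.Agent.P032.Fam.im0) WQ001.W42 := ⟨[0, 8, 16, 24, 32, 40, 48, 4, 12, 20, 28, 36, 44, 52, 60, 68, 76, 84, 92, 100, 108, 116, 124, 132, 140, 148, 156, 164, 172, 180, 188, 196, 204, 212, 220, 228, 236, 244, 252, 260, 268, 276, 55313933, 18464921, 63489497, 22595033, 6520985, 80332249, 63488153, 38387865, 55511041, 71943693, 10993817, 128565249, 47562753, 1426957, 5490189, 15843329, 8765441, 99205273, 40944857, 4309145, 90554521, 55427225, 9569805, 1376262, 1900550, 57608736432154, 58585939009562],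
  Vale.Agent.P032.Lt.q_of (e' := WQ001.e42) (by decide +kernel) WQ001.q42⟩

theorem w43 : Wx (EX xs7) Vale.Agent.P032X.Cert.X3.t1 (Vale.Agent.P032.Fam.fam3 Vale.Agent.P032.Fam.im0) WQ001.W43 := ⟨[0, 8, 16, 24, 32, 40, 48, 4, 12, 20, 28, 36, 44, 52, 60, 68, 76, 84, 92, 100, 108, 116, 124, 132, 140, 148, 156, 164, 172, 180, 188, 196, 12094873, 126926849, 4640153, 131121153, 50331649, 92405761, 62721433, 265625, 20958617, 6606233, 6704537, 109170073, 123800985, 54181889, 36798465, 860166, 1908742, 1916934, 2424838, 2949126, 56248079056954, 97651016425498, 97654783959066],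
  Vale.Agent.P032.Lt.q_of (e' := WQ001.e43) (by decide +kernel) WQ001.q43⟩

theorem w44 : Wx (EX xs7) Vale.Agent.P032X.Cert.X3.t1 (Vale.Agent.P032.Fam.fam3 Vale.Agent.P032.Fam.im0) WQ001.W44 := ⟨[0, 8, 16, 24, 32, 40, 48, 4, 12, 20, 28, 36, 44, 52, 60, 68, 76, 84, 92, 100, 108, 116, 124, 132, 140, 148, 156, 164, 172, 180, 42258201, 55054105, 25661337, 79691777, 55050241, 50184537, 23838721, 56672257, 16371481, 59035417, 79695641, 50188353, 860166, 2424838, 2433030, 2949126, 73565387194426, 97113584525338, 97113585573914, 97113618079770, 97113619128346],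
  Vale.Agent.P032.Lt.q_of (e' := WQ001.e44) (by decide +kernel) WQ001.q44⟩

theorem w45 : Wx (EX xs7) Vale.Agent.P032X.Cert.X3.t1 (Vale.Agent.P032.Fam.fam3 Vale.Agent.P032.Fam.im0) WQ001.W45 := ⟨[0, 8, 16, 24, 32, 40, 48, 4, 12, 20, 28, 36, 44, 52, 60, 68, 76, 84, 92, 100, 108, 116, 124, 132, 140, 148, 156, 164, 172, 180, 188, 196, 204, 212, 220, 25661209, 55054105, 54316825, 71307225, 120700929, 25657345, 60163009, 12046105, 44679169, 64602113, 89178113, 23842585, 335878, 860166, 1384454, 2424838, 2433030, 2949126, 36198634848314, 36679570522170, 38382088847418, 38863024521274, 73565387194426, 74046322868282, 97102299750426, 97102333304858, 97113584525338, 97113618079770, 97143649296410, 97143682850842],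
  Vale.Agent.P032.Lt.q_of (e' := WQ001.e45) (by decide +kernel) WQ001.q45⟩

theorem w46 : Wx (EX xs7) Vale.Agent.P032X.Cert.X3.t1 (Vale.Agent.P032.Fam.fam3 Vale.Agent.P032.Fam.im0) WQ001.W46 := ⟨[0, 8, 16, 24, 32, 40, 48, 4, 12, 20, 28, 36, 44, 52, 60, 68, 76, 84, 92, 100, 108, 116, 124, 132, 140, 148, 156, 164, 172, 180, 188, 196, 204, 212, 220, 228, 236, 244, 252, 260, 268, 276, 284, 292, 93195673, 32411033, 124112281, 80072089, 52019201, 10600449, 41012633, 68275609, 8375705, 107593729, 12697601, 117820825, 40226201, 66702745, 76926361, 76136449, 37601281, 60407809, 65912833, 45465601, 31571969, 94486529, 123846657, 4177921, 67223553, 87408641, 2342913, 119652353, 72732057, 5098905, 51757057, 31309825, 117555201, 75087873],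
  Vale.Agent.P032.Lt.q_of (e' := WQ001.e46) (by decide +kernel) WQ001.q46⟩

theorem w47 : Wx (EX xs7) Vale.Agent.P032X.Cert.X3.t1 (Vale.Agent.P032.Fam.fam3 Vale.Agent.P032.Fam.im0) WQ001.W47 := ⟨[0, 8, 16, 24, 32, 40, 48, 4, 12, 20, 28, 36, 44, 52, 60, 68, 76, 84, 92, 100, 108, 116, 124, 132, 140, 148, 156, 164, 172, 180, 188, 108793241, 3394969, 109694361, 71880153, 74567041, 65179033, 108580633, 108580249, 56413209, 63622553, 18009497, 31571969, 117820825, 8375705, 63098265, 87670785, 117555201, 4177921, 122011649, 123846657, 67223553, 60407809, 126209433, 1215897, 22134785, 94486529, 59097089, 15191449, 87408641, 22790145, 65912833, 96587161, 76926361, 7196057, 76136449, 94748673, 9948569, 101043609, 40226201, 106548633, 50711961, 76660737, 18206105, 21741569, 58314137, 14798233, 17045009, 10079641, 84004249, 93965721, 860166, 1908742, 2424838, 2433030, 2949126, 56248071716922, 73565379854394, 97654750404634, 97654783959066],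
  Vale.Agent.P032.Lt.q_of (e' := WQ001.e47) (by decide +kernel) WQ001.q47⟩

theorem w48 : Wx (EX xs7) Vale.Agent.P032X.Cert.X3.t1 (Vale.Agent.P032.Fam.fam3 Vale.Agent.P032.Fam.im0) WQ001.W48 := ⟨[0, 8, 16, 24, 32, 40, 48, 4, 12, 20, 28, 36, 44, 52, 60, 68, 76, 84, 92, 100, 108, 116, 124, 132, 140, 148, 156, 164, 172, 180, 188, 196, 204, 212, 28311553, 55312385, 43008473, 19595737, 15778265, 101826561, 2867673, 54067201, 50512345, 41484697, 95994329, 22462465, 29016537, 26214401, 44236801, 75547097, 73596929, 6537217, 81838553, 1900550, 2949126],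
  Vale.Agent.P032.Lt.q_of (e' := WQ001.e48) (by decide +kernel) WQ001.q48⟩

theorem w49 : Wx (EX xs7) Vale.Agent.P032X.Cert.X3.t1 (Vale.Agent.P032.Fam.fam3 Vale.Agent.P032.Fam.im0) WQ001.W49 := ⟨[0, 8, 16, 24, 32, 40, 48, 4, 12, 20, 28, 36, 44, 52, 60, 68, 76, 84, 92, 100, 108, 116, 124, 132, 140, 148, 156, 164, 172, 180, 188, 196, 204, 212, 1296449, 93847705, 18464921, 18792601, 86622209, 16898777, 51036313, 24959705, 63757017, 43434137, 15391449, 66109593, 43895461, 28098713, 23117977, 24232089, 104136857, 114671769, 16892057, 13942937, 15384729, 52609177, 2670745, 108642305, 24366977, 4573185, 22265857, 90292377, 14008473, 36356097, 45662209, 103923865, 103137433, 67682457, 47370177, 21022273, 19972249, 2410049, 352262, 892934, 1376262, 1900550, 2973702, 58311606362138, 89172656586874],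
  Vale.Agent.P032.Lt.q_of (e' := WQ001.e49) (by decide +kernel) WQ001.q49⟩

theorem w50 : Wx (EX xs7) Vale.Agent.P032X.Cert.X3.t1 (Vale.Agent.P032.Fam.fam3 Vale.Agent.P032.Fam.im0) WQ001.W50 := ⟨[0, 8, 16, 24, 32, 40, 48, 4, 12, 20, 28, 36, 44, 52, 60, 68, 76, 84, 92, 100, 108, 116, 124, 132, 140, 148, 156, 164, 172, 180, 43571169, 6471681, 23314433, 57196545, 51691521, 40419609, 80794329, 37278297, 6020577, 1376262, 1409030, 1417222, 1900550, 1933318, 1941510, 2424838, 2981894, 2990086, 57608741667002, 57638540107802, 58585569894554, 94979244769466],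
  Vale.Agent.P032.Lt.q_of (e' := WQ001.e50) (by decide +kernel) WQ001.q50⟩

theorem w51 : Wx (EX xs7) Vale.Agent.P032X.Cert.X3.t1 (Vale.Agent.P032.Fam.fam3 Vale.Agent.P032.Fam.im0) WQ001.W51 := ⟨[0, 8, 16, 24, 32, 40, 48, 4, 12, 20, 28, 36, 44, 52, 60, 68, 76, 84, 92, 100, 108, 116, 124, 132, 140, 148, 156, 164, 172, 180, 188, 196, 28622849, 88477465, 20893465, 2543065, 16171073, 73518873, 19910425, 91279129, 2211841, 1900550, 2424838, 2949126, 97113584525338, 97113618079770],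
  Vale.Agent.P032.Lt.q_of (e' := WQ001.e51) (by decide +kernel) WQ001.q51⟩

theorem w52 : Wx (EX xs7) Vale.Agent.P032X.Cert.X3.t1 (Vale.Agent.P032.Fam.fam3 Vale.Agent.P032.Fam.im0) WQ001.W52 := ⟨[0, 8, 16, 24, 32, 40, 48, 4, 12, 20, 28, 36, 44, 52, 60, 68, 76, 84, 92, 100, 108, 116, 124, 132, 140, 148, 156, 164, 32407553, 12701081, 16240025, 19451289, 180289, 53661081, 18730393, 3391489, 115985817, 93192193, 44679169, 39964057, 130141593, 93441433, 115458049, 79740929, 20368793, 31116697, 65392025, 68799897, 851974, 860166, 1384454, 2424838, 2433030, 2949126, 38382088847418, 38863024521274, 73565379854394, 74046315528250],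
  Vale.Agent.P032.Lt.q_of (e' := WQ001.e52) (by decide +kernel) WQ001.q52⟩

theorem w53 : Wx (EX xs7) Vale.Agent.P032X.Cert.X3.t1 (Vale.Agent.P032.Fam.fam3 Vale.Agent.P032.Fam.im0) WQ002.W53 := ⟨[0, 8, 16, 24, 32, 40, 48, 4, 12, 20, 28, 36, 44, 52, 60, 68, 76, 84, 92, 100, 108, 116, 124, 132, 140, 148, 156, 164, 172, 180, 188, 196, 204, 212, 220, 228, 236, 244, 252, 260, 108642457, 18464769, 24959553, 63756865, 1296857, 43433985, 15391297, 83479001, 18792449, 16898625, 86622361, 38323713, 66109441, 103923713, 77645529, 62701569, 11190273, 2670593, 52609025, 103137281, 28760793, 90292225, 22266009, 14008321, 36356249, 13942785, 93847553, 99991553, 35313049, 19972097, 15384577, 2410201, 67682305, 21022425, 47371737, 28098561, 114671617, 24231937, 23117825, 47562905, 18087937, 45662361, 38649857, 23511041, 16039937, 121159833, 8175617, 104136705, 860166, 1376262, 1400838, 1900550, 2973702, 58311207903258, 58585817374746, 93494727475322],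
  Vale.Agent.P032.Lt.q_of (e' := WQ002.e53) (by decide +kernel) WQ002.q53⟩

theorem w54 : Wx (EX xs7) Vale.Agent.P032X.Cert.X3.t1 (Vale.Agent.P032.Fam.fam3 Vale.Agent.P032.Fam.im0) WQ002.W54 := ⟨[0, 8, 16, 24, 32, 40, 48, 4, 12, 20, 28, 36, 44, 52, 60, 68, 76, 84, 92, 100, 108, 116, 124, 132, 140, 148, 156, 164, 172, 65847873, 44484249, 43631169, 18137089, 20305241, 42061633, 83479001, 22529689, 37800409, 32309825, 14667585, 972121, 1626881, 97162585, 1625753, 48121857, 22528001, 59408961, 22400833, 83477057, 72209753, 25286105, 3329985, 64345433, 37798465, 37673433, 20303809, 1376262, 1900550, 2949126],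
  Vale.Agent.P032.Lt.q_of (e' := WQ002.e54) (by decide +kernel) WQ002.q54⟩

theorem w55 : Wx (EX xs7) Vale.Agent.P032X.Cert.X3.t1 (Vale.Agent.P032.Fam.fam3 Vale.Agent.P032.Fam.im0) WQ002.W55 := ⟨[0, 8, 16, 24, 32, 40, 48, 4, 12, 20, 28, 36, 44, 52, 60, 68, 76, 84, 92, 100, 108, 116, 124, 132, 140, 973977, 9160921, 4311105, 61720793, 9756121, 1900550, 2424838, 77688075542554, 77688076591130, 77688310423578, 77688311472154, 77691836784666, 77692071665690, 78409495830554, 78409496879130, 78409797820442, 78409798869018, 78413257072666, 78413559062554],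
  Vale.Agent.P032.Lt.q_of (e' := WQ002.e55) (by decide +kernel) WQ002.q55⟩

theorem w56 : Wx (EX xs7) Vale.Agent.P032X.Cert.X3.t1 (Vale.Agent.P032.Fam.fam3 Vale.Agent.P032.Fam.im0) WQ002.W56 := ⟨[0, 8, 16, 24, 32, 40, 48, 4, 12, 20, 28, 36, 44, 52, 60, 68, 76, 84, 92, 100, 108, 116, 124, 132, 140, 148, 156, 164, 172, 180, 188, 196, 204, 212, 25739265, 32407553, 36339713, 19644481, 125943809, 2785281, 17285121, 15401025, 100253697, 7061569, 35245529, 55164929, 129613825, 32409249, 131448833, 18595841, 327686, 335878, 851974, 860166, 1900550, 2949126, 18599366721594],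
  Vale.Agent.P032.Lt.q_of (e' := WQ002.e56) (by decide +kernel) WQ002.q56⟩

theorem w57 : Wx (EX xs7) Vale.Agent.P032X.Cert.X3.t1 (Vale.Agent.P032.Fam.fam3 Vale.Agent.P032.Fam.im0) WQ002.W57 := ⟨[0, 8, 16, 24, 32, 40, 48, 4, 12, 20, 28, 36, 44, 52, 60, 68, 76, 84, 92, 100, 108, 116, 124, 132, 140, 148, 156, 164, 172, 180, 188, 196, 204, 212, 98570113, 88874065, 98570625, 98570561, 5409345, 56282585, 25742809, 36343257, 32411097, 102878681, 90820057, 180289, 9682945, 118083033, 4971497, 17681881, 32414697, 327686, 851974, 860166, 892934, 1417222, 2424838, 2433030, 2949126, 38656589250746, 73565387194426],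
  Vale.Agent.P032.Lt.q_of (e' := WQ002.e57) (by decide +kernel) WQ002.q57⟩

theorem w58 : Wx (EX xs7) Vale.Agent.P032X.Cert.X3.t1 (Vale.Agent.P032.Fam.fam3 Vale.Agent.P032.Fam.im0) WQ002.W58 := ⟨[0, 8, 16, 24, 32, 40, 48, 4, 12, 20, 28, 36, 44, 52, 60, 68, 76, 84, 92, 100, 108, 116, 124, 132, 140, 148, 156, 164, 172, 180, 8969361, 1163265, 11321345, 7585793, 2080769, 11386881, 30261249, 52543489, 65126401, 3260417, 102875137, 116768769, 23183361, 45465665, 29999169, 109428737, 327686, 335878, 851974, 860166, 1900550, 1908742, 2949126, 18599366721594, 18877561274426, 56248071716922],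
  Vale.Agent.P032.Lt.q_of (e' := WQ002.e58) (by decide +kernel) WQ002.q58⟩

theorem w59 : Wx (EX xs7) Vale.Agent.P032X.Cert.X3.t1 (Vale.Agent.P032.Fam.fam3 Vale.Agent.P032.Fam.im0) WQ002.W59 := ⟨[0, 8, 16, 24, 32, 40, 48, 4, 12, 20, 28, 36, 44, 52, 60, 68, 76, 84, 92, 100, 108, 116, 124, 132, 140, 148, 156, 164, 172, 180, 188, 196, 204, 212, 220, 228, 236, 244, 252, 28229633, 21479833, 99221913, 78512129, 47841281, 31047681, 42385409, 25608257, 31211521, 59441153, 45744129, 327686, 851974, 1376262, 1900550, 2949126],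
  Vale.Agent.P032.Lt.q_of (e' := WQ002.e59) (by decide +kernel) WQ002.q59⟩

theorem w60 : Wx (EX xs7) Vale.Agent.P032X.Cert.X3.t1 (Vale.Agent.P032.Fam.fam3 Vale.Agent.P032.Fam.im0) WQ002.W60 := ⟨[0, 8, 16, 24, 32, 40, 48, 4, 12, 20, 28, 36, 44, 52, 60, 68, 76, 84, 92, 100, 108, 116, 124, 132, 140, 148, 156, 164, 172, 180, 188, 196, 204, 212, 220, 228, 236, 244, 252, 260, 268, 276, 32407553, 69058561, 100712513, 1756633, 90816513, 17481729, 59883521, 22875609, 16698841, 39767513, 5029953, 49597913, 125423065, 18075097, 77709313, 111529433, 52088281, 12632065, 49070081, 5423105, 13684185, 120687705, 73207257, 41533441, 11259353, 42520025, 3491073, 335878, 860166, 1392646, 1900550, 2965510, 19088279961658, 92773085978714],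
  Vale.Agent.P032.Lt.q_of (e' := WQ002.e60) (by decide +kernel) WQ002.q60⟩

theorem w61 : Wx (EX xs7) Vale.Agent.P032X.Cert.X3.t1 (Vale.Agent.P032.Fam.fam3 Vale.Agent.P032.Fam.im0) WQ002.W61 := ⟨[0, 8, 16, 24, 32, 40, 48, 4, 12, 20, 28, 36, 44, 52, 60, 68, 76, 84, 92, 100, 108, 116, 124, 132, 140, 148, 156, 164, 172, 180, 188, 196, 204, 212, 220, 228, 236, 244, 252, 260, 268, 276, 284, 292, 300, 308, 316, 324, 332, 30851073, 50188353, 30854937, 50184537, 64536577, 92802305, 11980569, 23838721, 56672257, 55050241, 2329601, 71307225, 54316825, 89178113, 64602113, 4378393, 57331481, 121683969, 68730881, 21151745, 97636121, 44220417, 56479513, 23056153, 40026113, 15253505, 6868761, 16302081, 12046105, 79691777, 92799321, 57327617, 4374529, 68734745, 121687833, 71303361, 56676121, 23842585, 97632257, 56475649, 89181977, 44224281, 64540441, 23052289, 12042241, 6864897, 16305945, 11976705, 15257369, 64605977, 54312961, 79695641, 55054105, 40029977,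 2424838, 2949126, 97102333304858, 97113618079770, 97343187017754, 97354471792666, 97410767740954],
  Vale.Agent.P032.Lt.q_of (e' := WQ002.e61) (by decide +kernel) WQ002.q61⟩

theorem w62 : Wx (EX xs7) Vale.Agent.P032X.Cert.X3.t1 (Vale.Agent.P032.Fam.fam3 Vale.Agent.P032.Fam.im0) WQ002.W62 := ⟨[0, 8, 16, 24, 32, 40, 48, 4, 12, 20, 28, 36, 44, 52, 60, 68, 76, 84, 92, 100, 108, 116, 124, 132, 140, 148, 156, 164, 172, 180, 188, 196, 204, 212, 220, 61145561, 92045313, 6275073, 2883649, 31457561, 41336833, 96043137, 91750401, 9535489, 91799553, 1703937, 77529089, 101580801, 55591065, 51167233, 49332225, 25083905, 22856089, 58720537, 25690521, 26313113, 116393745, 92144025, 125305241, 109576601, 67633305],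
  Vale.Agent.P032.Lt.q_of (e' := WQ002.e62) (by decide +kernel) WQ002.q62⟩

theorem w63 : Wx (EX xs7) Vale.Agent.P032X.Cert.X3.t1 (Vale.Agent.P032.Fam.fam3 Vale.Agent.P032.Fam.im0) WQ002.W63 := ⟨[0, 8, 16, 24, 32, 40, 48, 4, 12, 20, 28, 36, 44, 52, 60, 68, 76, 84, 92, 100, 108, 116, 124, 132, 140, 148, 156, 164, 172, 180, 188, 196, 100437785, 44617497, 23838721, 56672257, 851974, 1908742, 1941510, 2424838, 2433030, 2465798, 2949126, 77413677891642, 77421459357882, 91329906696218, 91341182033946, 97102342742042, 97113618079770],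
  Vale.Agent.P032.Lt.q_of (e' := WQ002.e63) (by decide +kernel) WQ002.q63⟩

theorem w64 : Wx (EX xs7) Vale.Agent.P032X.Cert.X3.t1 (Vale.Agent.P032.Fam.fam3 Vale.Agent.P032.Fam.im0) WQ002.W64 := ⟨[0, 8, 16, 24, 32, 40, 48, 4, 12, 20, 28, 36, 44, 52, 60, 68, 76, 84, 92, 100, 108, 116, 124, 132, 140, 148, 156, 970201, 22528769, 15122433, 21549569, 37674201, 37797953, 83476545, 3328065, 72207833, 25284185, 19580865, 32309313, 574949, 30523801, 8637913, 72206401, 124374489, 19582425, 20827737, 93374465, 48120217, 1625409, 52481497, 20826177, 25282497, 1689665, 1032601, 14665665, 105500249, 11587033, 33934937, 851974, 1376262, 2957318],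
  Vale.Agent.P032.Lt.q_of (e' := WQ002.e64) (by decide +kernel) WQ002.q64⟩

theorem w65 : Wx (EX xs7) Vale.Agent.P032X.Cert.X3.t1 (Vale.Agent.P032.Fam.fam3 Vale.Agent.P032.Fam.im0) WQ002.W65 := ⟨[0, 8, 16, 24, 32, 40, 48, 4, 12, 20, 28, 36, 44, 52, 60, 68, 76, 84, 92, 100, 108, 116, 124, 132, 140, 148, 156, 164, 172, 180, 188, 196, 204, 212, 220, 228, 236, 244, 252, 260, 268, 276, 284, 292, 300, 308, 316, 324, 332, 340, 14927449, 5554177, 16959065, 43959897, 59558913, 59559321, 14925825, 29410905, 29409345, 31901209, 62572121, 48416345, 72402521, 41076249, 6733889, 29409281, 28759297, 120963073, 30326785, 48414721, 31899713, 62570497, 120964697, 62046273, 35309081, 110151257, 47367769, 116967001, 6735449, 58376257, 65323073, 59558977, 21415513, 17221209, 8832601, 21677657, 21413953, 59559385, 17219649, 8831041, 58377817, 43958337, 95471193, 65324633, 107529817, 31901273, 86558297, 5554241, 6733825, 30326849, 31899649, 41205825, 72400961,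 41074689, 34129497, 30328345, 8896513, 16959001, 6735385, 35307585, 43958273, 65324569, 58377753, 21413889, 95471129, 107529753, 21676033, 17219585, 8830977, 62047769, 110151193, 47366145, 116965377, 110149633, 21415449, 43959833, 65323009, 58376193, 8832537, 17221145, 95469569, 107528193, 21677593, 5555801, 16957441, 86558233, 41074753, 72400897, 8896577, 8898073, 110149697, 95469633, 107528257, 21676097, 41207321, 72402457, 41076313, 34127873, 5555737, 327686, 851974, 2949126],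
  Vale.Agent.P032.Lt.q_of (e' := WQ002.e65) (by decide +kernel) WQ002.q65⟩

theorem w66 : Wx (EX xs7) Vale.Agent.P032X.Cert.X3.t1 (Vale.Agent.P032.Fam.fam3 Vale.Agent.P032.Fam.im0) WQ002.W66 := ⟨[0, 8, 16, 24, 32, 40, 48, 4, 12, 20, 28, 36, 44, 52, 60, 68, 76, 84, 92, 100, 108, 116, 124, 132, 140, 148, 156, 164, 172, 180, 188, 196, 204, 212, 220, 228, 236, 244, 252, 260, 268, 276, 14927385, 55951361, 55953241, 14927705, 1689433, 11583809, 20825625, 33931265, 14926145, 59559321, 21552025, 43818405, 124372825, 12245465, 118609921, 3327833, 32620545, 100194305, 72204289, 105496577, 1687553, 25280833, 14925825, 52479833, 1038745, 105498137, 14664001, 11585369, 20824065, 33932825, 133744153, 52477953, 133742849, 65652249, 17596417, 55968065, 65651009, 17598297, 24166401, 133808129, 123248037, 30072229, 59562049, 12763137, 114688321, 133744409, 114689561, 12765017, 65652569, 133742593, 55969625, 65650689, 3325953, 72206169, 20824385, 11585049,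 33933145, 11583489, 20825945, 33931585, 43814989, 32622425, 124370945, 118607321, 25282073, 1035329, 105496897, 14665241, 24168281, 133810009, 123244621, 30068813, 12241921, 105498457, 100191705],
  Vale.Agent.P032.Lt.q_of (e' := WQ002.e66) (by decide +kernel) WQ002.q66⟩

theorem w67 : Wx (EX xs7) Vale.Agent.P032X.Cert.X3.t1 (Vale.Agent.P032.Fam.fam3 Vale.Agent.P032.Fam.im0) WQ002.W67 := ⟨[0, 8, 16, 24, 32, 40, 48, 4, 12, 20, 28, 36, 44, 52, 60, 68, 76, 84, 92, 100, 108, 116, 124, 132, 140, 148, 156, 164, 172, 180, 188, 196, 204, 212, 220, 228, 236, 71876673, 34983385, 100715929, 56410113, 1166809, 7589337, 11324889, 11390425, 2084313, 30264793, 28167641, 33148377, 249305, 13356505, 65129945, 107331585, 58052057, 86097921, 71417857, 13880793, 102350849, 54119897, 1376262, 1908742, 2424838, 2433030, 2949126, 77331065831482, 78376011661370, 97113618079770, 97617463042074],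
  Vale.Agent.P032.Lt.q_of (e' := WQ002.e67) (by decide +kernel) WQ002.q67⟩

theorem w68 : Wx (EX xs7) Vale.Agent.P032X.Cert.X3.t1 (Vale.Agent.P032.Fam.fam3 Vale.Agent.P032.Fam.im0) WQ002.W68 := ⟨[0, 8, 16, 24, 32, 40, 48, 4, 12, 20, 28, 36, 44, 52, 60, 68, 76, 84, 92, 100, 108, 116, 124, 132, 101711873, 41959425, 34603009],
  Vale.Agent.P032.Lt.q_of (e' := WQ002.e68) (by decide +kernel) WQ002.q68⟩

theorem w69 : Wx (EX xs7) Vale.Agent.P032X.Cert.X3.t1 (Vale.Agent.P032.Fam.fam3 Vale.Agent.P032.Fam.im0) WQ002.W69 := ⟨[0, 8, 16, 24, 32, 40, 48, 4, 12, 20, 28, 36, 44, 52, 60, 68, 76, 84, 92, 100, 108, 116, 124, 132, 140, 28246017, 77893593, 335878, 2424838, 2433030, 2949126, 2957318],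
  Vale.Agent.P032.Lt.q_of (e' := WQ002.e69) (by decide +kernel) WQ002.q69⟩

theorem w70 : Wx (EX xs7) Vale.Agent.P032X.Cert.X3.t1 (Vale.Agent.P032.Fam.fam3 Vale.Agent.P032.Fam.im0) WQ002.W70 := ⟨[0, 8, 16, 24, 32, 40, 48, 4, 12, 20, 28, 36, 44, 52, 60, 68, 76, 84, 92, 100, 108, 116, 124, 132, 140, 148, 156, 164, 172, 180, 188, 131858433, 128974977, 128978841, 20676609, 17891329, 63184025, 2424838, 2949126],
  Vale.Agent.P032.Lt.q_of (e' := WQ002.e70) (by decide +kernel) WQ002.q70⟩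

theorem w71 : Wx (EX xs7) Vale.Agent.P032X.Cert.X3.t1 (Vale.Agent.P032.Fam.fam3 Vale.Agent.P032.Fam.im0) WQ002.W71 := ⟨[0, 8, 16, 24, 32, 40, 48, 4, 12, 20, 28, 36, 44, 52, 60, 68, 76, 84, 92, 100, 108, 116, 124, 132, 140, 148, 156, 164, 172, 180, 188, 196, 36700481, 102760601, 69206745, 122686593, 1900550, 2949126],
  Vale.Agent.P032.Lt.q_of (e' := WQ002.e71) (by decide +kernel) WQ002.q71⟩

theorem w72 : Wx (EX xs7) Vale.Agent.P032X.Cert.X3.t1 (Vale.Agent.P032.Fam.fam3 Vale.Agent.P032.Fam.im0) WQ002.W72 := ⟨[0, 8, 16, 24, 32, 40, 48, 4, 12, 20, 28, 36, 44, 52, 60, 68, 76, 84, 92, 100, 108, 116, 124, 132, 140, 148, 156, 115769345, 9638473, 82215385, 48660481, 1900550, 2949126],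
  Vale.Agent.P032.Lt.q_of (e' := WQ002.e72) (by decide +kernel) WQ002.q72⟩

theorem w73 : Wx (EX xs7) Vale.Agent.P032X.Cert.X3.t1 (Vale.Agent.P032.Fam.fam3 Vale.Agent.P032.Fam.im0) WQ002.W73 := ⟨[0, 8, 16, 24, 32, 40, 48, 4, 12, 20, 28, 36, 44, 52, 60, 68, 76, 84, 92, 100, 108, 116, 124, 132, 140, 148, 156, 5262801, 31457297, 55053777, 107479065, 1966081, 5262737, 31457361, 55053713, 107479129, 1966145, 1376262, 2949126],
  Vale.Agent.P032.Lt.q_of (e' := WQ002.e73) (by decide +kernel) WQ002.q73⟩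

theorem w74 : Wx (EX xs7) Vale.Agent.P032X.Cert.X3.t1 (Vale.Agent.P032.Fam.fam3 Vale.Agent.P032.Fam.im0) WQ002.W74 := ⟨[0, 8, 16, 24, 32, 40, 48, 4, 12, 20, 28, 36, 44, 52, 60, 68, 76, 84, 92, 100, 108, 116, 124, 132, 140, 148, 156, 164, 172, 180, 188, 196, 204, 5261281, 2100825, 106335437, 36700481, 5261217, 29818969, 130023617, 2097177, 93323353, 130023641, 3146009, 106335565, 3146049, 69206617, 58720385, 3145793, 58720449, 1900550, 2949126],
  Vale.Agent.P032.Lt.q_of (e' := WQ002.e74) (by decide +kernel) WQ002.q74⟩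

theorem w75 : Wx (EX xs7) Vale.Agent.P032X.Cert.X3.t1 (Vale.Agent.P032.Fam.fam3 Vale.Agent.P032.Fam.im0) WQ002.W75 := ⟨[0, 8, 16, 24, 32, 40, 48, 4, 12, 20, 28, 36, 44, 52, 60, 68, 76, 84, 92, 100, 108, 116, 124, 132, 140, 148, 156, 164, 172, 180, 188, 196, 204, 63182785, 22052929, 7602241, 37756321, 96208481, 37754817, 63182489, 130976025, 96206849, 130974593, 7605657, 22056345, 37754521, 96208849, 37756113, 96206913, 93358865, 93358753],
  Vale.Agent.P032.Lt.q_of (e' := WQ002.e75) (by decide +kernel) WQ002.q75⟩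

theorem w76 : Wx (EX xs7) Vale.Agent.P032X.Cert.X3.t1 (Vale.Agent.P032.Fam.fam3 Vale.Agent.P032.Fam.im0) WQ002.W76 := ⟨[0, 8, 16, 24, 32, 40, 48, 4, 12, 20, 28, 36, 44, 52, 60, 68, 76, 84, 92, 100, 108, 116, 124, 132, 140, 148, 156, 164, 172, 180, 188, 196, 204, 212, 220, 36520001, 36519937, 40763393, 327686, 851974, 860166, 1908742, 2957318],
  Vale.Agent.P032.Lt.q_of (e' := WQ002.e76) (by decide +kernel) WQ002.q76⟩

theorem w77 : Wx (EX xs7) Vale.Agent.P032X.Cert.X3.t1 (Vale.Agent.P032.Fam.fam3 Vale.Agent.P032.Fam.im0) WQ003.W77 := ⟨[0, 8, 16, 24, 32, 40, 48, 4, 12, 20, 28, 36, 44, 52, 60, 68, 76, 84, 92, 100, 108, 116, 124, 132, 95028161, 2424838, 2949126, 2957318],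
  Vale.Agent.P032.Lt.q_of (e' := WQ003.e77) (by decide +kernel) WQ003.q77⟩

theorem w78 : Wx (EX xs7) Vale.Agent.P032X.Cert.X3.t1 (Vale.Agent.P032.Fam.fam3 Vale.Agent.P032.Fam.im0) WQ003.W78 := ⟨[0, 8, 16, 24, 32, 40, 48, 4, 12, 20, 28, 36, 44, 52, 60, 68, 76, 84, 92, 100, 108, 116, 124, 59604993, 126717401],
  Vale.Agent.P032.Lt.q_of (e' := WQ003.e78) (by decide +kernel) WQ003.q78⟩

theorem w79 : Wx (EX xs7) Vale.Agent.P032X.Cert.X3.t1 (Vale.Agent.P032.Fam.fam3 Vale.Agent.P032.Fam.im0) WQ003.W79 := ⟨[0, 8, 16, 24, 32, 40, 48, 4, 12, 20, 28, 36, 44, 52, 60, 68, 76, 84, 92, 100, 108, 116, 124, 132, 140, 148, 156, 164, 53020433, 53020305, 67633305, 129765901, 8131085, 20353869, 88872913, 88874065, 53020369, 3145753, 53510229, 74055833, 130023705],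
  Vale.Agent.P032.Lt.q_of (e' := WQ003.e79) (by decide +kernel) WQ003.q79⟩

theorem w80 : Wx (EX xs7) Vale.Agent.P032X.Cert.X3.t1 (Vale.Agent.P032.Fam.fam3 Vale.Agent.P032.Fam.im0) WQ003.W80 := ⟨[0, 8, 16, 24, 32, 40, 48, 4, 12, 20, 28, 36, 44, 52, 60, 68, 76, 84, 92, 100, 108, 116, 124, 132, 81788993, 851974, 2424838, 2949126],
  Vale.Agent.P032.Lt.q_of (e' := WQ003.e80) (by decide +kernel) WQ003.q80⟩

theorem w81 : Wx (EX xs7) Vale.Agent.P032X.Cert.X3.t1 (Vale.Agent.P032.Fam.fam3 Vale.Agent.P032.Fam.im0) WQ003.W81 := ⟨[0, 8, 16, 24, 32, 40, 48, 4, 12, 20, 28, 36, 44, 52, 60, 68, 76, 84, 92, 100, 108, 116, 124, 132, 140, 148, 156, 164, 172, 180, 20972321, 115081281, 98304409, 53510357, 85459465, 65160097, 48267785, 69730977, 31490977, 98599321, 81822217, 62456329, 115376649, 58345765, 14713241, 28901785, 112787929, 96010649, 53511013, 67633537],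
  Vale.Agent.P032.Lt.q_of (e' := WQ003.e81) (by decide +kernel) WQ003.q81⟩

theorem w82 : Wx (EX xs7) Vale.Agent.P032X.Cert.X3.t1 (Vale.Agent.P032.Fam.fam3 Vale.Agent.P032.Fam.im0) WQ003.W82 := ⟨[0, 8, 16, 24, 32, 40, 48, 4, 12, 20, 28, 36, 44, 52, 60, 68, 76, 84, 92, 100, 108, 116, 124, 132, 140, 148, 12582913, 121639873, 54525953, 100664897, 21233665, 83591233, 89489473, 124982145, 103645593, 54690201],
  Vale.Agent.P032.Lt.q_of (e' := WQ003.e82) (by decide +kernel) WQ003.q82⟩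

theorem w83 : Wx (EX xs7) Vale.Agent.P032X.Cert.X3.t1 (Vale.Agent.P032.Fam.fam3 Vale.Agent.P032.Fam.im0) WQ003.W83 := ⟨[0, 8, 16, 24, 32, 40, 48, 4, 12, 20, 28, 36, 44, 52, 60, 68, 76, 84, 92, 100, 108, 116, 124, 132, 140, 148, 156, 164, 172, 130976025, 130547713, 71568897, 85854785, 50331649, 83886145, 104992153, 851974, 2424838, 2949126],
  Vale.Agent.P032.Lt.q_of (e' := WQ003.e83) (by decide +kernel) WQ003.q83⟩

theorem w84 : Wx (EX xs7) Vale.Agent.P032X.Cert.X3.t1 (Vale.Agent.P032.Fam.fam3 Vale.Agent.P032.Fam.im0) WQ003.W84 := ⟨[0, 8, 16, 24, 32, 40, 48, 4, 12, 20, 28, 36, 44, 52, 60, 68, 76, 84, 92, 100, 108, 116, 124, 132, 140, 148, 156, 164, 172, 180, 188, 39731201, 89262125, 2424838, 2949126],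
  Vale.Agent.P032.Lt.q_of (e' := WQ003.e84) (by decide +kernel) WQ003.q84⟩

theorem w85 : Wx (EX xs7) Vale.Agent.P032X.Cert.X3.t1 (Vale.Agent.P032.Fam.fam3 Vale.Agent.P032.Fam.im0) WQ003.W85 := ⟨[0, 8, 16, 24, 32, 40, 48, 4, 12, 20, 28, 36, 44, 52, 60, 68, 76, 84, 92, 100, 108, 116, 124, 132, 140, 148, 156, 164, 172, 180, 188, 68681793, 2883777, 69995929, 1572929, 123800985, 35733505, 30015489, 65146265, 58722337, 130025625],
  Vale.Agent.P032.Lt.q_of (e' := WQ003.e85) (by decide +kernel) WQ003.q85⟩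

theorem w86 : Wx (EX xs7) Vale.Agent.P032X.Cert.X3.t1 (Vale.Agent.P032.Fam.fam3 Vale.Agent.P032.Fam.im0) WQ003.W86 := ⟨[0, 8, 16, 24, 32, 40, 48, 4, 12, 20, 28, 36, 44, 52, 60, 68, 76, 84, 92, 100, 108, 116, 124, 132, 140, 148, 156, 164, 172, 180, 61145561, 67633665, 5261585, 20976657, 31883265, 20975521, 48890265, 115999129, 33833369, 68813209, 33161217, 278937, 32113049, 130843033, 131727769, 58725353, 851974, 2424838, 2949126],
  Vale.Agent.P032.Lt.q_of (e' := WQ003.e86) (by decide +kernel) WQ003.q86⟩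

theorem w87 : Wx (EX xs7) Vale.Agent.P032X.Cert.X3.t1 (Vale.Agent.P032.Fam.fam3 Vale.Agent.P032.Fam.im0) WQ003.W87 := ⟨[0, 8, 16, 24, 32, 40, 48, 4, 12, 20, 28, 36, 44, 52, 60, 68, 76, 84, 92, 100, 108, 116, 124, 132, 140, 148, 156, 164, 172, 180, 188, 67634369, 49217537, 71729561, 87687169, 17580441, 20431257, 1376262, 2424838, 2949126],
  Vale.Agent.P032.Lt.q_of (e' := WQ003.e87) (by decide +kernel) WQ003.q87⟩

theorem w88 : Wx (EX xs7) Vale.Agent.P032X.Cert.X3.t1 (Vale.Agent.P032.Fam.fam3 Vale.Agent.P032.Fam.im0) WQ003.W88 := ⟨[0, 8, 16, 24, 32, 40, 48, 4, 12, 20, 28, 36, 44, 52, 60, 68, 76, 84, 92, 100, 108, 116, 124, 132, 140, 148, 85066137],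
  Vale.Agent.P032.Lt.q_of (e' := WQ003.e88) (by decide +kernel) WQ003.q88⟩

theorem w89 : Wx (EX xs7) Vale.Agent.P032X.Cert.X3.t1 (Vale.Agent.P032.Fam.fam3 Vale.Agent.P032.Fam.im0) WQ003.W89 := ⟨[0, 8, 16, 24, 32, 40, 48, 4, 12, 20, 28, 36, 44, 52, 60, 68, 76, 84, 92, 100, 108, 116, 124, 132, 140, 148, 156, 164, 172, 19759577, 35848257, 92045785, 91750873, 121799129, 1704409, 77529561, 101581273, 15958017, 10420225, 1900550, 2949126],
  Vale.Agent.P032.Lt.q_of (e' := WQ003.e89) (by decide +kernel) WQ003.q89⟩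

theorem w90 : Wx (EX xs7) Vale.Agent.P032X.Cert.X3.t1 (Vale.Agent.P032.Fam.fam3 Vale.Agent.P032.Fam.im0) WQ003.W90 := ⟨[0, 8, 16, 24, 32, 40, 48, 4, 12, 20, 28, 36, 44, 52, 60, 68, 76, 84, 92, 100, 108, 116, 124, 132, 140, 148, 156, 42729473, 66879489, 55050241, 71303361, 133992217, 26574849, 110460929, 25661209],
  Vale.Agent.P032.Lt.q_of (e' := WQ003.e90) (by decide +kernel) WQ003.q90⟩

theorem w91 : Wx (EX xs7) Vale.Agent.P032X.Cert.X3.t1 (Vale.Agent.P032.Fam.fam3 Vale.Agent.P032.Fam.im0) WQ003.W91 := ⟨[0, 8, 16, 24, 32, 40, 48, 4, 12, 20, 28, 36, 44, 52, 60, 68, 76, 84, 92, 100, 108, 116, 124, 132, 140, 148, 42729473, 25018369, 22282241, 26476609, 26476545, 26574849, 110460929, 60030977, 78905345, 851974, 860166, 1376262, 2424838, 2949126],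
  Vale.Agent.P032.Lt.q_of (e' := WQ003.e91) (by decide +kernel) WQ003.q91⟩

theorem w92 : Wx (EX xs7) Vale.Agent.P032X.Cert.X3.t1 (Vale.Agent.P032.Fam.fam3 Vale.Agent.P032.Fam.im0) WQ003.W92 := ⟨[0, 8, 16, 24, 32, 40, 48, 4, 12, 20, 28, 36, 44, 52, 60, 68, 76, 84, 92, 100, 108, 116, 124, 132, 140, 148, 156, 164, 172, 55054105, 115412761, 81923865, 48369113, 39669657, 6311385, 130023553, 3345881, 21364737, 63193089, 2424838, 2949126],
  Vale.Agent.P032.Lt.q_of (e' := WQ003.e92) (by decide +kernel) WQ003.q92⟩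

theorem w93 : Wx (EX xs7) Vale.Agent.P032X.Cert.X3.t1 (Vale.Agent.P032.Fam.fam3 Vale.Agent.P032.Fam.im0) WQ003.W93 := ⟨[0, 8, 16, 24, 32, 40, 48, 4, 12, 20, 28, 36, 44, 52, 60, 68, 76, 84, 92, 100, 108, 116, 124, 132, 140, 148, 156, 164, 172, 129765965, 89264717, 1900550, 2949126],
  Vale.Agent.P032.Lt.q_of (e' := WQ003.e93) (by decide +kernel) WQ003.q93⟩

theorem w94 : Wx (EX xs7) Vale.Agent.P032X.Cert.X3.t1 (Vale.Agent.P032.Fam.fam3 Vale.Agent.P032.Fam.im0) WQ003.W94 := ⟨[0, 8, 16, 24, 32, 40, 48, 4, 12, 20, 28, 36, 44, 52, 60, 68, 76, 84, 92, 100, 108, 116, 124, 132, 140, 148, 156, 164, 172, 60899801, 128909313, 24546213],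
  Vale.Agent.P032.Lt.q_of (e' := WQ003.e94) (by decide +kernel) WQ003.q94⟩

theorem w95 : Wx (EX xs7) Vale.Agent.P032X.Cert.X3.t1 (Vale.Agent.P032.Fam.fam3 Vale.Agent.P032.Fam.im0) WQ003.W95 := ⟨[0, 8, 16, 24, 32, 40, 48, 4, 12, 20, 28, 36, 44, 52, 60, 68, 76, 84, 92, 100, 108, 116, 124, 132, 140, 148, 156, 54301253],
  Vale.Agent.P032.Lt.q_of (e' := WQ003.e95) (by decide +kernel) WQ003.q95⟩

theorem w96 : Wx (EX xs7) Vale.Agent.P032X.Cert.X3.t1 (Vale.Agent.P032.Fam.fam3 Vale.Agent.P032.Fam.im0) WQ003.W96 := ⟨[0, 8, 16, 24, 32, 40, 48, 4, 12, 20, 28, 36, 44, 52, 60, 68, 76, 84, 92, 100, 113151065, 65028097],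
  Vale.Agent.P032.Lt.q_of (e' := WQ003.e96) (by decide +kernel) WQ003.q96⟩

theorem w97 : Wx (EX xs7) Vale.Agent.P032X.Cert.X3.t1 (Vale.Agent.P032.Fam.fam3 Vale.Agent.P032.Fam.im0) WQ003.W97 := ⟨[0, 8, 16, 24, 32, 40, 48, 4, 12, 20, 28, 36, 44, 52, 60, 68, 76, 84, 92, 100, 108, 116, 124, 132, 140, 29217433, 114065881, 49693145, 57972737],
  Vale.Agent.P032.Lt.q_of (e' := WQ003.e97) (by decide +kernel) WQ003.q97⟩

theorem w98 : Wx (EX xs7) Vale.Agent.P032X.Cert.X3.t1 (Vale.Agent.P032.Fam.fam3 Vale.Agent.P032.Fam.im0) WQ003.W98 := ⟨[0, 8, 16, 24, 32, 40, 48, 4, 12, 20, 28, 36, 44, 52, 60, 68, 76, 84, 92, 100, 108, 116, 124, 80216193, 1900550, 2949126],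
  Vale.Agent.P032.Lt.q_of (e' := WQ003.e98) (by decide +kernel) WQ003.q98⟩

theorem w99 : Wx (EX xs7) Vale.Agent.P032X.Cert.X3.t1 (Vale.Agent.P032.Fam.fam3 Vale.Agent.P032.Fam.im0) WQ003.W99 := ⟨[0, 8, 16, 24, 32, 40, 48, 4, 12, 20, 28, 36, 44, 52, 60, 68, 76, 84, 92, 100, 108, 116, 124, 132, 76742721, 92602725, 47939585, 26411009, 2424838, 2949126, 2965510],
  Vale.Agent.P032.Lt.q_of (e' := WQ003.e99) (by decide +kernel) WQ003.q99⟩

def L : List (List ℕ) := [WQ000.W0, WQ000.W1, WQ000.W2, WQ000.W3, WQ000.W4, WQ000.W5, WQ000.W6, WQ000.W7, WQ000.W8, WQ000.W9, WQ000.W10, WQ000.W11, WQ000.W12, WQ000.W13, WQ000.W14, WQ000.W15, WQ000.W16, WQ000.W17, WQ000.W18, WQ000.W19, WQ000.W20, WQ000.W21, WQ000.W22, WQ000.W23, WQ000.W24, WQ000.W25, WQ000.W26, WQ001.W27, WQ001.W28, WQ001.W29, WQ001.W30, WQ001.W31, WQ001.W32, WQ001.W33, WQ001.W34, WQ001.W35, WQ001.W36, WQ001.W37, WQ001.W38, WQ001.W39, WQ001.W40, WQ001.W41, WQ001.W42, WQ001.W43, WQ001.W44, WQ001.W45,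 WQ001.W46, WQ001.W47, WQ001.W48, WQ001.W49, WQ001.W50, WQ001.W51, WQ001.W52, WQ002.W53, WQ002.W54, WQ002.W55, WQ002.W56, WQ002.W57, WQ002.W58, WQ002.W59, WQ002.W60, WQ002.W61, WQ002.W62, WQ002.W63, WQ002.W64, WQ002.W65, WQ002.W66, WQ002.W67, WQ002.W68, WQ002.W69, WQ002.W70, WQ002.W71, WQ002.W72, WQ002.W73, WQ002.W74, WQ002.W75, WQ002.W76, WQ003.W77, WQ003.W78, WQ003.W79, WQ003.W80, WQ003.W81, WQ003.W82, WQ003.W83, WQ003.W84, WQ003.W85, WQ003.W86, WQ003.W87, WQ003.W88, WQ003.W89, WQ003.W90, WQ003.W91, WQ003.W92, WQ003.W93, WQ003.W94, WQ003.W95, WQ003.W96, WQ003.W97, WQ003.W98, WQ003.W99]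

theorem all : ∀ P ∈ L, Wx (EX xs7) Vale.Agent.P032X.Cert.X3.t1 (Vale.Agent.P032.Fam.fam3 Vale.Agent.P032.Fam.im0) P := wx_cons w0 (wx_cons w1 (wx_cons w2 (wx_cons w3 (wx_cons w4 (wx_cons w5 (wx_cons w6 (wx_cons w7 (wx_cons w8 (wx_cons w9 (wx_cons w10 (wx_cons w11 (wx_cons w12 (wx_cons w13 (wx_cons w14 (wx_cons w15 (wx_cons w16 (wx_cons w17 (wx_cons w18 (wx_cons w19 (wx_cons w20 (wx_cons w21 (wx_cons w22 (wx_cons w23 (wx_cons w24 (wx_cons w25 (wx_cons w26 (wx_cons w27 (wx_cons w28 (wx_cons w29 (wx_cons w30 (wx_cons w31 (wx_cons w32 (wx_cons w33 (wx_cons w34 (wx_cons w35 (wx_cons w36 (wx_cons w37 (wx_cons w38 (wx_cons w39 (wx_cons w40 (wx_cons w41 (wx_cons w42 (wx_cons w43 (wx_cons w44 (wx_cons w45 (wx_cons w46 (wx_cons w47 (wx_cons w48 (wx_cons w49 (wx_cons w50 (wx_cons w51 (wx_cons w52 (wx_cons w53 (wx_cons w54 (wx_cons w55 (wx_cons w56 (wx_cons w57 (wx_cons w58 (wx_cons w59 (wx_cons w60 (wx_cons w61 (wx_cons w62 (wx_cons w63 (wx_cons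 w64 (wx_cons w65 (wx_cons w66 (wx_cons w67 (wx_cons w68 (wx_cons w69 (wx_cons w70 (wx_cons w71 (wx_cons w72 (wx_cons w73 (wx_cons w74 (wx_cons w75 (wx_cons w76 (wx_cons w77 (wx_cons w78 (wx_cons w79 (wx_cons w80 (wx_cons w81 (wx_cons w82 (wx_cons w83 (wx_cons w84 (wx_cons w85 (wx_cons w86 (wx_cons w87 (wx_cons w88 (wx_cons w89 (wx_cons w90 (wx_cons w91 (wx_cons w92 (wx_cons w93 (wx_cons w94 (wx_cons w95 (wx_cons w96 (wx_cons w97 (wx_cons w98 (wx_cons w99 wx_nil)))))))))))))))))))))))))))))))))))))))))))))))))))))))))))))))))))))))))))))))))))))))))))))))))))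

theorem ch : chT 73 73 TCm Vale.Agent.P032X.Cert.X3.W2.sW_000 L = true := by decide +kernel

end Vale.Agent.P032X.Cert.X3.W2.WH000
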