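import Vale.Agent.P032X.H892.LtH
import Vale.Agent.P032X.H286.B73
import Vale.Agent.P032X.Cert.X3.T1
import Vale.Agent.P032X.Cert.X3.W2.WT
import Vale.Agent.P032X.Cert.X3.W2.WQ008
import Vale.Agent.P032X.Cert.X3.W2.WQ009
import Vale.Agent.P032X.Cert.X3.W2.WQ010
import Vale.Agent.P032X.Cert.X3.W2.WQ011
import Vale.Agent.P032X.Cert.X3.W2.WQ012

set_option maxRecDepth 1000000

namespace Vale.Agent.P032X.Cert.X3.W2.WH002

open Vale.Agent.P032.H820.K Vale.Agent.P032.H357.MK Vale.Agent.P032.H286.E Vale.Agent.P032.H61 Vale.Agent.P032.H61.TF Vale.Agent.P032.BlkE Vale.Agent.P032.BlkS Vale.Agent.P032.H357 Vale.Agent.P032 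

theorem w200 : Wx (EX xs7) Vale.Agent.P032X.Cert.X3.t1 (Vale.Agent.P032.Fam.fam3 Vale.Agent.P032.Fam.im0) WQ008.W200 := ⟨[0, 8, 16, 24, 32, 40, 48, 4, 12, 20, 28, 36, 44, 52, 60, 68, 76, 84, 92, 100, 32014337, 65572249, 68717977, 29773209, 99880345, 132681113, 123502593, 56393729, 1609113, 5128193, 99123201, 82706433, 35160065, 102268929, 14450689, 81559553, 48005121, 1900550, 2424838],
  Vale.Agent.P032.Lt.q_of (e' := WQ008.e200) (by decide +kernel) WQ008.q200⟩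

theorem w201 : Wx (EX xs7) Vale.Agent.P032X.Cert.X3.t1 (Vale.Agent.P032.Fam.fam3 Vale.Agent.P032.Fam.im0) WQ008.W201 := ⟨[0, 8, 16, 24, 32, 40, 48, 4, 12, 20, 28, 36, 44, 52, 60, 68, 76, 84, 92, 100, 108, 116, 124, 132, 140, 148, 156, 164, 172, 180, 188, 93358353, 93358737],
  Vale.Agent.P032.Lt.q_of (e' := WQ008.e201) (by decide +kernel) WQ008.q201⟩

theorem w202 : Wx (EX xs7) Vale.Agent.P032X.Cert.X3.t1 (Vale.Agent.P032.Fam.fam3 Vale.Agent.P032.Fam.im0) WQ008.W202 := ⟨[0, 8, 16, 24, 32, 40, 48, 4, 12, 20, 28, 36, 44, 52, 60, 68, 76, 84, 92, 100, 108, 116, 124, 132, 140, 148, 156, 164, 61145497, 93360337, 31458017, 74448897, 69206337, 95617089, 95617281, 1900550, 2949126],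
  Vale.Agent.P032.Lt.q_of (e' := WQ008.e202) (by decide +kernel) WQ008.q202⟩

theorem w203 : Wx (EX xs7) Vale.Agent.P032X.Cert.X3.t1 (Vale.Agent.P032.Fam.fam3 Vale.Agent.P032.Fam.im0) WQ008.W203 := ⟨[0, 8, 16, 24, 32, 40, 48, 4, 12, 20, 28, 36, 44, 52, 60, 68, 76, 84, 92, 100, 108, 116, 124, 132, 140, 148, 156, 164, 172, 180, 188, 20971585, 10884449, 49223561, 35001061, 74448961, 31457889, 78512537, 98828289, 23003201, 46039041, 34735013, 95617025, 1376262, 1384454, 1900550, 2433030, 2441222, 2949126, 2965510],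
  Vale.Agent.P032.Lt.q_of (e' := WQ008.e203) (by decide +kernel) WQ008.q203⟩

theorem w204 : Wx (EX xs7) Vale.Agent.P032X.Cert.X3.t1 (Vale.Agent.P032.Fam.fam3 Vale.Agent.P032.Fam.im0) WQ008.W204 := ⟨[0, 8, 16, 24, 32, 40, 48, 4, 12, 20, 28, 36, 44, 52, 60, 68, 76, 84, 92, 100, 108, 116, 124, 132, 140, 148, 156, 74448897, 31458017, 78381465, 1900550, 2949126],
  Vale.Agent.P032.Lt.q_of (e' := WQ008.e204) (by decide +kernel) WQ008.q204⟩

theorem w205 : Wx (EX xs7) Vale.Agent.P032X.Cert.X3.t1 (Vale.Agent.P032.Fam.fam3 Vale.Agent.P032.Fam.im0) WQ008.W205 := ⟨[0, 8, 16, 24, 32, 40, 48, 4, 12, 20, 28, 36, 44, 52, 60, 68, 76, 84, 92, 100, 108, 116, 124, 132, 140, 148, 54067673, 61898753, 121176537, 12124161, 20430849, 31064065, 61079961, 67633177],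
  Vale.Agent.P032.Lt.q_of (e' := WQ008.e205) (by decide +kernel) WQ008.q205⟩

theorem w206 : Wx (EX xs7) Vale.Agent.P032X.Cert.X3.t1 (Vale.Agent.P032.Fam.fam3 Vale.Agent.P032.Fam.im0) WQ008.W206 := ⟨[0, 8, 16, 24, 32, 40, 48, 4, 12, 20, 28, 36, 44, 52, 60, 68, 76, 84, 92, 100, 108, 116, 124, 132, 140, 148, 156, 124063513, 37882893, 37886029, 22347777, 106233857],
  Vale.Agent.P032.Lt.q_of (e' := WQ008.e206) (by decide +kernel) WQ008.q206⟩

theorem w207 : Wx (EX xs7) Vale.Agent.P032X.Cert.X3.t1 (Vale.Agent.P032.Fam.fam3 Vale.Agent.P032.Fam.im0) WQ008.W207 := ⟨[0, 8, 16, 24, 32, 40, 48, 4, 12, 20, 28, 36, 44, 52, 60, 68, 76, 84, 92, 100, 108, 116, 124, 132, 140, 148, 156, 164, 172, 180, 188, 196, 204, 212, 220, 228, 236, 244, 13828097, 43142937, 64753433, 50188353, 4194881, 13831961, 43139073, 50184537, 64749569, 12058905, 80940825, 80936961, 26365721, 82939673, 82935809, 26361857, 2424838, 2949126],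
  Vale.Agent.P032.Lt.q_of (e' := WQ008.e207) (by decide +kernel) WQ008.q207⟩

theorem w208 : Wx (EX xs7) Vale.Agent.P032X.Cert.X3.t1 (Vale.Agent.P032.Fam.fam3 Vale.Agent.P032.Fam.im0) WQ008.W208 := ⟨[0, 8, 16, 24, 32, 40, 48, 4, 12, 20, 28, 36, 44, 52, 60, 68, 76, 84, 92, 100, 108, 116, 124, 132, 140, 148, 156, 164, 172, 180, 188, 196, 204, 121373401, 66060289, 35848193, 69402689, 77365657, 105054617, 34488729, 131072409, 851974, 2424838, 2949126],
  Vale.Agent.P032.Lt.q_of (e' := WQ008.e208) (by decide +kernel) WQ008.q208⟩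

theorem w209 : Wx (EX xs7) Vale.Agent.P032X.Cert.X3.t1 (Vale.Agent.P032.Fam.fam3 Vale.Agent.P032.Fam.im0) WQ008.W209 := ⟨[0, 8, 16, 24, 32, 40, 48, 4, 12, 20, 28, 36, 44, 52, 60, 68, 76, 84, 92, 100, 108, 116, 124, 132, 140, 148, 156, 164, 172, 180, 188, 196, 204, 6291865, 93655937, 30573017, 851974, 2424838, 2949126],
  Vale.Agent.P032.Lt.q_of (e' := WQ008.e209) (by decide +kernel) WQ008.q209⟩

theorem w210 : Wx (EX xs7) Vale.Agent.P032X.Cert.X3.t1 (Vale.Agent.P032.Fam.fam3 Vale.Agent.P032.Fam.im0) WQ008.W210 := ⟨[0, 8, 16, 24, 32, 40, 48, 4, 12, 20, 28, 36, 44, 52, 60, 68, 76, 84, 92, 100, 108, 116, 124, 132, 140, 148, 156, 164, 172, 180, 188, 196, 204, 212, 29642841, 95229225, 69271553, 27656193, 61669377, 33701889, 16924673, 50479105, 128778241, 7143425, 18890753, 128974977, 89559001, 128978841, 95977473, 1900550, 1908742, 2424838, 2949126],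
  Vale.Agent.P032.Lt.q_of (e' := WQ008.e210) (by decide +kernel) WQ008.q210⟩

theorem w211 : Wx (EX xs7) Vale.Agent.P032X.Cert.X3.t1 (Vale.Agent.P032.Fam.fam3 Vale.Agent.P032.Fam.im0) WQ008.W211 := ⟨[0, 8, 16, 24, 32, 40, 48, 4, 12, 20, 28, 36, 44, 52, 60, 68, 76, 84, 92, 104268033, 9666561, 104271897, 9670425],
  Vale.Agent.P032.Lt.q_of (e' := WQ008.e211) (by decide +kernel) WQ008.q211⟩

theorem w212 : Wx (EX xs7) Vale.Agent.P032X.Cert.X3.t1 (Vale.Agent.P032.Fam.fam3 Vale.Agent.P032.Fam.im0) WQ008.W212 := ⟨[0, 8, 16, 24, 32, 40, 48, 4, 12, 20, 28, 36, 44, 52, 60, 68, 76, 84, 92, 100, 108, 23367449],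
  Vale.Agent.P032.Lt.q_of (e' := WQ008.e212) (by decide +kernel) WQ008.q212⟩

theorem w213 : Wx (EX xs7) Vale.Agent.P032X.Cert.X3.t1 (Vale.Agent.P032.Fam.fam3 Vale.Agent.P032.Fam.im0) WQ008.W213 := ⟨[0, 8, 16, 24, 32, 40, 48, 4, 12, 20, 28, 36, 44, 52, 60, 68, 76, 84, 92, 100, 108, 116, 124, 132, 140, 148, 156, 164, 172, 87425025, 87425153],
  Vale.Agent.P032.Lt.q_of (e' := WQ008.e213) (by decide +kernel) WQ008.q213⟩

theorem w214 : Wx (EX xs7) Vale.Agent.P032X.Cert.X3.t1 (Vale.Agent.P032.Fam.fam3 Vale.Agent.P032.Fam.im0) WQ008.W214 := ⟨[0, 8, 16, 24, 32, 40, 48, 4, 12, 20, 28, 36, 44, 52, 60, 68, 76, 84, 92, 100, 108, 116, 124, 132, 140, 148, 156, 164, 172, 180, 188, 196, 204, 75628801, 75628609, 20317733, 20318053, 31457381, 75628865, 31457509, 14944013, 20317861, 20317989, 75628737, 75628673, 75628545, 20317925, 20317797, 31457637, 31457317, 31457445, 31457573, 14943949, 14943821, 50186253, 14943885,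 14944077, 14943757, 327686, 851974],
  Vale.Agent.P032.Lt.q_of (e' := WQ008.e214) (by decide +kernel) WQ008.q214⟩

theorem w215 : Wx (EX xs7) Vale.Agent.P032X.Cert.X3.t1 (Vale.Agent.P032.Fam.fam3 Vale.Agent.P032.Fam.im0) WQ008.W215 := ⟨[0, 8, 16, 24, 32, 40, 48, 4, 12, 20, 28, 36, 44, 52, 60, 68, 76, 84, 92, 100, 108, 116, 124, 132, 140, 58736793],
  Vale.Agent.P032.Lt.q_of (e' := WQ008.e215) (by decide +kernel) WQ008.q215⟩

theorem w216 : Wx (EX xs7) Vale.Agent.P032X.Cert.X3.t1 (Vale.Agent.P032.Fam.fam3 Vale.Agent.P032.Fam.im0) WQ008.W216 := ⟨[0, 8, 16, 24, 32, 40, 48, 4, 12, 20, 28, 36, 44, 52, 60, 68, 76, 84, 92, 100, 108, 116, 124, 132, 140, 148, 113776741, 118816769, 22822913, 56377345],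
  Vale.Agent.P032.Lt.q_of (e' := WQ008.e216) (by decide +kernel) WQ008.q216⟩

theorem w217 : Wx (EX xs7) Vale.Agent.P032X.Cert.X3.t1 (Vale.Agent.P032.Fam.fam3 Vale.Agent.P032.Fam.im0) WQ008.W217 := ⟨[0, 8, 16, 24, 32, 40, 48, 4, 12, 20, 28, 36, 44, 52, 60, 68, 76, 84, 92, 100, 108, 116, 116589277, 111706393, 1900550, 2424838, 2433030],
  Vale.Agent.P032.Lt.q_of (e' := WQ008.e217) (by decide +kernel) WQ008.q217⟩

theorem w218 : Wx (EX xs7) Vale.Agent.P032X.Cert.X3.t1 (Vale.Agent.P032.Fam.fam3 Vale.Agent.P032.Fam.im0) WQ008.W218 := ⟨[0, 8, 16, 24, 32, 40, 48, 4, 12, 20, 28, 36, 44, 52, 60, 68, 76, 84, 92, 100, 108, 69733253, 50187405, 31473665, 69734789, 50185869, 335878, 851974, 860166, 1376262, 1384454, 2424838, 2957318],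
  Vale.Agent.P032.Lt.q_of (e' := WQ008.e218) (by decide +kernel) WQ008.q218⟩

theorem w219 : Wx (EX xs7) Vale.Agent.P032X.Cert.X3.t1 (Vale.Agent.P032.Fam.fam3 Vale.Agent.P032.Fam.im0) WQ008.W219 := ⟨[0, 8, 16, 24, 32, 40, 48, 4, 12, 20, 28, 36, 44, 52, 60, 68, 76, 84, 92, 100, 108, 116, 53513985, 1835009, 52166809, 119275673, 68944025, 335878, 860166, 1376262, 1900550, 1908742, 2957318],
  Vale.Agent.P032.Lt.q_of (e' := WQ008.e219) (by decide +kernel) WQ008.q219⟩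

theorem w220 : Wx (EX xs7) Vale.Agent.P032X.Cert.X3.t1 (Vale.Agent.P032.Fam.fam3 Vale.Agent.P032.Fam.im0) WQ008.W220 := ⟨[0, 8, 16, 24, 32, 40, 48, 4, 12, 20, 28, 36, 44, 52, 60, 68, 76, 84, 92, 100, 108, 117214913, 335878, 1900550, 1941510],
  Vale.Agent.P032.Lt.q_of (e' := WQ008.e220) (by decide +kernel) WQ008.q220⟩

theorem w221 : Wx (EX xs7) Vale.Agent.P032X.Cert.X3.t1 (Vale.Agent.P032.Fam.fam3 Vale.Agent.P032.Fam.im0) WQ008.W221 := ⟨[0, 8, 16, 24, 32, 40, 48, 4, 12, 20, 28, 36, 44, 52, 60, 68, 76, 84, 92, 100, 108, 116, 124, 132, 140, 148, 156, 164, 172, 180, 188, 196, 112721921, 134021273, 117244057, 63062017, 100466689, 66912257, 2244761, 67305625, 117243905, 100466841, 67305473, 2244609, 66912409, 33357849, 63062169, 33357825, 196609, 327686, 851974, 1376262, 1900550],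
  Vale.Agent.P032.Lt.q_of (e' := WQ008.e221) (by decide +kernel) WQ008.q221⟩

theorem w222 : Wx (EX xs7) Vale.Agent.P032X.Cert.X3.t1 (Vale.Agent.P032.Fam.fam3 Vale.Agent.P032.Fam.im0) WQ008.W222 := ⟨[0, 8, 16, 24, 32, 40, 48, 4, 12, 20, 28, 36, 44, 52, 60, 68, 76, 84, 92, 100, 108, 116, 124, 132, 140, 57181849],
  Vale.Agent.P032.Lt.q_of (e' := WQ008.e222) (by decide +kernel) WQ008.q222⟩

theorem w223 : Wx (EX xs7) Vale.Agent.P032X.Cert.X3.t1 (Vale.Agent.P032.Fam.fam3 Vale.Agent.P032.Fam.im0) WQ008.W223 := ⟨[0, 8, 16, 24, 32, 40, 48, 4, 12, 20, 28, 36, 44, 52, 60, 68, 76, 84, 92, 21218817, 335878, 860166, 1376262, 2424838, 2433030, 2957318],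
  Vale.Agent.P032.Lt.q_of (e' := WQ008.e223) (by decide +kernel) WQ008.q223⟩

theorem w224 : Wx (EX xs7) Vale.Agent.P032X.Cert.X3.t1 (Vale.Agent.P032.Fam.fam3 Vale.Agent.P032.Fam.im0) WQ008.W224 := ⟨[0, 8, 16, 24, 32, 40, 48, 4, 12, 20, 28, 36, 44, 52, 60, 68, 76, 84, 92, 100, 108, 116, 124, 132, 107708417, 35471361, 74153985, 7045657, 40599553],
  Vale.Agent.P032.Lt.q_of (e' := WQ008.e224) (by decide +kernel) WQ008.q224⟩

theorem w225 : Wx (EX xs7) Vale.Agent.P032X.Cert.X3.t1 (Vale.Agent.P032.Fam.fam3 Vale.Agent.P032.Fam.im0) WQ008.W225 := ⟨[0, 8, 16, 24, 32, 40, 48, 4, 12, 20, 28, 36, 44, 52, 60, 68, 76, 84, 92, 100, 72777729],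
  Vale.Agent.P032.Lt.q_of (e' := WQ008.e225) (by decide +kernel) WQ008.q225⟩

theorem w226 : Wx (EX xs7) Vale.Agent.P032X.Cert.X3.t1 (Vale.Agent.P032.Fam.fam3 Vale.Agent.P032.Fam.im0) WQ009.W226 := ⟨[0, 8, 16, 24, 32, 40, 48, 4, 12, 20, 28, 36, 44, 52, 60, 68, 76, 84, 92, 100, 108, 116, 124, 132, 140, 148, 156, 130025637, 53515417, 46273561, 50185637, 2102317, 49351769, 36930329, 33489689, 851974, 2424838, 2949126],
  Vale.Agent.P032.Lt.q_of (e' := WQ009.e226) (by decide +kernel) WQ009.q226⟩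

theorem w227 : Wx (EX xs7) Vale.Agent.P032X.Cert.X3.t1 (Vale.Agent.P032.Fam.fam3 Vale.Agent.P032.Fam.im0) WQ009.W227 := ⟨[0, 8, 16, 24, 32, 40, 48, 4, 12, 20, 28, 36, 44, 52, 60, 68, 76, 84, 92, 100, 108, 116, 124, 132, 140, 148, 156, 164, 29755393, 4882433, 105547777, 48120729, 97161153, 105546649, 29754265, 63604737, 97162585, 31343169, 4080537, 37635737, 55215769, 122324993, 20856833, 72811073, 26675673, 53104577, 64897945, 59408961, 25856473, 13271961, 66865625, 80382361, 42633689, 56117721, 97552025, 97550337, 109740953, 126517249, 109742081, 43813541, 41880025, 92964929, 38438553, 21661697, 71991297, 88770561, 130712473, 46826393, 113936025, 54412953, 30053849, 25854529, 11158081, 44712513, 31345113, 126518937, 55214081, 122323865, 37634049, 59410905, 4884121, 26673729, 4081665, 20858521, 72813017, 64899073, 53106009, 13273089, 66863681, 80380417, 56115777, 42631745, 92963801, 130713601, 113934337,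 44714457, 43812045, 46827521, 30052161, 41878081, 38436865, 21660569, 88769433, 71992985, 54411265, 11160025],
  Vale.Agent.P032.Lt.q_of (e' := WQ009.e227) (by decide +kernel) WQ009.q227⟩

theorem w228 : Wx (EX xs7) Vale.Agent.P032X.Cert.X3.t1 (Vale.Agent.P032.Fam.fam3 Vale.Agent.P032.Fam.im0) WQ009.W228 := ⟨[0, 8, 16, 24, 32, 40, 48, 4, 12, 20, 28, 36, 44, 52, 60, 68, 76, 84, 92, 100, 108, 116, 124, 132, 140, 118949849],
  Vale.Agent.P032.Lt.q_of (e' := WQ009.e228) (by decide +kernel) WQ009.q228⟩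

theorem w229 : Wx (EX xs7) Vale.Agent.P032X.Cert.X3.t1 (Vale.Agent.P032.Fam.fam3 Vale.Agent.P032.Fam.im0) WQ009.W229 := ⟨[0, 8, 16, 24, 32, 40, 48, 4, 12, 20, 28, 36, 44, 52, 60, 68, 76, 84, 92, 100, 108, 116, 124, 132, 29753817],
  Vale.Agent.P032.Lt.q_of (e' := WQ009.e229) (by decide +kernel) WQ009.q229⟩

theorem w230 : Wx (EX xs7) Vale.Agent.P032X.Cert.X3.t1 (Vale.Agent.P032.Fam.fam3 Vale.Agent.P032.Fam.im0) WQ009.W230 := ⟨[0, 8, 16, 24, 32, 40, 48, 4, 12, 20, 28, 36, 44, 52, 60, 68, 76, 84, 92, 100, 108, 116, 124, 132, 140, 148, 31461285, 69734405, 53514049, 40271873, 31461413, 7864321, 58343425, 58884097, 14716685, 93848897],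
  Vale.Agent.P032.Lt.q_of (e' := WQ009.e230) (by decide +kernel) WQ009.q230⟩

theorem w231 : Wx (EX xs7) Vale.Agent.P032X.Cert.X3.t1 (Vale.Agent.P032.Fam.fam3 Vale.Agent.P032.Fam.im0) WQ009.W231 := ⟨[0, 8, 16, 24, 32, 40, 48, 4, 12, 20, 28, 36, 44, 52, 60, 68, 76, 84, 92, 100, 108, 116, 124, 132, 140, 27787265, 1376262, 1900550, 2949126],
  Vale.Agent.P032.Lt.q_of (e' := WQ009.e231) (by decide +kernel) WQ009.q231⟩

theorem w232 : Wx (EX xs7) Vale.Agent.P032X.Cert.X3.t1 (Vale.Agent.P032.Fam.fam3 Vale.Agent.P032.Fam.im0) WQ009.W232 := ⟨[0, 8, 16, 24, 32, 40, 48, 4, 12, 20, 28, 36, 44, 52, 60, 68, 76, 84, 92, 100, 108, 116, 124, 132, 140, 148, 156, 164, 172, 180, 188, 196, 91130273, 20977697, 88874337, 64765953, 110100889, 24183257, 58851393, 21397697, 58720537],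
  Vale.Agent.P032.Lt.q_of (e' := WQ009.e232) (by decide +kernel) WQ009.q232⟩

theorem w233 : Wx (EX xs7) Vale.Agent.P032X.Cert.X3.t1 (Vale.Agent.P032.Fam.fam3 Vale.Agent.P032.Fam.im0) WQ009.W233 := ⟨[0, 8, 16, 24, 32, 40, 48, 4, 12, 20, 28, 36, 44, 52, 60, 68, 76, 84, 92, 100, 108, 116, 124, 132, 140, 148, 156, 164, 100663297, 78512129, 655361, 123666433, 116228097, 117309441, 42566041, 55607297, 1376262, 1900550, 2949126, 2965510],
  Vale.Agent.P032.Lt.q_of (e' := WQ009.e233) (by decide +kernel) WQ009.q233⟩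

theorem w234 : Wx (EX xs7) Vale.Agent.P032X.Cert.X3.t1 (Vale.Agent.P032.Fam.fam3 Vale.Agent.P032.Fam.im0) WQ009.W234 := ⟨[0, 8, 16, 24, 32, 40, 48, 4, 12, 20, 28, 36, 44, 52, 60, 68, 76, 84, 92, 100, 108, 116, 124, 132, 124715009, 335878, 1900550, 2424838],
  Vale.Agent.P032.Lt.q_of (e' := WQ009.e234) (by decide +kernel) WQ009.q234⟩

theorem w235 : Wx (EX xs7) Vale.Agent.P032X.Cert.X3.t1 (Vale.Agent.P032.Fam.fam3 Vale.Agent.P032.Fam.im0) WQ009.W235 := ⟨[0, 8, 16, 24, 32, 40, 48, 4, 12, 20, 28, 36, 44, 52, 60, 68, 76, 84, 92, 100, 108, 116, 124, 132, 140, 148, 156, 100663705, 78512537, 655769, 122716569, 55607705, 32342425, 99451289, 51741081, 49119641, 116228505, 82673665, 79462401, 12353537, 1900550, 2949126],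
  Vale.Agent.P032.Lt.q_of (e' := WQ009.e235) (by decide +kernel) WQ009.q235⟩

theorem w236 : Wx (EX xs7) Vale.Agent.P032X.Cert.X3.t1 (Vale.Agent.P032.Fam.fam3 Vale.Agent.P032.Fam.im0) WQ009.W236 := ⟨[0, 8, 16, 24, 32, 40, 48, 4, 12, 20, 28, 36, 44, 52, 60, 68, 76, 84, 92, 100, 108, 116, 124, 132, 140, 148, 156, 164, 172, 180, 120061953, 6947161, 75367937, 116592037, 851974, 1376262, 2949126],
  Vale.Agent.P032.Lt.q_of (e' := WQ009.e236) (by decide +kernel) WQ009.q236⟩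

theorem w237 : Wx (EX xs7) Vale.Agent.P032X.Cert.X3.t1 (Vale.Agent.P032.Fam.fam3 Vale.Agent.P032.Fam.im0) WQ009.W237 := ⟨[0, 8, 16, 24, 32, 40, 48, 4, 12, 20, 28, 36, 44, 52, 60, 68, 76, 84, 92, 100, 108, 116, 124, 132, 140, 148, 156, 164, 172, 16122073, 83230937, 1900550, 2424838],
  Vale.Agent.P032.Lt.q_of (e' := WQ009.e237) (by decide +kernel) WQ009.q237⟩

theorem w238 : Wx (EX xs7) Vale.Agent.P032X.Cert.X3.t1 (Vale.Agent.P032.Fam.fam3 Vale.Agent.P032.Fam.im0) WQ009.W238 := ⟨[0, 8, 16, 24, 32, 40, 48, 4, 12, 20, 28, 36, 44, 52, 60, 68, 76, 84, 92, 100, 108, 116, 124, 132, 140, 148, 156, 164, 172, 180, 188, 196, 204, 6291929, 20974353, 48955393, 67665921, 49217537, 16843161, 100664833, 12911001, 66978201, 4260249, 58851737, 10289561, 2097305, 1415961, 68517889, 132481089, 1900550, 2949126],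
  Vale.Agent.P032.Lt.q_of (e' := WQ009.e238) (by decide +kernel) WQ009.q238⟩

theorem w239 : Wx (EX xs7) Vale.Agent.P032X.Cert.X3.t1 (Vale.Agent.P032.Fam.fam3 Vale.Agent.P032.Fam.im0) WQ009.W239 := ⟨[0, 8, 16, 24, 32, 40, 48, 4, 12, 20, 28, 36, 44, 52, 60, 68, 76, 84, 92, 100, 108, 116, 124, 132, 140, 148, 156, 164, 172, 180, 188, 41796737, 69206745, 86245505, 93323289, 19398681, 851974, 2424838, 2949126],
  Vale.Agent.P032.Lt.q_of (e' := WQ009.e239) (by decide +kernel) WQ009.q239⟩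

theorem w240 : Wx (EX xs7) Vale.Agent.P032X.Cert.X3.t1 (Vale.Agent.P032.Fam.fam3 Vale.Agent.P032.Fam.im0) WQ009.W240 := ⟨[0, 8, 16, 24, 32, 40, 48, 4, 12, 20, 28, 36, 44, 52, 60, 68, 76, 84, 92, 100, 108, 116, 124, 132, 140, 148, 97124417, 63569921, 22023577, 327686, 851974, 1900550, 2949126],
  Vale.Agent.P032.Lt.q_of (e' := WQ009.e240) (by decide +kernel) WQ009.q240⟩

theorem w241 : Wx (EX xs7) Vale.Agent.P032X.Cert.X3.t1 (Vale.Agent.P032.Fam.fam3 Vale.Agent.P032.Fam.im0) WQ009.W241 := ⟨[0, 8, 16, 24, 32, 40, 48, 4, 12, 20, 28, 36, 44, 52, 60, 68, 76, 84, 92, 100, 108, 116, 124, 132, 140, 148, 156, 164, 172, 180, 188, 196, 64504001],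
  Vale.Agent.P032.Lt.q_of (e' := WQ009.e241) (by decide +kernel) WQ009.q241⟩

theorem w242 : Wx (EX xs7) Vale.Agent.P032X.Cert.X3.t1 (Vale.Agent.P032.Fam.fam3 Vale.Agent.P032.Fam.im0) WQ009.W242 := ⟨[0, 8, 16, 24, 32, 40, 48, 4, 12, 20, 28, 36, 44, 52, 60, 68, 76, 84, 92, 100, 108, 116, 124, 132, 140, 148, 156, 164, 172, 180, 188, 196, 204, 212, 70615041, 31459297, 31459233, 93356801],
  Vale.Agent.P032.Lt.q_of (e' := WQ009.e242) (by decide +kernel) WQ009.q242⟩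

theorem w243 : Wx (EX xs7) Vale.Agent.P032X.Cert.X3.t1 (Vale.Agent.P032.Fam.fam3 Vale.Agent.P032.Fam.im0) WQ009.W243 := ⟨[0, 8, 16, 24, 32, 40, 48, 4, 12, 20, 28, 36, 44, 52, 60, 68, 76, 84, 92, 100, 108, 116, 124, 132, 140, 148, 156, 164, 172, 180, 188, 196, 31588353, 20975249, 11468865, 38617089, 15368193, 4604313],
  Vale.Agent.P032.Lt.q_of (e' := WQ009.e243) (by decide +kernel) WQ009.q243⟩

theorem w244 : Wx (EX xs7) Vale.Agent.P032X.Cert.X3.t1 (Vale.Agent.P032.Fam.fam3 Vale.Agent.P032.Fam.im0) WQ009.W244 := ⟨[0, 8, 16, 24, 32, 40, 48, 4, 12, 20, 28, 36, 44, 52, 60, 68, 76, 84, 92, 100, 108, 116, 124, 132, 140, 148, 156, 164, 172, 180, 188, 196, 204, 212, 220, 228, 236, 244, 252, 260, 13648281, 42958849, 125304833, 16252929, 33030553, 49807769, 91750809, 116916633, 55591425, 9535897],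
  Vale.Agent.P032.Lt.q_of (e' := WQ009.e244) (by decide +kernel) WQ009.q244⟩

theorem w245 : Wx (EX xs7) Vale.Agent.P032X.Cert.X3.t1 (Vale.Agent.P032.Fam.fam3 Vale.Agent.P032.Fam.im0) WQ009.W245 := ⟨[0, 8, 16, 24, 32, 40, 48, 4, 12, 20, 28, 36, 44, 52, 60, 68, 76, 84, 92, 100, 108, 116, 124, 132, 140, 148, 156, 164, 172, 180, 188, 196, 204, 212, 220, 228, 236, 244, 6291929, 18874777, 12058777, 113311745, 31883673, 50184345, 92803841, 105709977, 38945177, 20119961, 87228825, 51813145, 76415385, 46537497, 63799705, 51724697, 36536729, 129434009, 97354137, 9240985, 24936857, 7799193, 57295257, 27296217, 74908057, 108462489, 6963609],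
  Vale.Agent.P032.Lt.q_of (e' := WQ009.e245) (by decide +kernel) WQ009.q245⟩

theorem w246 : Wx (EX xs7) Vale.Agent.P032X.Cert.X3.t1 (Vale.Agent.P032.Fam.fam3 Vale.Agent.P032.Fam.im0) WQ009.W246 := ⟨[0, 8, 16, 24, 32, 40, 48, 4, 12, 20, 28, 36, 44, 52, 60, 68, 76, 84, 92, 100, 108, 116, 124, 132, 140, 148, 156, 164, 172, 180, 188, 196, 204, 212, 220, 228, 236, 244, 252, 100664833, 35149713, 43401689, 55591553, 115507673, 18432001, 128483393],
  Vale.Agent.P032.Lt.q_of (e' := WQ009.e246) (by decide +kernel) WQ009.q246⟩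

theorem w247 : Wx (EX xs7) Vale.Agent.P032X.Cert.X3.t1 (Vale.Agent.P032.Fam.fam3 Vale.Agent.P032.Fam.im0) WQ009.W247 := ⟨[0, 8, 16, 24, 32, 40, 48, 4, 12, 20, 28, 36, 44, 52, 60, 68, 76, 84, 92, 100, 108, 116, 124, 132, 140, 148, 156, 164, 172, 180, 188, 196, 204, 212, 220, 39977025, 99090433, 25018369, 93357729, 39976961, 67108865, 115277825, 108432793, 41058305, 53939609, 132644865, 14942529],
  Vale.Agent.P032.Lt.q_of (e' := WQ009.e247) (by decide +kernel) WQ009.q247⟩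

theorem w248 : Wx (EX xs7) Vale.Agent.P032X.Cert.X3.t1 (Vale.Agent.P032.Fam.fam3 Vale.Agent.P032.Fam.im0) WQ009.W248 := ⟨[0, 8, 16, 24, 32, 40, 48, 4, 12, 20, 28, 36, 44, 52, 60, 68, 76, 84, 92, 100, 108, 116, 124, 132, 140, 148, 156, 164, 172, 180, 188, 196, 204, 212, 220, 228, 236, 40173569, 50151553, 20480001, 20971521, 71303361, 87588865, 94637849, 327686, 335878, 2424838, 2949126],
  Vale.Agent.P032.Lt.q_of (e' := WQ009.e248) (by decide +kernel) WQ009.q248⟩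

theorem w249 : Wx (EX xs7) Vale.Agent.P032X.Cert.X3.t1 (Vale.Agent.P032.Fam.fam3 Vale.Agent.P032.Fam.im0) WQ009.W249 := ⟨[0, 8, 16, 24, 32, 40, 48, 4, 12, 20, 28, 36, 44, 52, 60, 68, 76, 84, 92, 100, 108, 116, 124, 132, 140, 148, 156, 164, 172, 180, 188, 196, 20973265, 121962497, 22151233, 1900550, 2949126],
  Vale.Agent.P032.Lt.q_of (e' := WQ009.e249) (by decide +kernel) WQ009.q249⟩

theorem w250 : Wx (EX xs7) Vale.Agent.P032X.Cert.X3.t1 (Vale.Agent.P032.Fam.fam3 Vale.Agent.P032.Fam.im0) WQ009.W250 := ⟨[0, 8, 16, 24, 32, 40, 48, 4, 12, 20, 28, 36, 44, 52, 60, 68, 76, 84, 92, 100, 108, 116, 124, 132, 140, 148, 156, 164, 172, 180, 188, 196, 204, 212, 220, 20973573, 50872845],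
  Vale.Agent.P032.Lt.q_of (e' := WQ009.e250) (by decide +kernel) WQ009.q250⟩

theorem w251 : Wx (EX xs7) Vale.Agent.P032X.Cert.X3.t1 (Vale.Agent.P032.Fam.fam3 Vale.Agent.P032.Fam.im0) WQ010.W251 := ⟨[0, 8, 16, 24, 32, 40, 48, 4, 12, 20, 28, 36, 44, 52, 60, 68, 76, 84, 92, 100, 108, 116, 124, 132, 140, 148, 25313345, 54608281, 124584001, 112887449, 45777369, 79331329, 120390105],
  Vale.Agent.P032.Lt.q_of (e' := WQ010.e251) (by decide +kernel) WQ010.q251⟩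

theorem w252 : Wx (EX xs7) Vale.Agent.P032X.Cert.X3.t1 (Vale.Agent.P032.Fam.fam3 Vale.Agent.P032.Fam.im0) WQ010.W252 := ⟨[0, 8, 16, 24, 32, 40, 48, 4, 12, 20, 28, 36, 44, 52, 60, 68, 76, 84, 92, 100, 108, 116, 124, 132, 140, 148, 156, 104240529],
  Vale.Agent.P032.Lt.q_of (e' := WQ010.e252) (by decide +kernel) WQ010.q252⟩

theorem w253 : Wx (EX xs7) Vale.Agent.P032X.Cert.X3.t1 (Vale.Agent.P032.Fam.fam3 Vale.Agent.P032.Fam.im0) WQ010.W253 := ⟨[0, 8, 16, 24, 32, 40, 48, 4, 12, 20, 28, 36, 44, 52, 60, 68, 76, 84, 92, 100, 108, 116, 124, 132, 140, 148, 156, 164, 172, 180, 188, 88211457, 24674305, 49021825, 114556929],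
  Vale.Agent.P032.Lt.q_of (e' := WQ010.e253) (by decide +kernel) WQ010.q253⟩

theorem w254 : Wx (EX xs7) Vale.Agent.P032X.Cert.X3.t1 (Vale.Agent.P032.Fam.fam3 Vale.Agent.P032.Fam.im0) WQ010.W254 := ⟨[0, 8, 16, 24, 32, 40, 48, 4, 12, 20, 28, 36, 44, 52, 60, 68, 76, 84, 92, 100, 108, 116, 124, 132, 140, 148, 156, 164, 172, 180, 188, 91133857, 2104385, 92804257, 55312385, 130973825, 50189857, 79697289, 71307081, 92045721, 6275481, 125601441, 14811137, 13516801, 55055753, 56754177, 3409569, 860166, 1376262, 1908742, 2424838, 2433030, 2949126],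
  Vale.Agent.P032.Lt.q_of (e' := WQ010.e254) (by decide +kernel) WQ010.q254⟩

theorem w255 : Wx (EX xs7) Vale.Agent.P032X.Cert.X3.t1 (Vale.Agent.P032.Fam.fam3 Vale.Agent.P032.Fam.im0) WQ010.W255 := ⟨[0, 8, 16, 24, 32, 40, 48, 4, 12, 20, 28, 36, 44, 52, 60, 68, 76, 84, 92, 100, 108, 116, 124, 132, 140, 148, 156, 164, 172, 180, 188, 28311553, 126026137, 335878, 851974, 1900550, 2949126],
  Vale.Agent.P032.Lt.q_of (e' := WQ010.e255) (by decide +kernel) WQ010.q255⟩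

theorem w256 : Wx (EX xs7) Vale.Agent.P032X.Cert.X3.t1 (Vale.Agent.P032.Fam.fam3 Vale.Agent.P032.Fam.im0) WQ010.W256 := ⟨[0, 8, 16, 24, 32, 40, 48, 4, 12, 20, 28, 36, 44, 52, 60, 68, 76, 84, 92, 100, 108, 116, 124, 132, 140, 148, 156, 164, 172, 180, 188, 196, 6291521, 34078721, 78512129, 126910873, 6357401, 55312793, 79694993, 55053457, 18415617, 2331537, 16547841, 10518785, 15352281, 19205265, 3411089, 20119553, 72384921, 19825049, 72974745, 43975065, 58491289, 46537089, 1376262, 1900550, 2949126],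
  Vale.Agent.P032.Lt.q_of (e' := WQ010.e256) (by decide +kernel) WQ010.q256⟩

theorem w257 : Wx (EX xs7) Vale.Agent.P032X.Cert.X3.t1 (Vale.Agent.P032.Fam.fam3 Vale.Agent.P032.Fam.im0) WQ010.W257 := ⟨[0, 8, 16, 24, 32, 40, 48, 4, 12, 20, 28, 36, 44, 52, 60, 68, 76, 84, 92, 100, 108, 116, 124, 132, 140, 148, 156, 164, 172, 62930945, 28311553, 122945537, 58720409],
  Vale.Agent.P032.Lt.q_of (e' := WQ010.e257) (by decide +kernel) WQ010.q257⟩

theorem w258 : Wx (EX xs7) Vale.Agent.P032X.Cert.X3.t1 (Vale.Agent.P032.Fam.fam3 Vale.Agent.P032.Fam.im0) WQ010.W258 := ⟨[0, 8, 16, 24, 32, 40, 48, 4, 12, 20, 28, 36, 44, 52, 60, 68, 76, 84, 92, 100, 108, 116, 124, 132, 140, 148, 65110017, 121639809, 54525953, 12582913, 2424838, 2949126],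
  Vale.Agent.P032.Lt.q_of (e' := WQ010.e258) (by decide +kernel) WQ010.q258⟩

theorem w259 : Wx (EX xs7) Vale.Agent.P032X.Cert.X3.t1 (Vale.Agent.P032.Fam.fam3 Vale.Agent.P032.Fam.im0) WQ010.W259 := ⟨[0, 8, 16, 24, 32, 40, 48, 4, 12, 20, 28, 36, 44, 52, 60, 68, 76, 84, 92, 100, 108, 116, 124, 132, 140, 148, 156, 164, 172, 180, 188, 6897665, 50610649, 1376262, 1900550, 2949126],
  Vale.Agent.P032.Lt.q_of (e' := WQ010.e259) (by decide +kernel) WQ010.q259⟩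

theorem w260 : Wx (EX xs7) Vale.Agent.P032X.Cert.X3.t1 (Vale.Agent.P032.Fam.fam3 Vale.Agent.P032.Fam.im0) WQ010.W260 := ⟨[0, 8, 16, 24, 32, 40, 48, 4, 12, 20, 28, 36, 44, 52, 60, 68, 76, 84, 92, 100, 108, 116, 124, 132, 140, 148, 156, 164, 172, 180, 188, 196, 204, 212, 2301077],
  Vale.Agent.P032.Lt.q_of (e' := WQ010.e260) (by decide +kernel) WQ010.q260⟩

theorem w261 : Wx (EX xs7) Vale.Agent.P032X.Cert.X3.t1 (Vale.Agent.P032.Fam.fam3 Vale.Agent.P032.Fam.im0) WQ010.W261 := ⟨[0, 8, 16, 24, 32, 40, 48, 4, 12, 20, 28, 36, 44, 52, 60, 68, 76, 84, 92, 100, 108, 116, 124, 132, 140, 148, 156, 164, 172, 180, 188, 196, 204, 63475097, 1871257, 25021849, 51183617, 99093913, 11931033, 327686, 851974, 1900550, 2949126],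
  Vale.Agent.P032.Lt.q_of (e' := WQ010.e261) (by decide +kernel) WQ010.q261⟩

theorem w262 : Wx (EX xs7) Vale.Agent.P032X.Cert.X3.t1 (Vale.Agent.P032.Fam.fam3 Vale.Agent.P032.Fam.im0) WQ010.W262 := ⟨[0, 8, 16, 24, 32, 40, 48, 4, 12, 20, 28, 36, 44, 52, 60, 68, 76, 84, 92, 100, 108, 116, 124, 132, 140, 148, 156, 164, 172, 180, 124982145, 131072409, 121639809, 54525953, 12583233, 2884057, 92045721, 103645593, 1704345, 77529497, 42549657, 6275481, 21299201, 37896193, 33980417, 2982297, 21233665, 54788097],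
  Vale.Agent.P032.Lt.q_of (e' := WQ010.e262) (by decide +kernel) WQ010.q262⟩

theorem w263 : Wx (EX xs7) Vale.Agent.P032X.Cert.X3.t1 (Vale.Agent.P032.Fam.fam3 Vale.Agent.P032.Fam.im0) WQ010.W263 := ⟨[0, 8, 16, 24, 32, 40, 48, 4, 12, 20, 28, 36, 44, 52, 60, 68, 76, 84, 92, 100, 108, 116, 124, 132, 140, 148, 156, 164, 172, 18612225],
  Vale.Agent.P032.Lt.q_of (e' := WQ010.e263) (by decide +kernel) WQ010.q263⟩

theorem w264 : Wx (EX xs7) Vale.Agent.P032X.Cert.X3.t1 (Vale.Agent.P032.Fam.fam3 Vale.Agent.P032.Fam.im0) WQ010.W264 := ⟨[0, 8, 16, 24, 32, 40, 48, 4, 12, 20, 28, 36, 44, 52, 60, 68, 76, 84, 92, 100, 108, 116, 124, 132, 140, 148, 156, 164, 172, 180, 188, 196, 204, 6291929, 18874369, 98992129, 31883265, 42991617, 109576257, 98566209, 113312153, 20725825, 77627393, 98697281, 64520665, 68583897, 102138329, 35029465, 119570497, 8012185, 3703193, 30966169, 36848089, 92803929, 50184705, 85360641, 51812737,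 1475033, 9863577, 76972033, 18252249, 82214977, 132546561, 118915137, 67633241, 344070, 860166, 1900550, 1908742, 2441222, 2949126],
  Vale.Agent.P032.Lt.q_of (e' := WQ010.e264) (by decide +kernel) WQ010.q264⟩

theorem w265 : Wx (EX xs7) Vale.Agent.P032X.Cert.X3.t1 (Vale.Agent.P032.Fam.fam3 Vale.Agent.P032.Fam.im0) WQ010.W265 := ⟨[0, 8, 16, 24, 32, 40, 48, 4, 12, 20, 28, 36, 44, 52, 60, 68, 76, 84, 92, 100, 108, 116, 124, 132, 140, 148, 156, 164, 172, 180, 188, 196, 204, 212, 220, 228, 236, 91128705, 91129089, 6291865, 80740505, 6291521, 6291929, 113672665, 100663297],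
  Vale.Agent.P032.Lt.q_of (e' := WQ010.e265) (by decide +kernel) WQ010.q265⟩

theorem w266 : Wx (EX xs7) Vale.Agent.P032X.Cert.X3.t1 (Vale.Agent.P032.Fam.fam3 Vale.Agent.P032.Fam.im0) WQ010.W266 := ⟨[0, 8, 16, 24, 32, 40, 48, 4, 12, 20, 28, 36, 44, 52, 60, 68, 76, 84, 92, 100, 108, 116, 124, 132, 140, 148, 156, 164, 172, 180, 188, 196, 204, 61145497, 91128705, 66584705, 47645081, 39223705, 38175129, 20971777, 18874369, 20972185, 115474905, 61145089, 91129089, 67633433, 18874433, 18874841, 79167489, 335878, 851974, 1900550, 2949126],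
  Vale.Agent.P032.Lt.q_of (e' := WQ010.e266) (by decide +kernel) WQ010.q266⟩

theorem w267 : Wx (EX xs7) Vale.Agent.P032X.Cert.X3.t1 (Vale.Agent.P032.Fam.fam3 Vale.Agent.P032.Fam.im0) WQ010.W267 := ⟨[0, 8, 16, 24, 32, 40, 48, 4, 12, 20, 28, 36, 44, 52, 60, 68, 76, 84, 92, 100, 108, 116, 124, 132, 140, 148, 156, 164, 172, 12321241, 23609345, 122191937, 15224805, 40387033, 66339289, 29097985],
  Vale.Agent.P032.Lt.q_of (e' := WQ010.e267) (by decide +kernel) WQ010.q267⟩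

theorem w268 : Wx (EX xs7) Vale.Agent.P032X.Cert.X3.t1 (Vale.Agent.P032.Fam.fam3 Vale.Agent.P032.Fam.im0) WQ010.W268 := ⟨[0, 8, 16, 24, 32, 40, 48, 4, 12, 20, 28, 36, 44, 52, 60, 68, 76, 84, 92, 100, 108, 116, 124, 132, 16122073, 1900550, 2424838],
  Vale.Agent.P032.Lt.q_of (e' := WQ010.e268) (by decide +kernel) WQ010.q268⟩

theorem w269 : Wx (EX xs7) Vale.Agent.P032X.Cert.X3.t1 (Vale.Agent.P032.Fam.fam3 Vale.Agent.P032.Fam.im0) WQ010.W269 := ⟨[0, 8, 16, 24, 32, 40, 48, 4, 12, 20, 28, 36, 44, 52, 60, 68, 76, 84, 92, 100, 108, 116, 124, 132, 140, 148, 156, 8912897, 128450561, 111149057, 82090889],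
  Vale.Agent.P032.Lt.q_of (e' := WQ010.e269) (by decide +kernel) WQ010.q269⟩

theorem w270 : Wx (EX xs7) Vale.Agent.P032X.Cert.X3.t1 (Vale.Agent.P032.Fam.fam3 Vale.Agent.P032.Fam.im0) WQ011.W270 := ⟨[0, 8, 16, 24, 32, 40, 48, 4, 12, 20, 28, 36, 44, 52, 60, 68, 76, 84, 92, 100, 108, 116, 124, 132, 140, 148, 156, 164, 172, 180, 188, 67633177, 5509705, 58196377, 83689689, 851974, 2424838, 2949126],
  Vale.Agent.P032.Lt.q_of (e' := WQ011.e270) (by decide +kernel) WQ011.q270⟩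

theorem w271 : Wx (EX xs7) Vale.Agent.P032X.Cert.X3.t1 (Vale.Agent.P032.Fam.fam3 Vale.Agent.P032.Fam.im0) WQ011.W271 := ⟨[0, 8, 16, 24, 32, 40, 48, 4, 12, 20, 28, 36, 44, 52, 60, 68, 76, 84, 92, 100, 108, 116, 124, 132, 140, 148, 156, 164, 172, 180, 188, 196, 204, 212, 220, 19628033, 122945537, 86736897, 89129369, 97419673, 49103257, 34078721, 120291329, 66813953, 53182465, 32325633, 1376262, 1900550, 2949126],
  Vale.Agent.P032.Lt.q_of (e' := WQ011.e271) (by decide +kernel) WQ011.q271⟩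

theorem w272 : Wx (EX xs7) Vale.Agent.P032X.Cert.X3.t1 (Vale.Agent.P032.Fam.fam3 Vale.Agent.P032.Fam.im0) WQ011.W272 := ⟨[0, 8, 16, 24, 32, 40, 48, 4, 12, 20, 28, 36, 44, 52, 60, 68, 76, 84, 92, 100, 108, 116, 124, 132, 140, 148, 156, 164, 172, 180, 188, 196, 204, 212, 220, 228, 236, 244, 252, 260, 61145497, 11551129, 122945537, 81002905, 34078721, 13893633, 89129369],
  Vale.Agent.P032.Lt.q_of (e' := WQ011.e272) (by decide +kernel) WQ011.q272⟩

theorem w273 : Wx (EX xs7) Vale.Agent.P032X.Cert.X3.t1 (Vale.Agent.P032.Fam.fam3 Vale.Agent.P032.Fam.im0) WQ011.W273 := ⟨[0, 8, 16, 24, 32, 40, 48, 4, 12, 20, 28, 36, 44, 52, 60, 68, 76, 84, 92, 100, 108, 116, 124, 132, 140, 148, 156, 164, 172, 180, 188, 196, 204, 212, 220, 228, 236, 244, 252, 130023617, 64389185, 63184025, 4587649, 3031041, 25165889, 46203341, 14762241, 97943617, 53020513, 130023745, 64389121, 63182489, 4587777, 3031105, 14762113, 97943553,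 25165825, 53020385, 46203277, 133169217, 133169153, 1376262, 2949126],
  Vale.Agent.P032.Lt.q_of (e' := WQ011.e273) (by decide +kernel) WQ011.q273⟩

theorem w274 : Wx (EX xs7) Vale.Agent.P032X.Cert.X3.t1 (Vale.Agent.P032.Fam.fam3 Vale.Agent.P032.Fam.im0) WQ011.W274 := ⟨[0, 8, 16, 24, 32, 40, 48, 4, 12, 20, 28, 36, 44, 52, 60, 68, 76, 84, 92, 100, 108, 116, 124, 132, 140, 148, 156, 164, 172, 60591577, 43814361, 127700441, 94146009, 2199001, 27037145, 6065625, 110923161, 130023681, 327686, 851974, 1900550, 2949126],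
  Vale.Agent.P032.Lt.q_of (e' := WQ011.e274) (by decide +kernel) WQ011.q274⟩

theorem w275 : Wx (EX xs7) Vale.Agent.P032X.Cert.X3.t1 (Vale.Agent.P032.Fam.fam3 Vale.Agent.P032.Fam.im0) WQ011.W275 := ⟨[0, 8, 16, 24, 32, 40, 48, 4, 12, 20, 28, 36, 44, 52, 60, 68, 76, 84, 92, 100, 108, 116, 124, 132, 140, 148, 156, 164, 172, 180, 188, 196, 204, 212, 220, 228, 236, 76746137, 79953921, 27541505, 113508353, 57999361, 61210625, 40124417, 46596097, 107347969, 327686, 851974, 1376262, 1900550, 2949126],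
  Vale.Agent.P032.Lt.q_of (e' := WQ011.e275) (by decide +kernel) WQ011.q275⟩

theorem w276 : Wx (EX xs7) Vale.Agent.P032X.Cert.X3.t1 (Vale.Agent.P032.Fam.fam3 Vale.Agent.P032.Fam.im0) WQ011.W276 := ⟨[0, 8, 16, 24, 32, 40, 48, 4, 12, 20, 28, 36, 44, 52, 60, 68, 76, 84, 92, 100, 108, 116, 124, 132, 140, 148, 156, 2328229, 69732549, 53512257, 31459557, 79823257, 54282305, 2328357, 69732421, 53512385, 54282433, 31459429, 79823321],
  Vale.Agent.P032.Lt.q_of (e' := WQ011.e276) (by decide +kernel) WQ011.q276⟩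

theorem w277 : Wx (EX xs7) Vale.Agent.P032X.Cert.X3.t1 (Vale.Agent.P032.Fam.fam3 Vale.Agent.P032.Fam.im0) WQ011.W277 := ⟨[0, 8, 16, 24, 32, 40, 48, 4, 12, 20, 28, 36, 44, 52, 60, 68, 76, 84, 92, 100, 108, 116, 124, 132, 140, 148, 156, 164, 172, 180, 61767681, 128880089, 327686, 851974, 1900550, 2949126],
  Vale.Agent.P032.Lt.q_of (e' := WQ011.e277) (by decide +kernel) WQ011.q277⟩

theorem w278 : Wx (EX xs7) Vale.Agent.P032X.Cert.X3.t1 (Vale.Agent.P032.Fam.fam3 Vale.Agent.P032.Fam.im0) WQ011.W278 := ⟨[0, 8, 16, 24, 32, 40, 48, 4, 12, 20, 28, 36, 44, 52, 60, 68, 76, 84, 92, 100, 108, 77923841, 77922305],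
  Vale.Agent.P032.Lt.q_of (e' := WQ011.e278) (by decide +kernel) WQ011.q278⟩

theorem w279 : Wx (EX xs7) Vale.Agent.P032X.Cert.X3.t1 (Vale.Agent.P032.Fam.fam3 Vale.Agent.P032.Fam.im0) WQ011.W279 := ⟨[0, 8, 16, 24, 32, 40, 48, 4, 12, 20, 28, 36, 44, 52, 60, 68, 76, 84, 92, 100, 108, 116, 124, 132, 140, 148, 100794393],
  Vale.Agent.P032.Lt.q_of (e' := WQ011.e279) (by decide +kernel) WQ011.q279⟩

theorem w280 : Wx (EX xs7) Vale.Agent.P032X.Cert.X3.t1 (Vale.Agent.P032.Fam.fam3 Vale.Agent.P032.Fam.im0) WQ011.W280 := ⟨[0, 8, 16, 24, 32, 40, 48, 4, 12, 20, 28, 36, 44, 52, 60, 68, 76, 84, 92, 100, 108, 116, 124, 127926617, 1376262, 1900550, 1908742, 2433030, 2957318],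
  Vale.Agent.P032.Lt.q_of (e' := WQ011.e280) (by decide +kernel) WQ011.q280⟩

theorem w281 : Wx (EX xs7) Vale.Agent.P032X.Cert.X3.t1 (Vale.Agent.P032.Fam.fam3 Vale.Agent.P032.Fam.im0) WQ011.W281 := ⟨[0, 8, 16, 24, 32, 40, 48, 4, 12, 20, 28, 36, 44, 52, 60, 68, 76, 84, 92, 100, 108, 116, 124, 132, 140, 148, 156, 164, 172, 180, 188, 20972433, 91127809, 57573377, 115081689, 78021017, 79364505, 32179277, 860166, 2424838, 2433030, 2949126],
  Vale.Agent.P032.Lt.q_of (e' := WQ011.e281) (by decide +kernel) WQ011.q281⟩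

theorem w282 : Wx (EX xs7) Vale.Agent.P032X.Cert.X3.t1 (Vale.Agent.P032.Fam.fam3 Vale.Agent.P032.Fam.im0) WQ011.W282 := ⟨[0, 8, 16, 24, 32, 40, 48, 4, 12, 20, 28, 36, 44, 52, 60, 68, 76, 84, 92, 100, 108, 29949953, 860166, 1376262, 1384454, 1900550, 2957318],
  Vale.Agent.P032.Lt.q_of (e' := WQ011.e282) (by decide +kernel) WQ011.q282⟩

theorem w283 : Wx (EX xs7) Vale.Agent.P032X.Cert.X3.t1 (Vale.Agent.P032.Fam.fam3 Vale.Agent.P032.Fam.im0) WQ011.W283 := ⟨[0, 8, 16, 24, 32, 40, 48, 4, 12, 20, 28, 36, 44, 52, 60, 68, 76, 84, 92, 100, 108, 116, 124, 132, 140, 148, 156, 164, 172, 180, 188, 196, 204, 212, 220, 20972049, 53510861, 100794521, 41419097, 31457345, 31457473, 128385241, 58720449, 100794585, 20972177, 128385369],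
  Vale.Agent.P032.Lt.q_of (e' := WQ011.e283) (by decide +kernel) WQ011.q283⟩

theorem w284 : Wx (EX xs7) Vale.Agent.P032X.Cert.X3.t1 (Vale.Agent.P032.Fam.fam3 Vale.Agent.P032.Fam.im0) WQ011.W284 := ⟨[0, 8, 16, 24, 32, 40, 48, 4, 12, 20, 28, 36, 44, 52, 60, 68, 76, 84, 92, 100, 108, 116, 124, 132, 140, 148, 156, 164, 172, 180, 188, 196, 204, 37224449, 114164121, 74449305, 120914329, 69206617, 18874777, 74449369, 128483329, 20971793, 20972057, 97386561, 109707737, 30278105, 47054849, 25821593, 50561497, 79364505],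
  Vale.Agent.P032.Lt.q_of (e' := WQ011.e284) (by decide +kernel) WQ011.q284⟩

theorem w285 : Wx (EX xs7) Vale.Agent.P032X.Cert.X3.t1 (Vale.Agent.P032.Fam.fam3 Vale.Agent.P032.Fam.im0) WQ011.W285 := ⟨[0, 8, 16, 24, 32, 40, 48, 4, 12, 20, 28, 36, 44, 52, 60, 68, 76, 84, 92, 100, 108, 116, 124, 132, 140, 148, 156, 164, 172, 180, 188, 196, 204, 212, 220, 228, 18874777, 74449369, 78021081, 61145497, 50184985, 12058777, 84115481, 84115545, 118292953, 74449305, 18874841, 114164185, 56426969, 37224513, 31457489, 50185089, 120914393, 116425177, 20972185, 88801753, 106627545, 23003609, 25821657, 50561433, 47054913, 79364569, 19939801, 68419993, 11174297, 98828697, 65274329, 41795993, 79167897, 91129089, 106333925, 31457561, 53510157, 50184705, 130023489, 12059137, 20971777, 89981401, 83263761, 37224921, 22708377, 24003097, 85459841, 38174721, 47644673, 1900550, 2949126],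
  Vale.Agent.P032.Lt.q_of (e' := WQ011.e285) (by decide +kernel) WQ011.q285⟩

theorem w286 : Wx (EX xs7) Vale.Agent.P032X.Cert.X3.t1 (Vale.Agent.P032.Fam.fam3 Vale.Agent.P032.Fam.im0) WQ011.W286 := ⟨[0, 8, 16, 24, 32, 40, 48, 4, 12, 20, 28, 36, 44, 52, 60, 68, 76, 84, 92, 100, 108, 116, 124, 132, 140, 47727065, 107249665],
  Vale.Agent.P032.Lt.q_of (e' := WQ011.e286) (by decide +kernel) WQ011.q286⟩

theorem w287 : Wx (EX xs7) Vale.Agent.P032X.Cert.X3.t1 (Vale.Agent.P032.Fam.fam3 Vale.Agent.P032.Fam.im0) WQ011.W287 := ⟨[0, 8, 16, 24, 32, 40, 48, 4, 12, 20, 28, 36, 44, 52, 60, 68, 76, 84, 92, 100, 108, 116, 124, 132, 140, 148, 156, 164, 53511013, 20972641, 59900897, 19022233, 69730977, 31195201, 851974, 1900550, 2949126],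
  Vale.Agent.P032.Lt.q_of (e' := WQ011.e287) (by decide +kernel) WQ011.q287⟩

theorem w288 : Wx (EX xs7) Vale.Agent.P032X.Cert.X3.t1 (Vale.Agent.P032.Fam.fam3 Vale.Agent.P032.Fam.im0) WQ011.W288 := ⟨[0, 8, 16, 24, 32, 40, 48, 4, 12, 20, 28, 36, 44, 52, 60, 68, 76, 84, 92, 100, 108, 116, 126681497, 5046681, 1900550, 2949126],
  Vale.Agent.P032.Lt.q_of (e' := WQ011.e288) (by decide +kernel) WQ011.q288⟩

theorem w289 : Wx (EX xs7) Vale.Agent.P032X.Cert.X3.t1 (Vale.Agent.P032.Fam.fam3 Vale.Agent.P032.Fam.im0) WQ011.W289 := ⟨[0, 8, 16, 24, 32, 40, 48, 4, 12, 20, 28, 36, 44, 52, 60, 68, 76, 84, 92, 100, 108, 116, 124, 132, 140, 148, 156, 164, 40370585, 130318745, 124387737, 128909721, 7274905, 125698457, 125042689, 74383769],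
  Vale.Agent.P032.Lt.q_of (e' := WQ011.e289) (by decide +kernel) WQ011.q289⟩

theorem w290 : Wx (EX xs7) Vale.Agent.P032X.Cert.X3.t1 (Vale.Agent.P032.Fam.fam3 Vale.Agent.P032.Fam.im0) WQ011.W290 := ⟨[0, 8, 16, 24, 32, 40, 48, 4, 12, 20, 28, 36, 44, 52, 60, 68, 76, 84, 92, 100, 108, 116, 124, 132, 140, 148, 156, 164, 130023425, 41796057, 32538905, 61145561, 89981337, 116425113, 85460225, 100794577, 18874841, 12058905, 2424838, 2949126],
  Vale.Agent.P032.Lt.q_of (e' := WQ011.e290) (by decide +kernel) WQ011.q290⟩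

theorem w291 : Wx (EX xs7) Vale.Agent.P032X.Cert.X3.t1 (Vale.Agent.P032.Fam.fam3 Vale.Agent.P032.Fam.im0) WQ012.W291 := ⟨[0, 8, 16, 24, 32, 40, 48, 4, 12, 20, 28, 36, 44, 52, 60, 68, 76, 84, 92, 100, 108, 116, 124, 132, 140, 148, 156, 164, 172, 180, 188, 196, 204, 212, 220, 36700377, 36700249, 98567617, 127270977, 133169153, 24920065, 100827201, 132844553, 132647945, 69730337, 98566913, 46203341, 69966617, 3031041, 10488841],
  Vale.Agent.P032.Lt.q_of (e' := WQ012.e291) (by decide +kernel) WQ012.q291⟩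

theorem w292 : Wx (EX xs7) Vale.Agent.P032X.Cert.X3.t1 (Vale.Agent.P032.Fam.fam3 Vale.Agent.P032.Fam.im0) WQ012.W292 := ⟨[0, 8, 16, 24, 32, 40, 48, 4, 12, 20, 28, 36, 44, 52, 60, 68, 76, 84, 92, 100, 108, 116, 124, 132, 140, 148, 156, 164, 74448897, 95617089, 5510753, 130023833, 112230873, 1900550, 2949126],
  Vale.Agent.P032.Lt.q_of (e' := WQ012.e292) (by decide +kernel) WQ012.q292⟩

theorem w293 : Wx (EX xs7) Vale.Agent.P032X.Cert.X3.t1 (Vale.Agent.P032.Fam.fam3 Vale.Agent.P032.Fam.im0) WQ012.W293 := ⟨[0, 8, 16, 24, 32, 40, 48, 4, 12, 20, 28, 36, 44, 52, 60, 68, 76, 84, 92, 100, 108, 116, 124, 132, 140, 148, 156, 164, 172, 180, 188, 196, 112722073, 117243905, 100466841, 112721921, 163841, 63062169, 66912409, 2244609, 67305473, 63062017, 33357825, 117244057, 100466689, 33357849, 73105409, 196609, 66912257, 1376262, 1900550],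
  Vale.Agent.P032.Lt.q_of (e' := WQ012.e293) (by decide +kernel) WQ012.q293⟩

theorem w294 : Wx (EX xs7) Vale.Agent.P032X.Cert.X3.t1 (Vale.Agent.P032.Fam.fam3 Vale.Agent.P032.Fam.im0) WQ012.W294 := ⟨[0, 8, 16, 24, 32, 40, 48, 4, 12, 20, 28, 36, 44, 52, 60, 68, 76, 84, 92, 100, 108, 116, 124, 132, 140, 148, 156, 164, 67633241, 125960193, 19300417, 20709441, 75792793, 8683585, 56426969, 1900550, 2949126],
  Vale.Agent.P032.Lt.q_of (e' := WQ012.e294) (by decide +kernel) WQ012.q294⟩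

theorem w295 : Wx (EX xs7) Vale.Agent.P032X.Cert.X3.t1 (Vale.Agent.P032.Fam.fam3 Vale.Agent.P032.Fam.im0) WQ012.W295 := ⟨[0, 8, 16, 24, 32, 40, 48, 4, 12, 20, 28, 36, 44, 52, 60, 68, 76, 84, 92, 100, 108, 116, 124, 132, 140, 148, 156, 164, 172, 180, 188, 196, 204, 212, 220, 228, 6291929, 14942361, 67633305, 17957273, 18874777, 79167961, 37224857, 50184473, 35061761, 76415041, 88932353, 10519193, 21823489, 105120153, 131072409, 105054617, 49037313, 26034177, 22249473, 58261569, 125370369, 33030553, 5472665, 59589017, 121799065, 9535897, 36257793, 93553049, 77627457, 55345561, 127107481, 39026753, 103645593, 39879065, 59998617, 70090753, 6324633, 30966233, 106135553, 80084993, 72581529, 2424838, 2949126],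
  Vale.Agent.P032.Lt.q_of (e' := WQ012.e295) (by decide +kernel) WQ012.q295⟩

theorem w296 : Wx (EX xs7) Vale.Agent.P032X.Cert.X3.t1 (Vale.Agent.P032.Fam.fam3 Vale.Agent.P032.Fam.im0) WQ012.W296 := ⟨[0, 8, 16, 24, 32, 40, 48, 4, 12, 20, 28, 36, 44, 52, 60, 68, 76, 84, 92, 100, 108, 116, 124, 132, 140, 148, 156, 3146049, 102760537, 4587673, 52560025, 860166, 1376262, 2949126],
  Vale.Agent.P032.Lt.q_of (e' := WQ012.e296) (by decide +kernel) WQ012.q296⟩

theorem w297 : Wx (EX xs7) Vale.Agent.P032X.Cert.X3.t1 (Vale.Agent.P032.Fam.fam3 Vale.Agent.P032.Fam.im0) WQ012.W297 := ⟨[0, 8, 16, 24, 32, 40, 48, 4, 12, 20, 28, 36, 44, 52, 60, 68, 76, 84, 92, 100, 7536641, 860166, 1376262, 2433030],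
  Vale.Agent.P032.Lt.q_of (e' := WQ012.e297) (by decide +kernel) WQ012.q297⟩

theorem w298 : Wx (EX xs7) Vale.Agent.P032X.Cert.X3.t1 (Vale.Agent.P032.Fam.fam3 Vale.Agent.P032.Fam.im0) WQ012.W298 := ⟨[0, 8, 16, 24, 32, 40, 48, 4, 12, 20, 28, 36, 44, 52, 60, 68, 76, 84, 92, 100, 108, 116, 124, 132, 140, 148, 156, 164, 172, 31986561, 23855577],
  Vale.Agent.P032.Lt.q_of (e' := WQ012.e298) (by decide +kernel) WQ012.q298⟩

theorem w299 : Wx (EX xs7) Vale.Agent.P032X.Cert.X3.t1 (Vale.Agent.P032.Fam.fam3 Vale.Agent.P032.Fam.im0) WQ012.W299 := ⟨[0, 8, 16, 24, 32, 40, 48, 4, 12, 20, 28, 36, 44, 52, 60, 68, 76, 84, 92, 100, 108, 116, 124, 132, 140, 148, 156, 164, 172, 180, 188, 79562585, 104761177, 133759041, 79562457, 104761049, 133758977, 327686, 851974, 2949126, 2957318],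
  Vale.Agent.P032.Lt.q_of (e' := WQ012.e299) (by decide +kernel) WQ012.q299⟩

def L : List (List ℕ) := [WQ008.W200, WQ008.W201, WQ008.W202, WQ008.W203, WQ008.W204, WQ008.W205, WQ008.W206, WQ008.W207, WQ008.W208, WQ008.W209, WQ008.W210, WQ008.W211, WQ008.W212, WQ008.W213, WQ008.W214, WQ008.W215, WQ008.W216, WQ008.W217, WQ008.W218, WQ008.W219, WQ008.W220, WQ008.W221, WQ008.W222, WQ008.W223, WQ008.W224, WQ008.W225, WQ009.W226, WQ009.W227, WQ009.W228, WQ009.W229, WQ009.W230, WQ009.W231, WQ009.W232, WQ009.W233, WQ009.W234, WQ009.W235, WQ009.W236, WQ009.W237, WQ009.W238, WQ009.W239, WQ009.W240, WQ009.W241, WQ009.W242, WQ009.W243, WQ009.W244, WQ009.W245, WQ009.W246, WQ009.W247, WQ009.W248, WQ009.W249, WQ009.W250, WQ010.W251, WQ010.W252, WQ010.W253, WQ010.W254, WQ010.W255, WQ010.W256, WQ010.W257, WQ010.W258, WQ010.W259, WQ010.W260, WQ010.W261, WQ010.W262, WQ010.W263, WQ010.W264, WQ010.W265, WQ010.W266, WQ010.W267,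 WQ010.W268, WQ010.W269, WQ011.W270, WQ011.W271, WQ011.W272, WQ011.W273, WQ011.W274, WQ011.W275, WQ011.W276, WQ011.W277, WQ011.W278, WQ011.W279, WQ011.W280, WQ011.W281, WQ011.W282, WQ011.W283, WQ011.W284, WQ011.W285, WQ011.W286, WQ011.W287, WQ011.W288, WQ011.W289, WQ011.W290, WQ012.W291, WQ012.W292, WQ012.W293, WQ012.W294, WQ012.W295, WQ012.W296, WQ012.W297, WQ012.W298, WQ012.W299]

theorem all : ∀ P ∈ L, Wx (EX xs7) Vale.Agent.P032X.Cert.X3.t1 (Vale.Agent.P032.Fam.fam3 Vale.Agent.P032.Fam.im0) P := wx_cons w200 (wx_cons w201 (wx_cons w202 (wx_cons w203 (wx_cons w204 (wx_cons w205 (wx_cons w206 (wx_cons w207 (wx_cons w208 (wx_cons w209 (wx_cons w210 (wx_cons w211 (wx_cons w212 (wx_cons w213 (wx_cons w214 (wx_cons w215 (wx_cons w216 (wx_cons w217 (wx_cons w218 (wx_cons w219 (wx_cons w220 (wx_cons w221 (wx_cons w222 (wx_cons w223 (wx_cons w224 (wx_cons w225 (wx_cons w226 (wx_cons w227 (wx_cons w228 (wx_cons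 w229 (wx_cons w230 (wx_cons w231 (wx_cons w232 (wx_cons w233 (wx_cons w234 (wx_cons w235 (wx_cons w236 (wx_cons w237 (wx_cons w238 (wx_cons w239 (wx_cons w240 (wx_cons w241 (wx_cons w242 (wx_cons w243 (wx_cons w244 (wx_cons w245 (wx_cons w246 (wx_cons w247 (wx_cons w248 (wx_cons w249 (wx_cons w250 (wx_cons w251 (wx_cons w252 (wx_cons w253 (wx_cons w254 (wx_cons w255 (wx_cons w256 (wx_cons w257 (wx_cons w258 (wx_cons w259 (wx_cons w260 (wx_cons w261 (wx_cons w262 (wx_cons w263 (wx_cons w264 (wx_cons w265 (wx_cons w266 (wx_cons w267 (wx_cons w268 (wx_cons w269 (wx_cons w270 (wx_cons w271 (wx_cons w272 (wx_cons w273 (wx_cons w274 (wx_cons w275 (wx_cons w276 (wx_cons w277 (wx_cons w278 (wx_cons w279 (wx_cons w280 (wx_cons w281 (wx_cons w282 (wx_cons w283 (wx_cons w284 (wx_cons w285 (wx_cons w286 (wx_cons w287 (wx_cons w288 (wx_cons w289 (wx_cons w290 (wx_cons w291 (wx_cons w292 (wx_cons w293 (wx_cons w294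 (wx_cons w295 (wx_cons w296 (wx_cons w297 (wx_cons w298 (wx_cons w299 wx_nil)))))))))))))))))))))))))))))))))))))))))))))))))))))))))))))))))))))))))))))))))))))))))))))))))))

theorem ch : chT 73 73 TCm Vale.Agent.P032X.Cert.X3.W2.sW_002 L = true := by decide +kernel

end Vale.Agent.P032X.Cert.X3.W2.WH002
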