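import Vale.Agent.P032X.H892.LtH
import Vale.Agent.P032X.H286.B73
import Vale.Agent.P032X.Cert.X3.T1
import Vale.Agent.P032X.Cert.X3.W2.WT
import Vale.Agent.P032X.Cert.X3.W2.WQ013
import Vale.Agent.P032X.Cert.X3.W2.WQ014
import Vale.Agent.P032X.Cert.X3.W2.WQ015
import Vale.Agent.P032X.Cert.X3.W2.WQ016

set_option maxRecDepth 1000000

namespace Vale.Agent.P032X.Cert.X3.W2.WH003

open Vale.Agent.P032.H820.K Vale.Agent.P032.H357.MK Vale.Agent.P032.H286.E Vale.Agent.P032.H61 Vale.Agent.P032.H61.TF Vale.Agent.P032.BlkE Vale.Agent.P032.BlkS Vale.Agent.P032.H357 Vale.Agent.P032 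

theorem w300 : Wx (EX xs7) Vale.Agent.P032X.Cert.X3.t1 (Vale.Agent.P032.Fam.fam3 Vale.Agent.P032.Fam.im0) WQ013.W300 := ⟨[0, 8, 16, 24, 32, 40, 48, 4, 12, 20, 28, 36, 44, 52, 60, 68, 76, 84, 92, 100, 108, 116, 124, 132, 140, 148, 156, 164, 172, 180, 18894617, 25657345, 37093377, 79695641, 62983961, 37751585],
  Vale.Agent.P032.Lt.q_of (e' := WQ013.e300) (by decide +kernel) WQ013.q300⟩

theorem w301 : Wx (EX xs7) Vale.Agent.P032X.Cert.X3.t1 (Vale.Agent.P032.Fam.fam3 Vale.Agent.P032.Fam.im0) WQ013.W301 := ⟨[0, 8, 16, 24, 32, 40, 48, 4, 12, 20, 28, 36, 44, 52, 60, 68, 76, 84, 92, 100, 108, 116, 124, 132, 140, 148, 156, 164, 172, 180, 188, 196, 204, 212, 33751065, 3146009],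
  Vale.Agent.P032.Lt.q_of (e' := WQ013.e301) (by decide +kernel) WQ013.q301⟩

theorem w302 : Wx (EX xs7) Vale.Agent.P032X.Cert.X3.t1 (Vale.Agent.P032.Fam.fam3 Vale.Agent.P032.Fam.im0) WQ013.W302 := ⟨[0, 8, 16, 24, 32, 40, 48, 4, 12, 20, 28, 36, 44, 52, 60, 68, 76, 84, 92, 100, 108, 116, 124, 132, 140, 148, 156, 164, 172, 180, 75497473, 130025497, 104988737, 38538649, 83886081, 30015553, 527833, 327686, 851974, 1900550, 2949126],
  Vale.Agent.P032.Lt.q_of (e' := WQ013.e302) (by decide +kernel) WQ013.q302⟩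

theorem w303 : Wx (EX xs7) Vale.Agent.P032X.Cert.X3.t1 (Vale.Agent.P032.Fam.fam3 Vale.Agent.P032.Fam.im0) WQ013.W303 := ⟨[0, 8, 16, 24, 32, 40, 48, 4, 12, 20, 28, 36, 44, 52, 60, 68, 76, 84, 92, 100, 108, 116, 124, 132, 140, 148, 156, 164, 172, 180, 188, 93192257, 132841473, 30117337, 45714905, 59641305, 5524953, 65899993, 43879897, 133008857, 327686, 1900550, 2949126],
  Vale.Agent.P032.Lt.q_of (e' := WQ013.e303) (by decide +kernel) WQ013.q303⟩

theorem w304 : Wx (EX xs7) Vale.Agent.P032X.Cert.X3.t1 (Vale.Agent.P032.Fam.fam3 Vale.Agent.P032.Fam.im0) WQ013.W304 := ⟨[0, 8, 16, 24, 32, 40, 48, 4, 12, 20, 28, 36, 44, 52, 60, 68, 76, 84, 92, 100, 108, 116, 124, 132, 140, 148, 81854529, 70156289, 87719937, 14745601, 47857665, 1900550, 2949126],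
  Vale.Agent.P032.Lt.q_of (e' := WQ013.e304) (by decide +kernel) WQ013.q304⟩

theorem w305 : Wx (EX xs7) Vale.Agent.P032X.Cert.X3.t1 (Vale.Agent.P032.Fam.fam3 Vale.Agent.P032.Fam.im0) WQ013.W305 := ⟨[0, 8, 16, 24, 32, 40, 48, 4, 12, 20, 28, 36, 44, 52, 60, 68, 76, 84, 92, 100, 108, 116, 124, 132, 140, 148, 156, 164, 172, 180, 188, 196, 204, 46271513, 130023781, 50190245, 49219221, 49350233, 53513561, 113381925],
  Vale.Agent.P032.Lt.q_of (e' := WQ013.e305) (by decide +kernel) WQ013.q305⟩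

theorem w306 : Wx (EX xs7) Vale.Agent.P032X.Cert.X3.t1 (Vale.Agent.P032.Fam.fam3 Vale.Agent.P032.Fam.im0) WQ013.W306 := ⟨[0, 8, 16, 24, 32, 40, 48, 4, 12, 20, 28, 36, 44, 52, 60, 68, 76, 84, 92, 100, 108, 116, 124, 132, 140, 148, 156, 164, 172, 180, 188, 196, 204, 212, 220, 228, 236, 95223813, 344070, 352262, 360454, 2433030, 2449414, 2981894],
  Vale.Agent.P032.Lt.q_of (e' := WQ013.e306) (by decide +kernel) WQ013.q306⟩

theorem w307 : Wx (EX xs7) Vale.Agent.P032X.Cert.X3.t1 (Vale.Agent.P032.Fam.fam3 Vale.Agent.P032.Fam.im0) WQ013.W307 := ⟨[0, 8, 16, 24, 32, 40, 48, 4, 12, 20, 28, 36, 44, 52, 60, 68, 76, 84, 92, 100, 108, 116, 124, 132, 140, 148, 156, 164, 172, 180, 188, 196, 204, 212, 220, 228, 50188197, 5259269, 11010061, 18877837, 50188045, 50188581, 5259333, 11010125, 18877901],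
  Vale.Agent.P032.Lt.q_of (e' := WQ013.e307) (by decide +kernel) WQ013.q307⟩

theorem w308 : Wx (EX xs7) Vale.Agent.P032X.Cert.X3.t1 (Vale.Agent.P032.Fam.fam3 Vale.Agent.P032.Fam.im0) WQ013.W308 := ⟨[0, 8, 16, 24, 32, 40, 48, 4, 12, 20, 28, 36, 44, 52, 60, 68, 76, 84, 92, 100, 108, 116, 124, 132, 140, 3084953, 48120217, 70192601, 55971417, 62783553, 95651713, 116983873, 851974, 1376262, 2949126],
  Vale.Agent.P032.Lt.q_of (e' := WQ013.e308) (by decide +kernel) WQ013.q308⟩

theorem w309 : Wx (EX xs7) Vale.Agent.P032X.Cert.X3.t1 (Vale.Agent.P032.Fam.fam3 Vale.Agent.P032.Fam.im0) WQ013.W309 := ⟨[0, 8, 16, 24, 32, 40, 48, 4, 12, 20, 28, 36, 44, 52, 60, 68, 76, 84, 92, 100, 108, 116, 124, 132, 140, 148, 46270337, 50187725, 7050521, 10325017, 1376262, 2424838, 2949126],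
  Vale.Agent.P032.Lt.q_of (e' := WQ013.e309) (by decide +kernel) WQ013.q309⟩

theorem w310 : Wx (EX xs7) Vale.Agent.P032X.Cert.X3.t1 (Vale.Agent.P032.Fam.fam3 Vale.Agent.P032.Fam.im0) WQ013.W310 := ⟨[0, 8, 16, 24, 32, 40, 48, 4, 12, 20, 28, 36, 44, 52, 60, 68, 76, 84, 92, 100, 108, 116, 124, 132, 140, 148, 156, 18089473, 50364417, 62537729, 83920385, 41975809, 73139865, 97551833, 125861889, 131104769, 33588889, 4227073, 17188505, 3178497, 114328537, 19727321, 54156761, 33965017, 30442457, 63995905, 45760513, 100696065, 12206081, 67142553, 54150041, 54558721, 16809985, 8421377, 12615681, 25203993, 31085849],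
  Vale.Agent.P032.Lt.q_of (e' := WQ013.e310) (by decide +kernel) WQ013.q310⟩

theorem w311 : Wx (EX xs7) Vale.Agent.P032X.Cert.X3.t1 (Vale.Agent.P032.Fam.fam3 Vale.Agent.P032.Fam.im0) WQ013.W311 := ⟨[0, 8, 16, 24, 32, 40, 48, 4, 12, 20, 28, 36, 44, 52, 60, 68, 76, 84, 92, 100, 108, 116, 124, 132, 140, 148, 156, 164, 172, 180, 188, 196, 204, 212, 220, 228, 236, 244, 252, 260, 268, 276, 55969625, 81133569, 14024705, 123076609, 114688321, 79562585, 327686, 851974],
  Vale.Agent.P032.Lt.q_of (e' := WQ013.e311) (by decide +kernel) WQ013.q311⟩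

theorem w312 : Wx (EX xs7) Vale.Agent.P032X.Cert.X3.t1 (Vale.Agent.P032.Fam.fam3 Vale.Agent.P032.Fam.im0) WQ013.W312 := ⟨[0, 8, 16, 24, 32, 40, 48, 4, 12, 20, 28, 36, 44, 52, 60, 68, 76, 84, 92, 100, 108, 116, 124, 132, 140, 148, 156, 164, 172, 180, 188, 196, 204, 212, 220, 23502145, 20975117, 23500609, 20975245],
  Vale.Agent.P032.Lt.q_of (e' := WQ013.e312) (by decide +kernel) WQ013.q312⟩

theorem w313 : Wx (EX xs7) Vale.Agent.P032X.Cert.X3.t1 (Vale.Agent.P032.Fam.fam3 Vale.Agent.P032.Fam.im0) WQ013.W313 := ⟨[0, 8, 16, 24, 32, 40, 48, 4, 12, 20, 28, 36, 44, 52, 60, 68, 76, 84, 92, 100, 108, 116, 124, 132, 140, 1376257, 65339393, 132449793, 1376262, 2424838, 2433030, 2957318],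
  Vale.Agent.P032.Lt.q_of (e' := WQ013.e313) (by decide +kernel) WQ013.q313⟩

theorem w314 : Wx (EX xs7) Vale.Agent.P032X.Cert.X3.t1 (Vale.Agent.P032.Fam.fam3 Vale.Agent.P032.Fam.im0) WQ013.W314 := ⟨[0, 8, 16, 24, 32, 40, 48, 4, 12, 20, 28, 36, 44, 52, 60, 68, 76, 84, 92, 100, 108, 116, 124, 132, 140, 148, 156, 164, 172, 180, 188, 196, 204, 212, 220, 228, 236, 244, 252, 260, 268, 276, 21479897, 11911641, 46514649, 20725761, 101827033, 99024897, 75170265, 43827201, 5849089, 105578905, 114344409, 74842113, 50561497, 31916505, 83935233, 37355993, 69845465, 94994433, 17612801, 21282817, 58245593, 53133785, 14467545, 17874945, 53789145, 55099801, 58474561, 33735129],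
  Vale.Agent.P032.Lt.q_of (e' := WQ013.e314) (by decide +kernel) WQ013.q314⟩

theorem w315 : Wx (EX xs7) Vale.Agent.P032X.Cert.X3.t1 (Vale.Agent.P032.Fam.fam3 Vale.Agent.P032.Fam.im0) WQ014.W315 := ⟨[0, 8, 16, 24, 32, 40, 48, 4, 12, 20, 28, 36, 44, 52, 60, 68, 76, 84, 92, 100, 108, 116, 124, 132, 140, 148, 156, 164, 172, 180, 188, 196, 204, 212, 220, 5261585, 5261649, 5262033, 5261969, 64143769, 26597865, 104908641, 851974, 2949126, 90830340972570, 91070859141146],
  Vale.Agent.P032.Lt.q_of (e' := WQ014.e315) (by decide +kernel) WQ014.q315⟩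

theorem w316 : Wx (EX xs7) Vale.Agent.P032X.Cert.X3.t1 (Vale.Agent.P032.Fam.fam3 Vale.Agent.P032.Fam.im0) WQ014.W316 := ⟨[0, 8, 16, 24, 32, 40, 48, 4, 12, 20, 28, 36, 44, 52, 60, 68, 76, 84, 92, 100, 108, 116, 124, 132, 140, 148, 156, 164, 172, 180, 188, 196, 204, 212, 220, 228, 236, 244, 252, 260, 268, 276, 284, 292, 300, 25018369, 99090433, 39977025, 6799361, 56282521, 10207233, 2539585, 2539521, 110739457, 16174489, 112836609, 120979457, 25742745, 10731521, 21086209, 24494081, 83214337, 29736961, 96845825, 85573633, 122273793, 32411033],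
  Vale.Agent.P032.Lt.q_of (e' := WQ014.e316) (by decide +kernel) WQ014.q316⟩

theorem w317 : Wx (EX xs7) Vale.Agent.P032X.Cert.X3.t1 (Vale.Agent.P032.Fam.fam3 Vale.Agent.P032.Fam.im0) WQ014.W317 := ⟨[0, 8, 16, 24, 32, 40, 48, 4, 12, 20, 28, 36, 44, 52, 60, 68, 76, 84, 92, 100, 108, 116, 124, 132, 140, 148, 156, 164, 172, 180, 188, 196, 204, 212, 220, 228, 44109209, 85134745, 125111705, 61214105, 10931609, 55233945, 48942489, 327686, 851974, 1376262, 1900550, 2949126],
  Vale.Agent.P032.Lt.q_of (e' := WQ014.e317) (by decide +kernel) WQ014.q317⟩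

theorem w318 : Wx (EX xs7) Vale.Agent.P032X.Cert.X3.t1 (Vale.Agent.P032.Fam.fam3 Vale.Agent.P032.Fam.im0) WQ014.W318 := ⟨[0, 8, 16, 24, 32, 40, 48, 4, 12, 20, 28, 36, 44, 52, 60, 68, 76, 84, 92, 100, 108, 116, 124, 132, 140, 148, 156, 164, 172, 180, 188, 196, 204, 212, 220, 228, 236, 244, 71880089, 29999169, 70369281, 102875137, 33144833, 132235265, 116768769, 49922049, 112574465, 109428737, 3491073, 2080769, 11386881, 113623041, 129351681, 17022977, 15450113, 97107969, 52281345, 89243649, 38125569, 131186689, 75612161, 3984857, 40226265, 30785537, 52809177, 50642945, 327686, 335878, 851974, 860166, 1376262, 1900550, 2949126, 2965510, 18599366721594],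
  Vale.Agent.P032.Lt.q_of (e' := WQ014.e318) (by decide +kernel) WQ014.q318⟩

theorem w319 : Wx (EX xs7) Vale.Agent.P032X.Cert.X3.t1 (Vale.Agent.P032.Fam.fam3 Vale.Agent.P032.Fam.im0) WQ014.W319 := ⟨[0, 8, 16, 24, 32, 40, 48, 4, 12, 20, 28, 36, 44, 52, 60, 68, 76, 84, 92, 100, 108, 116, 124, 132, 140, 148, 156, 164, 172, 180, 188, 196, 204, 212, 220, 36441497, 265625, 63622553, 60935577, 68275609, 8375705, 44417025, 12697601, 127516673, 24756225, 54640641, 31768577, 29999105, 4702209, 14401537, 61980673, 32411033, 45485465, 130023681, 2424838, 2949126],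
  Vale.Agent.P032.Lt.q_of (e' := WQ014.e319) (by decide +kernel) WQ014.q319⟩

theorem w320 : Wx (EX xs7) Vale.Agent.P032X.Cert.X3.t1 (Vale.Agent.P032.Fam.fam3 Vale.Agent.P032.Fam.im0) WQ014.W320 := ⟨[0, 8, 16, 24, 32, 40, 48, 4, 12, 20, 28, 36, 44, 52, 60, 68, 76, 84, 92, 100, 108, 116, 124, 132, 140, 148, 156, 164, 172, 180, 37014913],
  Vale.Agent.P032.Lt.q_of (e' := WQ014.e320) (by decide +kernel) WQ014.q320⟩

theorem w321 : Wx (EX xs7) Vale.Agent.P032X.Cert.X3.t1 (Vale.Agent.P032.Fam.fam3 Vale.Agent.P032.Fam.im0) WQ014.W321 := ⟨[0, 8, 16, 24, 32, 40, 48, 4, 12, 20, 28, 36, 44, 52, 60, 68, 76, 84, 92, 100, 108, 116, 124, 132, 140, 56264449, 73449473, 66600961, 64094209, 30539777, 860166, 1376262, 1900550, 2957318, 57589980553242, 58311467950106, 90830115536954, 91130629029946],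
  Vale.Agent.P032.Lt.q_of (e' := WQ014.e321) (by decide +kernel) WQ014.q321⟩

theorem w322 : Wx (EX xs7) Vale.Agent.P032X.Cert.X3.t1 (Vale.Agent.P032.Fam.fam3 Vale.Agent.P032.Fam.im0) WQ014.W322 := ⟨[0, 8, 16, 24, 32, 40, 48, 4, 12, 20, 28, 36, 44, 52, 60, 68, 76, 84, 92, 100, 108, 116, 124, 132, 140, 148, 156, 53526529, 8969361, 66244057, 18466917, 29937113, 770049, 26836993, 860166, 1900550, 1908742, 1925126, 2433030, 2449414, 2949126, 2957318, 56248071716922, 56248079056954, 73565379854394, 73565387194426, 78413557989498, 95730638610458],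
  Vale.Agent.P032.Lt.q_of (e' := WQ014.e322) (by decide +kernel) WQ014.q322⟩

theorem w323 : Wx (EX xs7) Vale.Agent.P032X.Cert.X3.t1 (Vale.Agent.P032.Fam.fam3 Vale.Agent.P032.Fam.im0) WQ014.W323 := ⟨[0, 8, 16, 24, 32, 40, 48, 4, 12, 20, 28, 36, 44, 52, 60, 68, 76, 84, 92, 100, 108, 116, 124, 132, 140, 148, 156, 164, 172, 180, 188, 196, 204, 32407553, 29540353, 13434881, 56282585, 122486785, 95944705, 17714649, 23776729, 53530073, 19647897, 132238809, 6344153, 39763969, 77709313, 49594369, 51432921, 97042433, 53264385, 111525889, 7392729, 27839897, 34652161, 95538649, 130025625, 851974, 1376262, 2424838, 2949126],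
  Vale.Agent.P032.Lt.q_of (e' := WQ014.e323) (by decide +kernel) WQ014.q323⟩

theorem w324 : Wx (EX xs7) Vale.Agent.P032X.Cert.X3.t1 (Vale.Agent.P032.Fam.fam3 Vale.Agent.P032.Fam.im0) WQ014.W324 := ⟨[0, 8, 16, 24, 32, 40, 48, 4, 12, 20, 28, 36, 44, 52, 60, 68, 76, 84, 92, 100, 108, 116, 124, 132, 140, 148, 156, 164, 172, 55054105, 79695641, 42258201, 30851073, 87609113, 2215705, 20889601, 860166, 1900550, 1908742, 2424838, 2433030, 2949126, 56248071716922, 56248079056954, 73565379854394, 73565387194426, 97102309187610, 97102342742042, 97113584525338, 97113618079770],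
  Vale.Agent.P032.Lt.q_of (e' := WQ014.e324) (by decide +kernel) WQ014.q324⟩

theorem w325 : Wx (EX xs7) Vale.Agent.P032X.Cert.X3.t1 (Vale.Agent.P032.Fam.fam3 Vale.Agent.P032.Fam.im0) WQ014.W325 := ⟨[0, 8, 16, 24, 32, 40, 48, 4, 12, 20, 28, 36, 44, 52, 60, 68, 76, 84, 92, 100, 108, 116, 124, 132, 140, 148, 156, 164, 172, 71876673, 98567257, 83889241, 25742809, 11978465, 17419737, 42585561, 20041177, 14142937, 46776321, 87035353, 14204929, 14205249, 69732449, 130023745, 851974, 860166, 1916934, 2424838, 2433030, 2949126, 2965510, 73565379854394, 95693126869082],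
  Vale.Agent.P032.Lt.q_of (e' := WQ014.e325) (by decide +kernel) WQ014.q325⟩

theorem w326 : Wx (EX xs7) Vale.Agent.P032X.Cert.X3.t1 (Vale.Agent.P032.Fam.fam3 Vale.Agent.P032.Fam.im0) WQ014.W326 := ⟨[0, 8, 16, 24, 32, 40, 48, 4, 12, 20, 28, 36, 44, 52, 60, 68, 76, 84, 92, 100, 108, 116, 124, 132, 130025625, 10027009, 573441, 56282521, 51265537, 44908545, 122486849, 11304961, 111968257, 106040729, 3850241, 7847937, 49627137, 74498113, 851974, 860166, 1900550, 1908742, 2433030, 2949126, 56488858320954, 56488865660986, 74046684627002, 74046691967034],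
  Vale.Agent.P032.Lt.q_of (e' := WQ014.e326) (by decide +kernel) WQ014.q326⟩

theorem w327 : Wx (EX xs7) Vale.Agent.P032X.Cert.X3.t1 (Vale.Agent.P032.Fam.fam3 Vale.Agent.P032.Fam.im0) WQ014.W327 := ⟨[0, 8, 16, 24, 32, 40, 48, 4, 12, 20, 28, 36, 44, 52, 60, 68, 76, 84, 92, 100, 108, 116, 124, 132, 140, 148, 156, 164, 172, 180, 188, 84462729, 125357985, 10338305, 851974, 860166, 1376262, 2424838, 2433030, 2949126, 74046684627002],
  Vale.Agent.P032.Lt.q_of (e' := WQ014.e327) (by decide +kernel) WQ014.q327⟩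

theorem w328 : Wx (EX xs7) Vale.Agent.P032X.Cert.X3.t1 (Vale.Agent.P032.Fam.fam3 Vale.Agent.P032.Fam.im0) WQ014.W328 := ⟨[0, 8, 16, 24, 32, 40, 48, 4, 12, 20, 28, 36, 44, 52, 60, 68, 76, 84, 92, 100, 108, 116, 124, 132, 140, 148, 156, 164, 172, 180, 188, 196, 116595085, 55233945, 85134745, 46521745, 83418321, 56413657, 27544985, 30592409, 113511833, 66637209, 125111705, 61099417, 61214105, 48942489, 40127897, 60476825, 1409030, 1900550, 2949126, 2981894, 92784481869978],
  Vale.Agent.P032.Lt.q_of (e' := WQ014.e328) (by decide +kernel) WQ014.q328⟩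

theorem w329 : Wx (EX xs7) Vale.Agent.P032X.Cert.X3.t1 (Vale.Agent.P032.Fam.fam3 Vale.Agent.P032.Fam.im0) WQ014.W329 := ⟨[0, 8, 16, 24, 32, 40, 48, 4, 12, 20, 28, 36, 44, 52, 60, 68, 76, 84, 92, 100, 108, 116, 124, 132, 140, 148, 156, 164, 172, 23838721, 25661209, 102174553, 92799321, 55050241, 71303361, 54312961, 46862105, 65539481, 120704793, 12042241, 19222361, 87556161, 64605977, 60165593, 132648409, 43110169, 89181977, 892934, 1941510, 2424838, 2949126, 56496110256314, 97113618079770, 97113619128346, 97354203357210, 97354204405786, 97354471792666, 97354472841242],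
  Vale.Agent.P032.Lt.q_of (e' := WQ014.e329) (by decide +kernel) WQ014.q329⟩

theorem w330 : Wx (EX xs7) Vale.Agent.P032X.Cert.X3.t1 (Vale.Agent.P032.Fam.fam3 Vale.Agent.P032.Fam.im0) WQ014.W330 := ⟨[0, 8, 16, 24, 32, 40, 48, 4, 12, 20, 28, 36, 44, 52, 60, 68, 76, 84, 92, 100, 108, 116, 124, 132, 140, 27705817, 59572697, 46186969, 84836353, 43074009, 28361177, 32931841],
  Vale.Agent.P032.Lt.q_of (e' := WQ014.e330) (by decide +kernel) WQ014.q330⟩

theorem w331 : Wx (EX xs7) Vale.Agent.P032X.Cert.X3.t1 (Vale.Agent.P032.Fam.fam3 Vale.Agent.P032.Fam.im0) WQ014.W331 := ⟨[0, 8, 16, 24, 32, 40, 48, 4, 12, 20, 28, 36, 44, 52, 60, 68, 76, 84, 92, 100, 108, 116, 124, 132, 140, 64536577, 64540441, 64749569, 131862297, 128974977, 22564633, 61358081, 63182545, 2424838, 2949126, 97113618079770],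
  Vale.Agent.P032.Lt.q_of (e' := WQ014.e331) (by decide +kernel) WQ014.q331⟩

theorem w332 : Wx (EX xs7) Vale.Agent.P032X.Cert.X3.t1 (Vale.Agent.P032.Fam.fam3 Vale.Agent.P032.Fam.im0) WQ014.W332 := ⟨[0, 8, 16, 24, 32, 40, 48, 4, 12, 20, 28, 36, 44, 52, 60, 68, 76, 84, 92, 100, 108, 116, 124, 132, 140, 148, 156, 164, 172, 180, 188, 196, 130023425, 6291521, 28229633, 85459241, 78512129, 91259289, 99664345, 1900550, 2949126],
  Vale.Agent.P032.Lt.q_of (e' := WQ014.e332) (by decide +kernel) WQ014.q332⟩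

theorem w333 : Wx (EX xs7) Vale.Agent.P032X.Cert.X3.t1 (Vale.Agent.P032.Fam.fam3 Vale.Agent.P032.Fam.im0) WQ014.W333 := ⟨[0, 8, 16, 24, 32, 40, 48, 4, 12, 20, 28, 36, 44, 52, 60, 68, 76, 84, 92, 100, 108, 116, 124, 132, 140, 148, 63177985, 29900801, 104992153, 61341761, 103284737, 29474817, 26001409, 79282177, 2637825, 32411033, 83886145, 77119489, 116441089, 94424473, 13025281, 69255169, 7913473, 2424838, 2949126, 97651024814106],
  Vale.Agent.P032.Lt.q_of (e' := WQ014.e333) (by decide +kernel) WQ014.q333⟩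

theorem w334 : Wx (EX xs7) Vale.Agent.P032X.Cert.X3.t1 (Vale.Agent.P032.Fam.fam3 Vale.Agent.P032.Fam.im0) WQ014.W334 := ⟨[0, 8, 16, 24, 32, 40, 48, 4, 12, 20, 28, 36, 44, 52, 60, 68, 76, 84, 92, 100, 108, 116, 124, 132, 140, 148, 156, 164, 172, 180, 188, 83478593, 66109593, 86622209, 30457881, 52609177, 99998425, 18464921, 15384729, 13942937, 352262, 2973702, 88661815525498],
  Vale.Agent.P032.Lt.q_of (e' := WQ014.e334) (by decide +kernel) WQ014.q334⟩

theorem w335 : Wx (EX xs7) Vale.Agent.P032X.Cert.X3.t1 (Vale.Agent.P032.Fam.fam3 Vale.Agent.P032.Fam.im0) WQ014.W335 := ⟨[0, 8, 16, 24, 32, 40, 48, 4, 12, 20, 28, 36, 44, 52, 60, 68, 76, 84, 92, 100, 108, 116, 124, 132, 25739265, 61132249, 29543897, 81432025, 30068185, 108137945, 32427481, 123243993, 47874049, 13422041, 2936281, 47762905, 42844161, 114982913, 39501825, 64651265, 8470529, 70942721, 128503257, 112315865, 27037145, 98205697, 42028505, 860166, 1900550, 1908742, 2433030, 2949126, 56248071716922,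 77413670551610, 95730605056026],
  Vale.Agent.P032.Lt.q_of (e' := WQ014.e335) (by decide +kernel) WQ014.q335⟩

theorem w336 : Wx (EX xs7) Vale.Agent.P032X.Cert.X3.t1 (Vale.Agent.P032.Fam.fam3 Vale.Agent.P032.Fam.im0) WQ014.W336 := ⟨[0, 8, 16, 24, 32, 40, 48, 4, 12, 20, 28, 36, 44, 52, 60, 68, 76, 84, 92, 100, 108, 116, 124, 132, 140, 148, 156, 16367617, 42258201, 60866561, 16105473, 11980569, 112771073, 18530305, 15253505, 41602841, 851974, 1908742, 2424838, 2433030, 2949126, 78376019001402, 97113584525338, 97113618079770],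
  Vale.Agent.P032.Lt.q_of (e' := WQ014.e336) (by decide +kernel) WQ014.q336⟩

theorem w337 : Wx (EX xs7) Vale.Agent.P032X.Cert.X3.t1 (Vale.Agent.P032.Fam.fam3 Vale.Agent.P032.Fam.im0) WQ014.W337 := ⟨[0, 8, 16, 24, 32, 40, 48, 4, 12, 20, 28, 36, 44, 52, 60, 68, 76, 84, 92, 100, 108, 116, 124, 132, 140, 148, 156, 164, 55312793, 56265997, 88871377, 75170201, 127451545, 2015641, 7258521, 67633241, 1900550, 2949126],
  Vale.Agent.P032.Lt.q_of (e' := WQ014.e337) (by decide +kernel) WQ014.q337⟩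

theorem w338 : Wx (EX xs7) Vale.Agent.P032X.Cert.X3.t1 (Vale.Agent.P032.Fam.fam3 Vale.Agent.P032.Fam.im0) WQ014.W338 := ⟨[0, 8, 16, 24, 32, 40, 48, 4, 12, 20, 28, 36, 44, 52, 60, 68, 76, 84, 92, 100, 108, 116, 124, 132, 140, 148, 156, 972673, 27381465, 123783233, 8699905, 10994009, 15843521, 39174337, 3522905, 40944089, 19730497, 117249, 10404033, 1900550, 2424838, 77413632794650, 77413641183258, 77413867675674, 77413876064282, 77421159473178, 77421394354202, 78376074567706, 78376082956314, 78383601246234],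
  Vale.Agent.P032.Lt.q_of (e' := WQ014.e338) (by decide +kernel) WQ014.q338⟩

theorem w339 : Wx (EX xs7) Vale.Agent.P032X.Cert.X3.t1 (Vale.Agent.P032.Fam.fam3 Vale.Agent.P032.Fam.im0) WQ014.W339 := ⟨[0, 8, 16, 24, 32, 40, 48, 4, 12, 20, 28, 36, 44, 52, 60, 68, 76, 84, 92, 100, 108, 116, 124, 132, 140, 148, 156, 164, 36753177, 11976705, 851974, 892934, 1900550, 1941510, 2424838, 2949126, 56255860523194, 91341182033946, 91371246805018, 95700540284954, 97143884177434],
  Vale.Agent.P032.Lt.q_of (e' := WQ014.e339) (by decide +kernel) WQ014.q339⟩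

theorem w340 : Wx (EX xs7) Vale.Agent.P032X.Cert.X3.t1 (Vale.Agent.P032.Fam.fam3 Vale.Agent.P032.Fam.im0) WQ014.W340 := ⟨[0, 8, 16, 24, 32, 40, 48, 4, 12, 20, 28, 36, 44, 52, 60, 68, 76, 84, 92, 100, 108, 116, 124, 132, 140, 148, 156, 164, 172, 32407553, 113300321, 17044321, 67371009, 30425089, 63094785, 76746201, 46976473, 108134401, 20332609, 28855769, 15617497, 64081369, 35274817, 91360729, 54119897, 13565953, 80674817, 66355201, 121753049, 9355329, 99913177, 851974, 860166, 1376262, 1384454, 2424838, 2433030, 2949126, 38382088847418, 73565387194426],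
  Vale.Agent.P032.Lt.q_of (e' := WQ014.e340) (by decide +kernel) WQ014.q340⟩

theorem w341 : Wx (EX xs7) Vale.Agent.P032X.Cert.X3.t1 (Vale.Agent.P032.Fam.fam3 Vale.Agent.P032.Fam.im0) WQ014.W341 := ⟨[0, 8, 16, 24, 32, 40, 48, 4, 12, 20, 28, 36, 44, 52, 60, 68, 76, 84, 92, 100, 108, 116, 124, 132, 140, 27639809, 15843329, 18464921, 93849049, 88719513, 49135769, 93700097, 73777305, 1376262, 1900550, 2949126, 58585939009562, 94979020382234],
  Vale.Agent.P032.Lt.q_of (e' := WQ014.e341) (by decide +kernel) WQ014.q341⟩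

theorem w342 : Wx (EX xs7) Vale.Agent.P032X.Cert.X3.t1 (Vale.Agent.P032.Fam.fam3 Vale.Agent.P032.Fam.im0) WQ014.W342 := ⟨[0, 8, 16, 24, 32, 40, 48, 4, 12, 20, 28, 36, 44, 52, 60, 68, 76, 84, 92, 100, 108, 116, 124, 132, 140, 148, 156, 164, 172, 18876813, 45287897, 15799701, 112395929, 12337305, 69568933, 26744217, 18464921, 38191257, 352262, 1376262, 1900550, 2973702, 57638506553370, 58600981880858, 88932138418298],
  Vale.Agent.P032.Lt.q_of (e' := WQ014.e342) (by decide +kernel) WQ014.q342⟩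

theorem w343 : Wx (EX xs7) Vale.Agent.P032X.Cert.X3.t1 (Vale.Agent.P032.Fam.fam3 Vale.Agent.P032.Fam.im0) WQ014.W343 := ⟨[0, 8, 16, 24, 32, 40, 48, 4, 12, 20, 28, 36, 44, 52, 60, 68, 76, 84, 92, 100, 108, 116, 124, 132, 140, 148, 156, 164, 172, 42258201, 25661209, 30851073, 87609113, 118542105, 42651417, 122556185, 40554265, 52219673, 37224577, 91128601, 860166, 1908742, 2424838, 2949126, 56248079056954, 97113618079770],
  Vale.Agent.P032.Lt.q_of (e' := WQ014.e343) (by decide +kernel) WQ014.q343⟩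

theorem w344 : Wx (EX xs7) Vale.Agent.P032X.Cert.X3.t1 (Vale.Agent.P032.Fam.fam3 Vale.Agent.P032.Fam.im0) WQ014.W344 := ⟨[0, 8, 16, 24, 32, 40, 48, 4, 12, 20, 28, 36, 44, 52, 60, 68, 76, 84, 92, 100, 108, 116, 124, 132, 140, 148, 156, 164, 172, 180, 188, 196, 204, 212, 5409177, 14204929, 14205249, 5409305, 25742809, 95014361, 49663449, 31834113, 11652569, 95800793, 1753089, 29540353, 851974, 1376262, 2424838, 2949126],
  Vale.Agent.P032.Lt.q_of (e' := WQ014.e344) (by decide +kernel) WQ014.q344⟩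

theorem w345 : Wx (EX xs7) Vale.Agent.P032X.Cert.X3.t1 (Vale.Agent.P032.Fam.fam3 Vale.Agent.P032.Fam.im0) WQ015.W345 := ⟨[0, 8, 16, 24, 32, 40, 48, 4, 12, 20, 28, 36, 44, 52, 60, 68, 76, 84, 92, 100, 108, 116, 124, 132, 140, 148, 25661209, 55054105, 60149529, 79695641, 42258201, 30851073, 87609113, 16371481, 21384985, 89362201, 40554265, 52219673],
  Vale.Agent.P032.Lt.q_of (e' := WQ015.e345) (by decide +kernel) WQ015.q345⟩

theorem w346 : Wx (EX xs7) Vale.Agent.P032X.Cert.X3.t1 (Vale.Agent.P032.Fam.fam3 Vale.Agent.P032.Fam.im0) WQ015.W346 := ⟨[0, 8, 16, 24, 32, 40, 48, 4, 12, 20, 28, 36, 44, 52, 60, 68, 76, 84, 92, 100, 108, 116, 124, 132, 140, 148, 156, 27705817, 29218817, 66895873, 27705345, 125081601, 638977, 46186497, 57972737, 51462145, 17727961, 101613569, 43073537, 124305409, 32932313, 84836825, 28360705, 2998273, 120176641, 29217433, 66896345, 120177113, 26853761, 26853377, 125080217, 53329921, 639449, 43368921, 18333697, 34717697, 102089177,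 46186969, 43368449, 102088705, 57971353, 32931841, 51462617, 17727489, 101614041, 43074009, 124305881, 335878, 1900550, 2424838],
  Vale.Agent.P032.Lt.q_of (e' := WQ015.e346) (by decide +kernel) WQ015.q346⟩

theorem w347 : Wx (EX xs7) Vale.Agent.P032X.Cert.X3.t1 (Vale.Agent.P032.Fam.fam3 Vale.Agent.P032.Fam.im0) WQ015.W347 := ⟨[0, 8, 16, 24, 32, 40, 48, 4, 12, 20, 28, 36, 44, 52, 60, 68, 76, 84, 92, 100, 108, 116, 124, 132, 140, 148, 156, 164, 172, 43302913, 11911577, 58720769, 64143361, 5161369, 8667545, 43647385, 127009177, 17056153, 24182785, 112066969, 77201817, 132782169, 52035993, 110100481, 1900550, 2949126],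
  Vale.Agent.P032.Lt.q_of (e' := WQ015.e347) (by decide +kernel) WQ015.q347⟩

theorem w348 : Wx (EX xs7) Vale.Agent.P032X.Cert.X3.t1 (Vale.Agent.P032.Fam.fam3 Vale.Agent.P032.Fam.im0) WQ015.W348 := ⟨[0, 8, 16, 24, 32, 40, 48, 4, 12, 20, 28, 36, 44, 52, 60, 68, 76, 84, 92, 100, 108, 116, 124, 132, 140, 148, 156, 164, 32411033, 130096545, 19058697, 77119489, 60604417, 36093953, 13221889, 116595237, 31608217, 64798721, 1228801, 14536089, 16564225, 65932697, 62148057, 31329689, 2424838, 2949126],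
  Vale.Agent.P032.Lt.q_of (e' := WQ015.e348) (by decide +kernel) WQ015.q348⟩

theorem w349 : Wx (EX xs7) Vale.Agent.P032X.Cert.X3.t1 (Vale.Agent.P032.Fam.fam3 Vale.Agent.P032.Fam.im0) WQ015.W349 := ⟨[0, 8, 16, 24, 32, 40, 48, 4, 12, 20, 28, 36, 44, 52, 60, 68, 76, 84, 92, 100, 108, 116, 124, 132, 140, 123240449, 19218497, 63324161, 57851905, 13159897],
  Vale.Agent.P032.Lt.q_of (e' := WQ015.e349) (by decide +kernel) WQ015.q349⟩

theorem w350 : Wx (EX xs7) Vale.Agent.P032X.Cert.X3.t1 (Vale.Agent.P032.Fam.fam3 Vale.Agent.P032.Fam.im0) WQ015.W350 := ⟨[0, 8, 16, 24, 32, 40, 48, 4, 12, 20, 28, 36, 44, 52, 60, 68, 76, 84, 92, 100, 108, 116, 124, 132, 11980569, 77594689, 4900161, 46514305, 8309977, 56754305, 44040193, 11980681, 892934, 1417222, 1900550, 2424838, 2465798, 2949126, 2990086, 38878147068090, 74053936562362, 97113584525338, 97113618079770, 97624649973946],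
  Vale.Agent.P032.Lt.q_of (e' := WQ015.e350) (by decide +kernel) WQ015.q350⟩

theorem w351 : Wx (EX xs7) Vale.Agent.P032X.Cert.X3.t1 (Vale.Agent.P032.Fam.fam3 Vale.Agent.P032.Fam.im0) WQ015.W351 := ⟨[0, 8, 16, 24, 32, 40, 48, 4, 12, 20, 28, 36, 44, 52, 60, 68, 76, 84, 92, 100, 108, 116, 124, 132, 140, 148, 5507425, 5507809, 119242753, 47300609, 1900550, 2949126, 95726879465498],
  Vale.Agent.P032.Lt.q_of (e' := WQ015.e351) (by decide +kernel) WQ015.q351⟩

theorem w352 : Wx (EX xs7) Vale.Agent.P032X.Cert.X3.t1 (Vale.Agent.P032.Fam.fam3 Vale.Agent.P032.Fam.im0) WQ015.W352 := ⟨[0, 8, 16, 24, 32, 40, 48, 4, 12, 20, 28, 36, 44, 52, 60, 68, 76, 84, 92, 100, 108, 116, 124, 132, 140, 148, 156, 164, 172, 180, 188, 196, 204, 212, 220, 228, 236, 244, 252, 260, 32407553, 29540353, 25742809, 45927833, 573505, 39763969, 3850305, 56282585, 51432921, 61656537, 35504129, 101305817, 13615105, 3788249, 82169305, 20234241, 82886657, 68013529, 41274841, 19647897, 53530073,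 74498049, 63324161, 61128705, 53592065, 49594369, 7720409, 66178521, 126468097, 112312321, 5750785, 5361113, 50974169, 6147545, 42319873, 71680001, 122486785, 2736129, 53264385, 7327193, 2280921, 6078465, 40812545, 123060225, 40747009, 12111641, 128499713, 89505793, 56741273, 46252033, 851974, 860166, 892934, 1376262, 2424838, 2465798, 2949126, 74053929222330],
  Vale.Agent.P032.Lt.q_of (e' := WQ015.e352) (by decide +kernel) WQ015.q352⟩

theorem w353 : Wx (EX xs7) Vale.Agent.P032X.Cert.X3.t1 (Vale.Agent.P032.Fam.fam3 Vale.Agent.P032.Fam.im0) WQ015.W353 := ⟨[0, 8, 16, 24, 32, 40, 48, 4, 12, 20, 28, 36, 44, 52, 60, 68, 76, 84, 92, 100, 108, 116, 124, 132, 140, 148, 156, 164, 172, 180, 188, 196, 204, 212, 220, 228, 236, 244, 252, 32407553, 16171009, 56279041, 25739265, 19123609, 39701913, 12894209, 59133337, 31982209],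
  Vale.Agent.P032.Lt.q_of (e' := WQ015.e353) (by decide +kernel) WQ015.q353⟩

theorem w354 : Wx (EX xs7) Vale.Agent.P032X.Cert.X3.t1 (Vale.Agent.P032.Fam.fam3 Vale.Agent.P032.Fam.im0) WQ015.W354 := ⟨[0, 8, 16, 24, 32, 40, 48, 4, 12, 20, 28, 36, 44, 52, 60, 68, 76, 84, 92, 100, 108, 116, 124, 132, 140, 148, 156, 164, 172, 180, 188, 196, 204, 212, 220, 228, 236, 244, 252, 260, 268, 276, 25739265, 17940481, 133283841, 126402561, 40681473, 76070913, 70369281, 3491073, 11386881, 97107969, 89243649, 52281345, 38125569, 131186689, 2080769, 15450113, 75612161, 3984857, 40226265, 30785537, 52809177, 50642945],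
  Vale.Agent.P032.Lt.q_of (e' := WQ015.e354) (by decide +kernel) WQ015.q354⟩

theorem w355 : Wx (EX xs7) Vale.Agent.P032X.Cert.X3.t1 (Vale.Agent.P032.Fam.fam3 Vale.Agent.P032.Fam.im0) WQ015.W355 := ⟨[0, 8, 16, 24, 32, 40, 48, 4, 12, 20, 28, 36, 44, 52, 60, 68, 76, 84, 92, 100, 108, 116, 124, 132, 140, 148, 156, 164, 172, 180, 188, 196, 204, 212, 220, 69730305, 73334849, 8719745, 69730369, 73334785, 8719809, 30986073, 8050257, 30987793, 11980953, 88872529, 20975769, 2424838, 2949126, 97113618079770],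
  Vale.Agent.P032.Lt.q_of (e' := WQ015.e355) (by decide +kernel) WQ015.q355⟩

theorem w356 : Wx (EX xs7) Vale.Agent.P032X.Cert.X3.t1 (Vale.Agent.P032.Fam.fam3 Vale.Agent.P032.Fam.im0) WQ015.W356 := ⟨[0, 8, 16, 24, 32, 40, 48, 4, 12, 20, 28, 36, 44, 52, 60, 68, 76, 84, 92, 100, 108, 116, 124, 132, 140, 148, 156, 164, 172, 180, 188, 196, 73695233, 60145665, 64753433, 511769, 34918233, 23842585, 14732441, 56676121, 51498777, 11128601, 7782401, 90013697, 22921217, 64540441, 32886273, 380041, 72994585, 851974, 860166, 1908742, 2424838, 2433030, 2949126, 56248071716922, 73565379854394, 74012825051162, 74024108777498, 97102300799002, 97102334353434, 97113584525338, 97113618079770],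
  Vale.Agent.P032.Lt.q_of (e' := WQ015.e356) (by decide +kernel) WQ015.q356⟩

theorem w357 : Wx (EX xs7) Vale.Agent.P032X.Cert.X3.t1 (Vale.Agent.P032.Fam.fam3 Vale.Agent.P032.Fam.im0) WQ015.W357 := ⟨[0, 8, 16, 24, 32, 40, 48, 4, 12, 20, 28, 36, 44, 52, 60, 68, 76, 84, 92, 100, 108, 116, 124, 132, 140, 148, 156, 106336845, 83889241, 22152065, 122732545, 8392537, 87560025, 1900550, 2424838, 2949126, 94918889791514, 94918890840090, 97113618079770, 97113619128346],
  Vale.Agent.P032.Lt.q_of (e' := WQ015.e357) (by decide +kernel) WQ015.q357⟩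

theorem w358 : Wx (EX xs7) Vale.Agent.P032X.Cert.X3.t1 (Vale.Agent.P032.Fam.fam3 Vale.Agent.P032.Fam.im0) WQ015.W358 := ⟨[0, 8, 16, 24, 32, 40, 48, 4, 12, 20, 28, 36, 44, 52, 60, 68, 76, 84, 92, 100, 108, 116, 124, 132, 140, 148, 156, 164, 29543897, 8408537, 32407553, 56279041, 38456793, 85052889, 58461657, 53526529, 65060865, 38125569, 108137945, 42844161, 2899969, 12566529, 442369, 99729409, 5292033, 32096257, 64864257, 9420801, 28429785, 851974, 1900550, 2949126],
  Vale.Agent.P032.Lt.q_of (e' := WQ015.e358) (by decide +kernel) WQ015.q358⟩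

theorem w359 : Wx (EX xs7) Vale.Agent.P032X.Cert.X3.t1 (Vale.Agent.P032.Fam.fam3 Vale.Agent.P032.Fam.im0) WQ015.W359 := ⟨[0, 8, 16, 24, 32, 40, 48, 4, 12, 20, 28, 36, 44, 52, 60, 68, 76, 84, 92, 100, 108, 116, 124, 132, 140, 148, 156, 164, 172, 50188353, 77594689, 38207489, 92799321, 60147233, 77596257, 50188321, 130598433, 38209057, 108036097, 30854937, 50184537, 64540553, 4901729, 23840289, 64540441, 30852641, 23838721, 4900161, 92800841, 43175705, 2328201, 851974, 860166, 2424838, 2433030, 2949126, 74012833439770, 74024108777498, 97102342742042, 97113618079770],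
  Vale.Agent.P032.Lt.q_of (e' := WQ015.e359) (by decide +kernel) WQ015.q359⟩

theorem w360 : Wx (EX xs7) Vale.Agent.P032X.Cert.X3.t1 (Vale.Agent.P032.Fam.fam3 Vale.Agent.P032.Fam.im0) WQ015.W360 := ⟨[0, 8, 16, 24, 32, 40, 48, 4, 12, 20, 28, 36, 44, 52, 60, 68, 76, 84, 92, 100, 108, 116, 124, 132, 140, 148, 156, 164, 172, 180, 188, 39108609, 67541897, 15732633, 15798169, 69568521, 65146265, 63211297, 124782665, 124390849, 130321857],
  Vale.Agent.P032.Lt.q_of (e' := WQ015.e360) (by decide +kernel) WQ015.q360⟩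

theorem w361 : Wx (EX xs7) Vale.Agent.P032X.Cert.X3.t1 (Vale.Agent.P032.Fam.fam3 Vale.Agent.P032.Fam.im0) WQ015.W361 := ⟨[0, 8, 16, 24, 32, 40, 48, 4, 12, 20, 28, 36, 44, 52, 60, 68, 76, 84, 92, 100, 108, 116, 124, 132, 140, 148, 156, 164, 172, 180, 55312385, 88873345, 57458689, 35061761, 56754177, 15797457, 50189857, 50185993, 92804257, 92800777, 24510465, 31064065, 63668633, 76415041, 1376262, 2424838, 2441222, 2949126, 2965510, 97342931181658],
  Vale.Agent.P032.Lt.q_of (e' := WQ015.e361) (by decide +kernel) WQ015.q361⟩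

theorem w362 : Wx (EX xs7) Vale.Agent.P032X.Cert.X3.t1 (Vale.Agent.P032.Fam.fam3 Vale.Agent.P032.Fam.im0) WQ015.W362 := ⟨[0, 8, 16, 24, 32, 40, 48, 4, 12, 20, 28, 36, 44, 52, 60, 68, 76, 84, 92, 100, 108, 116, 124, 132, 140, 148, 156, 164, 172, 180, 188, 64536577, 99647489, 90441761, 124390849, 130321857, 64229273, 95948185, 984613, 28839321, 15928897, 527769, 55890369, 17632409, 121409305, 46566809, 42647553, 2424838, 2949126, 97354471792666],
  Vale.Agent.P032.Lt.q_of (e' := WQ015.e362) (by decide +kernel) WQ015.q362⟩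

theorem w363 : Wx (EX xs7) Vale.Agent.P032X.Cert.X3.t1 (Vale.Agent.P032.Fam.fam3 Vale.Agent.P032.Fam.im0) WQ015.W363 := ⟨[0, 8, 16, 24, 32, 40, 48, 4, 12, 20, 28, 36, 44, 52, 60, 68, 76, 84, 92, 100, 108, 116, 124, 132, 140, 148, 156, 164, 172, 180, 188, 63177985, 22052929, 7602241, 56410177, 71876609, 44105729, 57413017, 130025625, 27541505, 116589525, 30588929, 113508353, 66633729, 106823681, 3424257, 36978689, 85511577, 73272729, 63455233, 89161729, 6160449, 33816577, 60686337, 42532865, 123535361, 105680281, 85131265, 61210625, 125108225, 18022401, 49856513, 58081281, 40124417, 60473345, 7602177, 70320129, 1900550, 2949126],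
  Vale.Agent.P032.Lt.q_of (e' := WQ015.e363) (by decide +kernel) WQ015.q363⟩

theorem w364 : Wx (EX xs7) Vale.Agent.P032X.Cert.X3.t1 (Vale.Agent.P032.Fam.fam3 Vale.Agent.P032.Fam.im0) WQ015.W364 := ⟨[0, 8, 16, 24, 32, 40, 48, 4, 12, 20, 28, 36, 44, 52, 60, 68, 76, 84, 92, 100, 108, 116, 124, 132, 140, 148, 156, 164, 172, 180, 30982209, 8046433],
  Vale.Agent.P032.Lt.q_of (e' := WQ015.e364) (by decide +kernel) WQ015.q364⟩

theorem w365 : Wx (EX xs7) Vale.Agent.P032X.Cert.X3.t1 (Vale.Agent.P032.Fam.fam3 Vale.Agent.P032.Fam.im0) WQ015.W365 := ⟨[0, 8, 16, 24, 32, 40, 48, 4, 12, 20, 28, 36, 44, 52, 60, 68, 76, 84, 92, 100, 108, 116, 124, 132, 140, 148, 156, 164, 172, 180, 188, 28229825, 16105473, 40157185, 35831809, 83410945, 63176705, 11980569, 45273241, 39633857, 130088961, 2162689, 120967397, 106168321, 23266137, 335878, 851974, 860166, 868358, 1376262, 1384454, 1900550, 1908742, 2424838, 2433030, 2949126, 2957318, 73565379854394, 93562251608122,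 97113618079770, 97136495919162],
  Vale.Agent.P032.Lt.q_of (e' := WQ015.e365) (by decide +kernel) WQ015.q365⟩

theorem w366 : Wx (EX xs7) Vale.Agent.P032X.Cert.X3.t1 (Vale.Agent.P032.Fam.fam3 Vale.Agent.P032.Fam.im0) WQ015.W366 := ⟨[0, 8, 16, 24, 32, 40, 48, 4, 12, 20, 28, 36, 44, 52, 60, 68, 76, 84, 92, 100, 108, 116, 124, 132, 140, 148, 156, 164, 172, 180, 188, 56413657, 113511833, 61099417, 61214105, 27544985, 60476825, 40127897, 851974, 860166, 1376262, 1392646, 1900550, 2433030, 2949126, 2965510, 73565387194426, 93494640484442],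
  Vale.Agent.P032.Lt.q_of (e' := WQ015.e366) (by decide +kernel) WQ015.q366⟩

theorem w367 : Wx (EX xs7) Vale.Agent.P032X.Cert.X3.t1 (Vale.Agent.P032.Fam.fam3 Vale.Agent.P032.Fam.im0) WQ015.W367 := ⟨[0, 8, 16, 24, 32, 40, 48, 4, 12, 20, 28, 36, 44, 52, 60, 68, 76, 84, 92, 100, 108, 116, 124, 132, 140, 148, 156, 15253505, 30195713, 28229825, 16105473, 892934, 1900550, 1908742, 1941510, 2433030, 2949126, 56496110256314, 78376019001402, 94918889791514],
  Vale.Agent.P032.Lt.q_of (e' := WQ015.e367) (by decide +kernel) WQ015.q367⟩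

theorem w368 : Wx (EX xs7) Vale.Agent.P032X.Cert.X3.t1 (Vale.Agent.P032.Fam.fam3 Vale.Agent.P032.Fam.im0) WQ015.W368 := ⟨[0, 8, 16, 24, 32, 40, 48, 4, 12, 20, 28, 36, 44, 52, 60, 68, 76, 84, 92, 100, 108, 116, 124, 132, 140, 148, 156, 164, 172, 180, 188, 196, 204, 212, 220, 30854937, 87031873, 28622849, 52215809, 118538241, 40550401, 11976705, 41730049, 29671425, 15257369, 25214977],
  Vale.Agent.P032.Lt.q_of (e' := WQ015.e368) (by decide +kernel) WQ015.q368⟩

theorem w369 : Wx (EX xs7) Vale.Agent.P032X.Cert.X3.t1 (Vale.Agent.P032.Fam.fam3 Vale.Agent.P032.Fam.im0) WQ015.W369 := ⟨[0, 8, 16, 24, 32, 40, 48, 4, 12, 20, 28, 36, 44, 52, 60, 68, 76, 84, 92, 100, 108, 116, 124, 132, 140, 148, 156, 164, 172, 180, 188, 196, 204, 21479425, 125960601, 5264673, 31883673, 27017217, 114950553, 58245121, 49222985, 21283289, 63832065, 37355521, 49218249, 47841689, 20430937, 51954073, 3801089, 98173337, 24691097, 66371585, 12190105, 59621785, 58851329, 66764801,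 1376262, 1900550, 2949126],
  Vale.Agent.P032.Lt.q_of (e' := WQ015.e369) (by decide +kernel) WQ015.q369⟩

theorem w370 : Wx (EX xs7) Vale.Agent.P032X.Cert.X3.t1 (Vale.Agent.P032.Fam.fam3 Vale.Agent.P032.Fam.im0) WQ015.W370 := ⟨[0, 8, 16, 24, 32, 40, 48, 4, 12, 20, 28, 36, 44, 52, 60, 68, 76, 84, 92, 100, 108, 116, 124, 132, 140, 148, 156, 164, 172, 180, 188, 196, 204, 212, 50185241, 32407553, 50185625, 44679169, 107089305, 83889241, 104975897, 7064985, 4050329, 12701081, 81907097, 91606425, 50334745, 23383449, 99519897, 29150617, 52101185, 54185369, 57527705, 81104281, 55365017, 48090521, 15404441, 904601, 106024345, 97635737, 12832153, 128044441, 64671129, 107072921, 58838425, 74563609, 57003417, 93441433, 32361881, 12111641, 20628313, 119917977, 131124633, 104988673, 18107905, 107089369, 7356417, 262145, 16240025, 19451289, 56410113, 115985817, 53661081, 20368793, 19254681, 40488345, 68799897, 18730393, 92392857, 54644121, 19320217, 2473985,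 85314969, 84266393, 133103617, 132500889, 5885337, 19516825, 34459033, 69586329, 74829209, 123735065, 10485761, 77974937, 98570433, 31982849, 2424838, 2949126],
  Vale.Agent.P032.Lt.q_of (e' := WQ015.e370) (by decide +kernel) WQ015.q370⟩

theorem w371 : Wx (EX xs7) Vale.Agent.P032X.Cert.X3.t1 (Vale.Agent.P032.Fam.fam3 Vale.Agent.P032.Fam.im0) WQ015.W371 := ⟨[0, 8, 16, 24, 32, 40, 48, 4, 12, 20, 28, 36, 44, 52, 60, 68, 76, 84, 92, 100, 108, 116, 124, 132, 140, 148, 156, 164, 172, 180, 188, 196, 16367617, 25657345, 91131393, 28622849, 30854937, 118538241, 48283649, 25214977, 15257369, 26758937, 9981721, 73666593, 16912153, 335878, 860166, 1384454, 1908742, 2424838, 2949126, 38863024521274, 53952179961914, 97102342742042, 97113618079770],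
  Vale.Agent.P032.Lt.q_of (e' := WQ015.e371) (by decide +kernel) WQ015.q371⟩

theorem w372 : Wx (EX xs7) Vale.Agent.P032X.Cert.X3.t1 (Vale.Agent.P032.Fam.fam3 Vale.Agent.P032.Fam.im0) WQ015.W372 := ⟨[0, 8, 16, 24, 32, 40, 48, 4, 12, 20, 28, 36, 44, 52, 60, 68, 76, 84, 92, 100, 108, 116, 124, 132, 140, 148, 36753177, 11976705, 892934, 1900550, 1941510, 2424838, 2465798, 2949126, 56255853183162, 77330991374362, 77331192700954, 77331226255386, 97113618079770, 97113819406362, 97113852960794],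
  Vale.Agent.P032.Lt.q_of (e' := WQ015.e372) (by decide +kernel) WQ015.q372⟩

theorem w373 : Wx (EX xs7) Vale.Agent.P032X.Cert.X3.t1 (Vale.Agent.P032.Fam.fam3 Vale.Agent.P032.Fam.im0) WQ015.W373 := ⟨[0, 8, 16, 24, 32, 40, 48, 4, 12, 20, 28, 36, 44, 52, 60, 68, 76, 84, 92, 100, 108, 116, 124, 132, 140, 148, 156, 164, 172, 51036313, 352262, 368646, 1941510, 2973702, 53485833109690, 89172656586874],
  Vale.Agent.P032.Lt.q_of (e' := WQ015.e373) (by decide +kernel) WQ015.q373⟩

theorem w374 : Wx (EX xs7) Vale.Agent.P032X.Cert.X3.t1 (Vale.Agent.P032.Fam.fam3 Vale.Agent.P032.Fam.im0) WQ015.W374 := ⟨[0, 8, 16, 24, 32, 40, 48, 4, 12, 20, 28, 36, 44, 52, 60, 68, 76, 84, 92, 100, 108, 116, 124, 132, 140, 148, 156, 164, 172, 16371481, 16105473, 35831809, 39633857],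
  Vale.Agent.P032.Lt.q_of (e' := WQ015.e374) (by decide +kernel) WQ015.q374⟩

theorem w375 : Wx (EX xs7) Vale.Agent.P032X.Cert.X3.t1 (Vale.Agent.P032.Fam.fam3 Vale.Agent.P032.Fam.im0) WQ015.W375 := ⟨[0, 8, 16, 24, 32, 40, 48, 4, 12, 20, 28, 36, 44, 52, 60, 68, 76, 84, 92, 100, 108, 116, 124, 132, 140, 148, 156, 164, 172, 180, 188, 28622849, 40161049, 35835673, 83414809, 28755917, 123930789],
  Vale.Agent.P032.Lt.q_of (e' := WQ015.e375) (by decide +kernel) WQ015.q375⟩

theorem w376 : Wx (EX xs7) Vale.Agent.P032X.Cert.X3.t1 (Vale.Agent.P032.Fam.fam3 Vale.Agent.P032.Fam.im0) WQ015.W376 := ⟨[0, 8, 16, 24, 32, 40, 48, 4, 12, 20, 28, 36, 44, 52, 60, 68, 76, 84, 92, 100, 108, 116, 124, 132, 140, 148, 156, 164, 172, 180, 188, 31459201, 61345241, 103288281, 63180953, 130023681, 10371073, 9224257, 105955329, 130025625, 7115429, 70323609, 25018369, 851974, 1376262, 2424838, 2949126],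
  Vale.Agent.P032.Lt.q_of (e' := WQ015.e376) (by decide +kernel) WQ015.q376⟩

theorem w377 : Wx (EX xs7) Vale.Agent.P032X.Cert.X3.t1 (Vale.Agent.P032.Fam.fam3 Vale.Agent.P032.Fam.im0) WQ015.W377 := ⟨[0, 8, 16, 24, 32, 40, 48, 4, 12, 20, 28, 36, 44, 52, 60, 68, 76, 84, 92, 100, 108, 116, 124, 132, 140, 148, 156, 164, 172, 180, 188, 196, 204, 212, 220, 228, 236, 18464921, 93849049, 46186753, 22595033, 53069273, 22726105, 10469377, 19842521, 83478529, 80335257, 78169561, 32560729, 73777305, 69320857, 10403841, 21551681, 110215169, 123322369, 93700097, 47562753, 81379481, 22593689, 53067929, 19841177, 22724761, 78168217, 88719513, 49135769, 61194393, 67485849, 36814849, 88459265, 19185817, 10993817, 15843329, 39174145, 3522713, 40944857, 90554521, 55427225, 8503297, 57786369, 100778137, 344070, 1376262, 1900550, 1916934, 54226115207258, 58585939009562, 58585947398170],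
  Vale.Agent.P032.Lt.q_of (e' := WQ015.e377) (by decide +kernel) WQ015.q377⟩

theorem w378 : Wx (EX xs7) Vale.Agent.P032X.Cert.X3.t1 (Vale.Agent.P032.Fam.fam3 Vale.Agent.P032.Fam.im0) WQ015.W378 := ⟨[0, 8, 16, 24, 32, 40, 48, 4, 12, 20, 28, 36, 44, 52, 60, 68, 76, 84, 92, 100, 108, 116, 124, 132, 140, 148, 156, 164, 172, 180, 188, 196, 204, 212, 220, 56805377, 18464921, 22726105, 1693209, 80332249, 53069273, 22595033, 19842521, 46186753, 83478529, 22593689, 78168217, 96059545, 71155713, 49135769, 88719513, 57858085, 59563009, 10993817, 15843329, 39174145, 3522713, 4309145, 40944857, 55427225, 90554521, 47562753, 117031065, 21547841, 15057049, 63815833, 93700097, 78169561, 22724761, 53067929, 19841177, 61194393, 36814849, 88459265, 344070, 352262, 360454, 1376262, 1900550, 1916934, 1933318, 2973702, 53504564863130, 54237396836442, 57623732117530, 57623740506138, 57638774988826, 58585670574106, 58585678962714, 58585939009562, 58585947398170, 58600713445402,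 58600981880858, 88932138418298],
  Vale.Agent.P032.Lt.q_of (e' := WQ015.e378) (by decide +kernel) WQ015.q378⟩

theorem w379 : Wx (EX xs7) Vale.Agent.P032X.Cert.X3.t1 (Vale.Agent.P032.Fam.fam3 Vale.Agent.P032.Fam.im0) WQ016.W379 := ⟨[0, 8, 16, 24, 32, 40, 48, 4, 12, 20, 28, 36, 44, 52, 60, 68, 76, 84, 92, 100, 108, 116, 124, 132, 140, 148, 156, 164, 172, 180, 188, 196, 204, 18874369, 50185089, 37224921, 11714561, 5505497, 38176665, 128254425, 61145089, 12059137, 49224665, 20971777, 5262817, 5261281, 18874433, 18874841, 79167489, 90177537, 851974, 1900550, 2949126],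
  Vale.Agent.P032.Lt.q_of (e' := WQ016.e379) (by decide +kernel) WQ016.q379⟩

theorem w380 : Wx (EX xs7) Vale.Agent.P032X.Cert.X3.t1 (Vale.Agent.P032.Fam.fam3 Vale.Agent.P032.Fam.im0) WQ016.W380 := ⟨[0, 8, 16, 24, 32, 40, 48, 4, 12, 20, 28, 36, 44, 52, 60, 68, 76, 84, 92, 100, 108, 116, 124, 132, 140, 148, 156, 164, 172, 180, 188, 196, 204, 212, 220, 228, 236, 244, 252, 260, 14319617, 108793305, 47500761, 31100377, 38456793, 33669121, 132235265, 56147969, 77709313, 61390849, 61525465, 108056025, 108137945, 851974, 860166, 1900550, 2433030, 2949126, 56255795519514, 74046691967034],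
  Vale.Agent.P032.Lt.q_of (e' := WQ016.e380) (by decide +kernel) WQ016.q380⟩

theorem w381 : Wx (EX xs7) Vale.Agent.P032X.Cert.X3.t1 (Vale.Agent.P032.Fam.fam3 Vale.Agent.P032.Fam.im0) WQ016.W381 := ⟨[0, 8, 16, 24, 32, 40, 48, 4, 12, 20, 28, 36, 44, 52, 60, 68, 76, 84, 92, 100, 108, 116, 124, 132, 140, 148, 156, 164, 172, 180, 188, 130023681, 127405529, 59818177, 104988673, 7115429, 70323609, 32407553, 83889625, 63180953, 29478297, 26004889, 60607897, 51318169, 77122969, 2424838, 2949126],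
  Vale.Agent.P032.Lt.q_of (e' := WQ016.e381) (by decide +kernel) WQ016.q381⟩

theorem w382 : Wx (EX xs7) Vale.Agent.P032X.Cert.X3.t1 (Vale.Agent.P032.Fam.fam3 Vale.Agent.P032.Fam.im0) WQ016.W382 := ⟨[0, 8, 16, 24, 32, 40, 48, 4, 12, 20, 28, 36, 44, 52, 60, 68, 76, 84, 92, 100, 108, 116, 124, 132, 140, 148, 156, 28622849, 16367617, 118017817, 120639041, 39636441],
  Vale.Agent.P032.Lt.q_of (e' := WQ016.e382) (by decide +kernel) WQ016.q382⟩

theorem w383 : Wx (EX xs7) Vale.Agent.P032X.Cert.X3.t1 (Vale.Agent.P032.Fam.fam3 Vale.Agent.P032.Fam.im0) WQ016.W383 := ⟨[0, 8, 16, 24, 32, 40, 48, 4, 12, 20, 28, 36, 44, 52, 60, 68, 76, 84, 92, 100, 108, 116, 124, 132, 140, 148, 156, 79691777, 46518169, 44044057, 11976705, 77598553, 23838721, 2424838, 2949126, 97113618079770, 97113619128346, 97354471792666, 97354472841242],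
  Vale.Agent.P032.Lt.q_of (e' := WQ016.e383) (by decide +kernel) WQ016.q383⟩

theorem w384 : Wx (EX xs7) Vale.Agent.P032X.Cert.X3.t1 (Vale.Agent.P032.Fam.fam3 Vale.Agent.P032.Fam.im0) WQ016.W384 := ⟨[0, 8, 16, 24, 32, 40, 48, 4, 12, 20, 28, 36, 44, 52, 60, 68, 76, 84, 92, 100, 108, 116, 124, 132, 140, 148, 156, 164, 36753177, 11976705, 1900550, 2424838, 2949126, 97102333304858, 97113618079770],
  Vale.Agent.P032.Lt.q_of (e' := WQ016.e384) (by decide +kernel) WQ016.q384⟩

theorem w385 : Wx (EX xs7) Vale.Agent.P032X.Cert.X3.t1 (Vale.Agent.P032.Fam.fam3 Vale.Agent.P032.Fam.im0) WQ016.W385 := ⟨[0, 8, 16, 24, 32, 40, 48, 4, 12, 20, 28, 36, 44, 52, 60, 68, 76, 84, 92, 100, 108, 116, 124, 132, 140, 148, 156, 164, 172, 180, 188, 196, 109419365, 63489497, 38389209, 64013657, 63488153, 22593689, 6298469, 18464921, 57858085, 96518297, 10125313, 81921, 1376262, 1900550, 58585939009562],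
  Vale.Agent.P032.Lt.q_of (e' := WQ016.e385) (by decide +kernel) WQ016.q385⟩

theorem w386 : Wx (EX xs7) Vale.Agent.P032X.Cert.X3.t1 (Vale.Agent.P032.Fam.fam3 Vale.Agent.P032.Fam.im0) WQ016.W386 := ⟨[0, 8, 16, 24, 32, 40, 48, 4, 12, 20, 28, 36, 44, 52, 60, 68, 76, 84, 92, 100, 108, 116, 124, 132, 140, 148, 156, 164, 172, 180, 188, 196, 204, 26496409, 60047361, 103399425, 90816513, 41533441, 9879553, 9617409, 49597913, 39767513, 12632065, 49070081, 5423105, 22875609, 48172441, 47038465, 13684185, 11259353, 42520025, 103858177, 32411097, 892934, 1376262, 1900550, 2949126],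
  Vale.Agent.P032.Lt.q_of (e' := WQ016.e386) (by decide +kernel) WQ016.q386⟩

theorem w387 : Wx (EX xs7) Vale.Agent.P032X.Cert.X3.t1 (Vale.Agent.P032.Fam.fam3 Vale.Agent.P032.Fam.im0) WQ016.W387 := ⟨[0, 8, 16, 24, 32, 40, 48, 4, 12, 20, 28, 36, 44, 52, 60, 68, 76, 84, 92, 100, 108, 116, 124, 132, 140, 148, 156, 164, 172, 67374553, 30428633, 2100697, 63098329, 113302545, 100928921, 32411097, 265689, 93195737, 46972929, 47205785, 70110617, 92540313, 33820057, 122211801, 126094809, 117706137, 36228505, 17046545, 1900550, 2949126],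
  Vale.Agent.P032.Lt.q_of (e' := WQ016.e387) (by decide +kernel) WQ016.q387⟩

theorem w388 : Wx (EX xs7) Vale.Agent.P032X.Cert.X3.t1 (Vale.Agent.P032.Fam.fam3 Vale.Agent.P032.Fam.im0) WQ016.W388 := ⟨[0, 8, 16, 24, 32, 40, 48, 4, 12, 20, 28, 36, 44, 52, 60, 68, 76, 84, 92, 100, 108, 116, 124, 132, 140, 148, 156, 164, 172, 180, 188, 196, 204, 212, 220, 228, 8570881, 18464921, 19972249, 108642305, 18792601, 68206745, 93847705, 66109593, 43895461, 86622209, 16898777, 51036313, 24959705, 9093273, 63757017, 43434137, 15391449, 72466585, 52527257, 104382465, 119636121, 1359873, 2670745, 10797209, 13942937, 15384729, 123928729, 52609177, 28753921, 90292377, 22265857, 14008473, 36356097, 103137433, 21022273, 2410049, 103923865, 67682457, 24366977, 47370177, 45662209, 1376262, 1900550, 58311606362138],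
  Vale.Agent.P032.Lt.q_of (e' := WQ016.e388) (by decide +kernel) WQ016.q388⟩

theorem w389 : Wx (EX xs7) Vale.Agent.P032X.Cert.X3.t1 (Vale.Agent.P032.Fam.fam3 Vale.Agent.P032.Fam.im0) WQ016.W389 := ⟨[0, 8, 16, 24, 32, 40, 48, 4, 12, 20, 28, 36, 44, 52, 60, 68, 76, 84, 92, 100, 108, 116, 124, 132, 140, 148, 156, 164, 172, 180, 188, 74448961, 20971777, 114163777, 21479425, 31457889, 25821249, 50512345, 65273921, 98828289, 23003201, 68419585, 11173889, 55148545, 31916033, 109707265, 83935705, 5266209, 95617089, 53517285, 130023833, 2097889, 5264673, 130023897, 1900550, 2949126, 94979019333658],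
  Vale.Agent.P032.Lt.q_of (e' := WQ016.e389) (by decide +kernel) WQ016.q389⟩

theorem w390 : Wx (EX xs7) Vale.Agent.P032X.Cert.X3.t1 (Vale.Agent.P032.Fam.fam3 Vale.Agent.P032.Fam.im0) WQ016.W390 := ⟨[0, 8, 16, 24, 32, 40, 48, 4, 12, 20, 28, 36, 44, 52, 60, 68, 76, 84, 92, 100, 108, 116, 124, 132, 140, 148, 156, 164, 172, 180, 188, 11010713, 49241, 63504385, 61080025, 67633241, 1327169, 36044801, 38552025, 36487641, 68222977, 111722497, 121373145, 131072473, 105054681, 10519065, 1900550, 2949126],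
  Vale.Agent.P032.Lt.q_of (e' := WQ016.e390) (by decide +kernel) WQ016.q390⟩

theorem w391 : Wx (EX xs7) Vale.Agent.P032X.Cert.X3.t1 (Vale.Agent.P032.Fam.fam3 Vale.Agent.P032.Fam.im0) WQ016.W391 := ⟨[0, 8, 16, 24, 32, 40, 48, 4, 12, 20, 28, 36, 44, 52, 60, 68, 76, 84, 92, 100, 108, 116, 124, 132, 140, 148, 156, 164, 172, 180, 188, 196, 6291521, 37755265, 92803929, 50184833, 91128217, 31883265, 18874369, 83888481, 35062169, 109576601, 24449921, 93655937, 41336833, 60112897, 93552641, 3948953, 37502977, 2424838, 2949126],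
  Vale.Agent.P032.Lt.q_of (e' := WQ016.e391) (by decide +kernel) WQ016.q391⟩

theorem w392 : Wx (EX xs7) Vale.Agent.P032X.Cert.X3.t1 (Vale.Agent.P032.Fam.fam3 Vale.Agent.P032.Fam.im0) WQ016.W392 := ⟨[0, 8, 16, 24, 32, 40, 48, 4, 12, 20, 28, 36, 44, 52, 60, 68, 76, 84, 92, 100, 108, 116, 124, 132, 140, 148, 156, 164, 172, 180, 188, 196, 204, 212, 220, 228, 93323737, 106334053, 132694425, 106333797, 368646, 851974, 1384454, 1417222, 1900550, 1941510, 2949126, 2990086, 36409050480826, 94979011993626, 94979019333658, 95700868489242, 95700875829274],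
  Vale.Agent.P032.Lt.q_of (e' := WQ016.e392) (by decide +kernel) WQ016.q392⟩

theorem w393 : Wx (EX xs7) Vale.Agent.P032X.Cert.X3.t1 (Vale.Agent.P032.Fam.fam3 Vale.Agent.P032.Fam.im0) WQ016.W393 := ⟨[0, 8, 16, 24, 32, 40, 48, 4, 12, 20, 28, 36, 44, 52, 60, 68, 76, 84, 92, 100, 108, 116, 124, 132, 140, 148, 156, 164, 172, 180, 188, 196, 204, 212, 220, 228, 18464921, 93849049, 80332249, 46186753, 22595033, 53069273, 22726105, 10469377, 19842521, 8576001, 78168217, 59563009, 57858085, 56805377, 10993817, 15843329, 39174145, 3522713, 40944857, 90554521, 55427225, 8503297, 57786369, 117031065, 110215169, 123322369, 93700097, 47562753, 83478529, 71155713, 96059545, 22593689, 53067929, 19841177, 67485849, 22724761, 61194393, 88459265, 54902937, 88719513, 49135769, 25542809, 29280037, 66437273, 39239833, 48807937, 129089537, 6520985, 1376262, 1900550, 58585670574106],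
  Vale.Agent.P032.Lt.q_of (e' := WQ016.e393) (by decide +kernel) WQ016.q393⟩

theorem w394 : Wx (EX xs7) Vale.Agent.P032X.Cert.X3.t1 (Vale.Agent.P032.Fam.fam3 Vale.Agent.P032.Fam.im0) WQ016.W394 := ⟨[0, 8, 16, 24, 32, 40, 48, 4, 12, 20, 28, 36, 44, 52, 60, 68, 76, 84, 92, 100, 108, 116, 124, 132, 140, 148, 156, 164, 67747841, 18464921, 7127041, 39911425, 42909697, 108642305, 1376262, 1417222, 1900550, 58585939009562],
  Vale.Agent.P032.Lt.q_of (e' := WQ016.e394) (by decide +kernel) WQ016.q394⟩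

theorem w395 : Wx (EX xs7) Vale.Agent.P032X.Cert.X3.t1 (Vale.Agent.P032.Fam.fam3 Vale.Agent.P032.Fam.im0) WQ016.W395 := ⟨[0, 8, 16, 24, 32, 40, 48, 4, 12, 20, 28, 36, 44, 52, 60, 68, 76, 84, 92, 100, 108, 116, 124, 132, 140, 148, 156, 164, 172, 180, 188, 196, 204, 212, 220, 228, 236, 244, 252, 260, 268, 276, 284, 292, 300, 308, 316, 324, 332, 340, 348, 356, 364, 83478937, 6520833, 46186841, 53069121, 22594881, 22725953, 19842369, 73777153, 69320705, 80332097, 2670593, 18464769, 108642457, 103923713, 45662361, 103137281, 24368537, 4573593, 90292225, 22266009, 14008321, 36356249, 1296793, 52609025, 130400257, 66109441, 65028441, 18792449, 86622361, 16898625, 60080129, 24959553, 63756865, 15391297, 43433985, 13942785, 15384577, 28098561, 23117825, 24231937, 16891905, 114671617, 81379329, 22593537, 53067777, 19841025, 78168065, 22724609, 88719361, 49135617, 4308993, 61194241, 88459673, 67682305, 47371737, 19972097, 21022425, 2410201, 77645529, 11190273,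 62701569, 24952833, 19185665, 32559169, 10403993, 10993665, 15843481, 39174297, 3522561, 40944769, 55427073, 90554369, 47562905, 117030913, 93700249, 63815681, 10862593, 15056897, 44160409, 860166, 1376262, 1900550, 58311199514650, 58585548939290],
  Vale.Agent.P032.Lt.q_of (e' := WQ016.e395) (by decide +kernel) WQ016.q395⟩

theorem w396 : Wx (EX xs7) Vale.Agent.P032X.Cert.X3.t1 (Vale.Agent.P032.Fam.fam3 Vale.Agent.P032.Fam.im0) WQ016.W396 := ⟨[0, 8, 16, 24, 32, 40, 48, 4, 12, 20, 28, 36, 44, 52, 60, 68, 76, 84, 92, 100, 108, 116, 124, 132, 140, 148, 156, 164, 172, 180, 188, 196, 204, 212, 220, 228, 236, 244, 252, 16957633, 14926017, 19580633, 124831385, 5555929, 21414081, 6734017, 29409409, 5554369, 6735513, 54051009, 65323201, 58376385, 72401089, 31901401, 41207449, 48416409, 72402585, 41076441, 86558425, 30328473, 62570689, 8896641, 43960025, 93372417, 20825689, 59295321, 51562073, 52479577, 72206041, 105498329, 59560921, 17219777, 8831169,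 101761217, 62046401, 7655937, 59560513, 105431233, 41993945, 63553729, 110149825, 107528385, 95469761, 105432793, 101762777, 62047961, 21676225, 8573913],
  Vale.Agent.P032.Lt.q_of (e' := WQ016.e396) (by decide +kernel) WQ016.q396⟩

theorem w397 : Wx (EX xs7) Vale.Agent.P032X.Cert.X3.t1 (Vale.Agent.P032.Fam.fam3 Vale.Agent.P032.Fam.im0) WQ016.W397 := ⟨[0, 8, 16, 24, 32, 40, 48, 4, 12, 20, 28, 36, 44, 52, 60, 68, 76, 84, 92, 100, 108, 116, 124, 132, 140, 148, 156, 164, 172, 180, 188, 196, 204, 212, 220, 228, 236, 244, 17155969, 55313317, 968577, 78759809, 67928473, 69339009, 28492185, 88874213, 2104293, 17598337, 2228225, 130156417, 31343001, 84708761, 53888961, 19582361, 55509401, 1886081, 45795201],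
  Vale.Agent.P032.Lt.q_of (e' := WQ016.e397) (by decide +kernel) WQ016.q397⟩

theorem w398 : Wx (EX xs7) Vale.Agent.P032X.Cert.X3.t1 (Vale.Agent.P032.Fam.fam3 Vale.Agent.P032.Fam.im0) WQ016.W398 := ⟨[0, 8, 16, 24, 32, 40, 48, 4, 12, 20, 28, 36, 44, 52, 60, 68, 76, 84, 92, 100, 108, 116, 124, 132, 140, 148, 156, 31982849, 130023681, 4505601, 99139585, 114655233, 2424838, 2949126],
  Vale.Agent.P032.Lt.q_of (e' := WQ016.e398) (by decide +kernel) WQ016.q398⟩

theorem w399 : Wx (EX xs7) Vale.Agent.P032X.Cert.X3.t1 (Vale.Agent.P032.Fam.fam3 Vale.Agent.P032.Fam.im0) WQ016.W399 := ⟨[0, 8, 16, 24, 32, 40, 48, 4, 12, 20, 28, 36, 44, 52, 60, 68, 76, 84, 92, 100, 108, 116, 124, 132, 140, 148, 156, 164, 172, 180, 188, 196, 67633793, 131334145, 19399065, 67633665, 19399193, 55312793, 2097305, 21479833, 67633537, 2102489, 57459097, 55624153, 16941465, 121372673, 7995393, 81396121, 125305241, 49938433, 84279705, 66060697, 35045377, 20561921, 96076185, 108658689,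 14811545, 33947649, 21250049, 70909953, 46514585, 58725353, 38109185, 131727769, 89784729, 100270081, 31064473, 87687169, 20431257, 33161217, 83492865, 117047297, 12861441, 58327449, 91881473, 2424838, 2949126],
  Vale.Agent.P032.Lt.q_of (e' := WQ016.e399) (by decide +kernel) WQ016.q399⟩

def L : List (List ℕ) := [WQ013.W300, WQ013.W301, WQ013.W302, WQ013.W303, WQ013.W304, WQ013.W305, WQ013.W306, WQ013.W307, WQ013.W308, WQ013.W309, WQ013.W310, WQ013.W311, WQ013.W312, WQ013.W313, WQ013.W314, WQ014.W315, WQ014.W316, WQ014.W317, WQ014.W318, WQ014.W319, WQ014.W320, WQ014.W321, WQ014.W322, WQ014.W323, WQ014.W324, WQ014.W325, WQ014.W326, WQ014.W327, WQ014.W328, WQ014.W329, WQ014.W330, WQ014.W331, WQ014.W332, WQ014.W333, WQ014.W334, WQ014.W335, WQ014.W336, WQ014.W337, WQ014.W338, WQ014.W339, WQ014.W340, WQ014.W341, WQ014.W342, WQ014.W343, WQ014.W344, WQ015.W345, WQ015.W346, WQ015.W347, WQ015.W348, WQ015.W349, WQ015.W350, WQ015.W351, WQ015.W352, WQ015.W353,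 WQ015.W354, WQ015.W355, WQ015.W356, WQ015.W357, WQ015.W358, WQ015.W359, WQ015.W360, WQ015.W361, WQ015.W362, WQ015.W363, WQ015.W364, WQ015.W365, WQ015.W366, WQ015.W367, WQ015.W368, WQ015.W369, WQ015.W370, WQ015.W371, WQ015.W372, WQ015.W373, WQ015.W374, WQ015.W375, WQ015.W376, WQ015.W377, WQ015.W378, WQ016.W379, WQ016.W380, WQ016.W381, WQ016.W382, WQ016.W383, WQ016.W384, WQ016.W385, WQ016.W386, WQ016.W387, WQ016.W388, WQ016.W389, WQ016.W390, WQ016.W391, WQ016.W392, WQ016.W393, WQ016.W394, WQ016.W395, WQ016.W396, WQ016.W397, WQ016.W398, WQ016.W399]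

theorem all : ∀ P ∈ L, Wx (EX xs7) Vale.Agent.P032X.Cert.X3.t1 (Vale.Agent.P032.Fam.fam3 Vale.Agent.P032.Fam.im0) P := wx_cons w300 (wx_cons w301 (wx_cons w302 (wx_cons w303 (wx_cons w304 (wx_cons w305 (wx_cons w306 (wx_cons w307 (wx_cons w308 (wx_cons w309 (wx_cons w310 (wx_cons w311 (wx_cons w312 (wx_cons w313 (wx_cons w314 (wx_cons w315 (wx_cons w316 (wx_cons w317 (wx_cons w318 (wx_cons w319 (wx_cons w320 (wx_cons w321 (wx_cons w322 (wx_cons w323 (wx_cons w324 (wx_cons w325 (wx_cons w326 (wx_cons w327 (wx_cons w328 (wx_cons w329 (wx_cons w330 (wx_cons w331 (wx_cons w332 (wx_cons w333 (wx_cons w334 (wx_cons w335 (wx_cons w336 (wx_cons w337 (wx_cons w338 (wx_cons w339 (wx_cons w340 (wx_cons w341 (wx_cons w342 (wx_cons w343 (wx_cons w344 (wx_cons w345 (wx_cons w346 (wx_cons w347 (wx_cons w348 (wx_cons w349 (wx_cons w350 (wx_cons w351 (wx_cons w352 (wx_cons w353 (wx_cons w354 (wx_cons w355 (wx_cons w356 (wx_cons w357 (wx_cons w358 (wx_cons w359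 (wx_cons w360 (wx_cons w361 (wx_cons w362 (wx_cons w363 (wx_cons w364 (wx_cons w365 (wx_cons w366 (wx_cons w367 (wx_cons w368 (wx_cons w369 (wx_cons w370 (wx_cons w371 (wx_cons w372 (wx_cons w373 (wx_cons w374 (wx_cons w375 (wx_cons w376 (wx_cons w377 (wx_cons w378 (wx_cons w379 (wx_cons w380 (wx_cons w381 (wx_cons w382 (wx_cons w383 (wx_cons w384 (wx_cons w385 (wx_cons w386 (wx_cons w387 (wx_cons w388 (wx_cons w389 (wx_cons w390 (wx_cons w391 (wx_cons w392 (wx_cons w393 (wx_cons w394 (wx_cons w395 (wx_cons w396 (wx_cons w397 (wx_cons w398 (wx_cons w399 wx_nil)))))))))))))))))))))))))))))))))))))))))))))))))))))))))))))))))))))))))))))))))))))))))))))))))))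

theorem ch : chT 73 73 TCm Vale.Agent.P032X.Cert.X3.W2.sW_003 L = true := by decide +kernel

end Vale.Agent.P032X.Cert.X3.W2.WH003
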