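import Vale.Agent.P032X.H892.LtH
import Vale.Agent.P032X.H286.B73
import Vale.Agent.P032X.Cert.X3.T1
import Vale.Agent.P032X.Cert.X3.W2.WT
import Vale.Agent.P032X.Cert.X3.W2.WQ004
import Vale.Agent.P032X.Cert.X3.W2.WQ005
import Vale.Agent.P032X.Cert.X3.W2.WQ006
import Vale.Agent.P032X.Cert.X3.W2.WQ007

set_option maxRecDepth 1000000

namespace Vale.Agent.P032X.Cert.X3.W2.WH001

open Vale.Agent.P032.H820.K Vale.Agent.P032.H357.MK Vale.Agent.P032.H286.E Vale.Agent.P032.H61 Vale.Agent.P032.H61.TF Vale.Agent.P032.BlkE Vale.Agent.P032.BlkS Vale.Agent.P032.H357 Vale.Agent.P032 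

theorem w100 : Wx (EX xs7) Vale.Agent.P032X.Cert.X3.t1 (Vale.Agent.P032.Fam.fam3 Vale.Agent.P032.Fam.im0) WQ004.W100 := ⟨[0, 8, 16, 24, 32, 40, 48, 4, 12, 20, 28, 36, 44, 52, 60, 68, 76, 84, 92, 100, 108, 116, 124, 132, 140, 148, 45187073, 112295937, 23674881, 61767681, 27361281, 1900550, 2949126, 2965510],
  Vale.Agent.P032.Lt.q_of (e' := WQ004.e100) (by decide +kernel) WQ004.q100⟩

theorem w101 : Wx (EX xs7) Vale.Agent.P032X.Cert.X3.t1 (Vale.Agent.P032.Fam.fam3 Vale.Agent.P032.Fam.im0) WQ004.W101 := ⟨[0, 8, 16, 24, 32, 40, 48, 4, 12, 20, 28, 36, 44, 52, 60, 68, 76, 84, 92, 100, 108, 116, 124, 132, 140, 148, 130023489, 52707801, 77988313, 78348761, 65880537, 11239897, 18874777, 1900550, 2949126],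
  Vale.Agent.P032.Lt.q_of (e' := WQ004.e101) (by decide +kernel) WQ004.q101⟩

theorem w102 : Wx (EX xs7) Vale.Agent.P032X.Cert.X3.t1 (Vale.Agent.P032.Fam.fam3 Vale.Agent.P032.Fam.im0) WQ004.W102 := ⟨[0, 8, 16, 24, 32, 40, 48, 4, 12, 20, 28, 36, 44, 52, 60, 68, 76, 84, 92, 100, 108, 116, 124, 132, 140, 148, 156, 41795993, 40370177, 23151001, 73826305, 33554433, 75694081, 24002969, 32131789, 101649101],
  Vale.Agent.P032.Lt.q_of (e' := WQ004.e102) (by decide +kernel) WQ004.q102⟩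

theorem w103 : Wx (EX xs7) Vale.Agent.P032X.Cert.X3.t1 (Vale.Agent.P032.Fam.fam3 Vale.Agent.P032.Fam.im0) WQ004.W103 := ⟨[0, 8, 16, 24, 32, 40, 48, 4, 12, 20, 28, 36, 44, 52, 60, 68, 76, 84, 92, 100, 108, 116, 124, 9961473, 51904513, 2097489, 118292481, 48250881, 24002625, 119013377],
  Vale.Agent.P032.Lt.q_of (e' := WQ004.e103) (by decide +kernel) WQ004.q103⟩

theorem w104 : Wx (EX xs7) Vale.Agent.P032X.Cert.X3.t1 (Vale.Agent.P032.Fam.fam3 Vale.Agent.P032.Fam.im0) WQ004.W104 := ⟨[0, 8, 16, 24, 32, 40, 48, 4, 12, 20, 28, 36, 44, 52, 60, 68, 76, 84, 92, 100, 108, 116, 124, 132, 87425025],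
  Vale.Agent.P032.Lt.q_of (e' := WQ004.e104) (by decide +kernel) WQ004.q104⟩

theorem w105 : Wx (EX xs7) Vale.Agent.P032X.Cert.X3.t1 (Vale.Agent.P032.Fam.fam3 Vale.Agent.P032.Fam.im0) WQ004.W105 := ⟨[0, 8, 16, 24, 32, 40, 48, 4, 12, 20, 28, 36, 44, 52, 60, 68, 76, 84, 92, 100, 108, 116, 124, 132, 133857305, 66748441, 117080089, 29442049, 41310721, 33193985, 100309505],
  Vale.Agent.P032.Lt.q_of (e' := WQ004.e105) (by decide +kernel) WQ004.q105⟩

theorem w106 : Wx (EX xs7) Vale.Agent.P032X.Cert.X3.t1 (Vale.Agent.P032.Fam.fam3 Vale.Agent.P032.Fam.im0) WQ004.W106 := ⟨[0, 8, 16, 24, 32, 40, 48, 4, 12, 20, 28, 36, 44, 52, 60, 68, 76, 84, 92, 100, 108, 116, 124, 132, 140, 148, 156, 33292697, 28311553, 31211929, 88146329, 114950553, 21037057, 1900550, 2949126],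
  Vale.Agent.P032.Lt.q_of (e' := WQ004.e106) (by decide +kernel) WQ004.q106⟩

theorem w107 : Wx (EX xs7) Vale.Agent.P032X.Cert.X3.t1 (Vale.Agent.P032.Fam.fam3 Vale.Agent.P032.Fam.im0) WQ004.W107 := ⟨[0, 8, 16, 24, 32, 40, 48, 4, 12, 20, 28, 36, 44, 52, 60, 68, 76, 84, 92, 100, 108, 116, 124, 132, 140, 148, 156, 164, 126222337, 46862105, 22020161, 89133017, 63213337, 100437785],
  Vale.Agent.P032.Lt.q_of (e' := WQ004.e107) (by decide +kernel) WQ004.q107⟩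

theorem w108 : Wx (EX xs7) Vale.Agent.P032X.Cert.X3.t1 (Vale.Agent.P032.Fam.fam3 Vale.Agent.P032.Fam.im0) WQ004.W108 := ⟨[0, 8, 16, 24, 32, 40, 48, 4, 12, 20, 28, 36, 44, 52, 60, 68, 76, 84, 92, 100, 108, 116, 124, 132, 140, 148, 156, 31211929, 117309849, 6881281, 50185473, 67633601],
  Vale.Agent.P032.Lt.q_of (e' := WQ004.e108) (by decide +kernel) WQ004.q108⟩

theorem w109 : Wx (EX xs7) Vale.Agent.P032X.Cert.X3.t1 (Vale.Agent.P032.Fam.fam3 Vale.Agent.P032.Fam.im0) WQ004.W109 := ⟨[0, 8, 16, 24, 32, 40, 48, 4, 12, 20, 28, 36, 44, 52, 60, 68, 76, 84, 92, 6553601],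
  Vale.Agent.P032.Lt.q_of (e' := WQ004.e109) (by decide +kernel) WQ004.q109⟩

theorem w110 : Wx (EX xs7) Vale.Agent.P032X.Cert.X3.t1 (Vale.Agent.P032.Fam.fam3 Vale.Agent.P032.Fam.im0) WQ004.W110 := ⟨[0, 8, 16, 24, 32, 40, 48, 4, 12, 20, 28, 36, 44, 52, 60, 68, 76, 84, 92, 100, 108, 116, 124, 132, 140, 148, 156, 164, 172, 180, 188, 88874145, 99093913, 25021849, 21564825, 63573401, 88873249, 53874073, 22020097, 11931033, 30084505, 28380569, 860166, 1900550, 2949126],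
  Vale.Agent.P032.Lt.q_of (e' := WQ004.e110) (by decide +kernel) WQ004.q110⟩

theorem w111 : Wx (EX xs7) Vale.Agent.P032X.Cert.X3.t1 (Vale.Agent.P032.Fam.fam3 Vale.Agent.P032.Fam.im0) WQ004.W111 := ⟨[0, 8, 16, 24, 32, 40, 48, 4, 12, 20, 28, 36, 44, 52, 60, 68, 76, 84, 92, 100, 108, 115445209, 17239513, 1900550, 2424838],
  Vale.Agent.P032.Lt.q_of (e' := WQ004.e111) (by decide +kernel) WQ004.q111⟩

theorem w112 : Wx (EX xs7) Vale.Agent.P032X.Cert.X3.t1 (Vale.Agent.P032.Fam.fam3 Vale.Agent.P032.Fam.im0) WQ004.W112 := ⟨[0, 8, 16, 24, 32, 40, 48, 4, 12, 20, 28, 36, 44, 52, 60, 68, 76, 84, 92, 100, 108, 116, 124, 132, 140, 148, 156, 2198937, 130121729, 63012865, 69307801, 69732449, 1392646, 2424838, 2949126],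
  Vale.Agent.P032.Lt.q_of (e' := WQ004.e112) (by decide +kernel) WQ004.q112⟩

theorem w113 : Wx (EX xs7) Vale.Agent.P032X.Cert.X3.t1 (Vale.Agent.P032.Fam.fam3 Vale.Agent.P032.Fam.im0) WQ004.W113 := ⟨[0, 8, 16, 24, 32, 40, 48, 4, 12, 20, 28, 36, 44, 52, 60, 68, 76, 84, 92, 100, 108, 116, 124, 132, 140, 148, 156, 164, 172, 180, 188, 101122329, 5668865, 56705025, 74350593, 40796161, 1376262, 1417222, 2990086],
  Vale.Agent.P032.Lt.q_of (e' := WQ004.e113) (by decide +kernel) WQ004.q113⟩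

theorem w114 : Wx (EX xs7) Vale.Agent.P032X.Cert.X3.t1 (Vale.Agent.P032.Fam.fam3 Vale.Agent.P032.Fam.im0) WQ004.W114 := ⟨[0, 8, 16, 24, 32, 40, 48, 4, 12, 20, 28, 36, 44, 52, 60, 68, 76, 84, 92, 100, 108, 116, 124, 132, 140, 148, 156, 164, 172, 180, 188, 196, 204, 11010177, 21250049, 51975313, 86376857, 64618497, 15548825, 128516097, 62914561, 121700353, 107544577, 90767769, 121372673, 63183233, 2424838, 2949126],
  Vale.Agent.P032.Lt.q_of (e' := WQ004.e114) (by decide +kernel) WQ004.q114⟩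

theorem w115 : Wx (EX xs7) Vale.Agent.P032X.Cert.X3.t1 (Vale.Agent.P032.Fam.fam3 Vale.Agent.P032.Fam.im0) WQ004.W115 := ⟨[0, 8, 16, 24, 32, 40, 48, 4, 12, 20, 28, 36, 44, 52, 60, 68, 76, 84, 92, 100, 108, 116, 124, 132, 140, 148, 156, 6307841, 63438849, 29884417, 122028033, 85854785, 107085889, 31985817, 94240769, 851974, 1900550, 2949126],
  Vale.Agent.P032.Lt.q_of (e' := WQ004.e115) (by decide +kernel) WQ004.q115⟩

theorem w116 : Wx (EX xs7) Vale.Agent.P032X.Cert.X3.t1 (Vale.Agent.P032.Fam.fam3 Vale.Agent.P032.Fam.im0) WQ004.W116 := ⟨[0, 8, 16, 24, 32, 40, 48, 4, 12, 20, 28, 36, 44, 52, 60, 68, 76, 84, 92, 100, 108, 116, 124, 132, 140, 148, 54525953, 12582913, 121639873, 69009409, 45432833, 92504065, 132972545, 21118977, 1900545, 37896193, 35454977, 72679425, 5570561],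
  Vale.Agent.P032.Lt.q_of (e' := WQ004.e116) (by decide +kernel) WQ004.q116⟩

theorem w117 : Wx (EX xs7) Vale.Agent.P032X.Cert.X3.t1 (Vale.Agent.P032.Fam.fam3 Vale.Agent.P032.Fam.im0) WQ004.W117 := ⟨[0, 8, 16, 24, 32, 40, 48, 4, 12, 20, 28, 36, 44, 52, 60, 68, 76, 84, 92, 100, 108, 116, 124, 133431489, 51644249, 17567193, 67898841, 39323713, 51644481, 67895297, 39323481, 51400153, 106434009, 789977, 32522241, 22546265, 133435097, 17563649, 51396609, 106430465, 32525785, 22546497, 64490969, 34619393, 65031641, 66322433, 83103193, 32771545, 49548377, 65028097, 116657625, 84676057, 1068505, 9178585, 56102361, 66080217, 116654081, 1064961, 66076673, 51118081, 56098817, 9175041, 89653249, 84672513, 123207681, 66325977, 32768001, 15745025, 47710209, 17842177, 49299457, 83099649, 114822617, 81268185, 99880409, 118230489, 30932993, 98041857, 14159321, 30936537, 131596289, 49545217, 114819073, 47713753, 49303001,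 81264641, 15748569, 17845721, 51121241, 89656793, 34622937, 123211225, 99876865, 101449729, 118226945, 14155777, 131599833],
  Vale.Agent.P032.Lt.q_of (e' := WQ004.e117) (by decide +kernel) WQ004.q117⟩

theorem w118 : Wx (EX xs7) Vale.Agent.P032X.Cert.X3.t1 (Vale.Agent.P032.Fam.fam3 Vale.Agent.P032.Fam.im0) WQ004.W118 := ⟨[0, 8, 16, 24, 32, 40, 48, 4, 12, 20, 28, 36, 44, 52, 60, 68, 76, 84, 92, 100, 108, 116, 124, 132, 140, 29773209, 42110361, 132681113, 65572249, 99880345, 68717977, 1609113, 102268929, 32014337, 99123201, 82706433, 35160065],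
  Vale.Agent.P032.Lt.q_of (e' := WQ004.e118) (by decide +kernel) WQ004.q118⟩

theorem w119 : Wx (EX xs7) Vale.Agent.P032X.Cert.X3.t1 (Vale.Agent.P032.Fam.fam3 Vale.Agent.P032.Fam.im0) WQ004.W119 := ⟨[0, 8, 16, 24, 32, 40, 48, 4, 12, 20, 28, 36, 44, 52, 60, 68, 76, 84, 92, 100, 108, 116, 124, 132, 140, 148, 22282241, 129925121, 79265793, 39718297, 40258969, 2788761, 12471705, 15404505, 69897625, 17714585, 1900550, 2949126],
  Vale.Agent.P032.Lt.q_of (e' := WQ004.e119) (by decide +kernel) WQ004.q119⟩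

theorem w120 : Wx (EX xs7) Vale.Agent.P032X.Cert.X3.t1 (Vale.Agent.P032.Fam.fam3 Vale.Agent.P032.Fam.im0) WQ004.W120 := ⟨[0, 8, 16, 24, 32, 40, 48, 4, 12, 20, 28, 36, 44, 52, 60, 68, 76, 84, 92, 100, 108, 133697305],
  Vale.Agent.P032.Lt.q_of (e' := WQ004.e120) (by decide +kernel) WQ004.q120⟩

theorem w121 : Wx (EX xs7) Vale.Agent.P032X.Cert.X3.t1 (Vale.Agent.P032.Fam.fam3 Vale.Agent.P032.Fam.im0) WQ004.W121 := ⟨[0, 8, 16, 24, 32, 40, 48, 4, 12, 20, 28, 36, 44, 52, 60, 68, 76, 84, 92, 100, 108, 116, 124, 132, 140, 94601345, 6291929, 92803841, 50184473, 94601217, 83034113],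
  Vale.Agent.P032.Lt.q_of (e' := WQ004.e121) (by decide +kernel) WQ004.q121⟩

theorem w122 : Wx (EX xs7) Vale.Agent.P032X.Cert.X3.t1 (Vale.Agent.P032.Fam.fam3 Vale.Agent.P032.Fam.im0) WQ004.W122 := ⟨[0, 8, 16, 24, 32, 40, 48, 4, 12, 20, 28, 36, 44, 52, 60, 68, 76, 84, 92, 100, 108, 116, 124, 132, 94928897, 118063577, 120096065],
  Vale.Agent.P032.Lt.q_of (e' := WQ004.e122) (by decide +kernel) WQ004.q122⟩

theorem w123 : Wx (EX xs7) Vale.Agent.P032X.Cert.X3.t1 (Vale.Agent.P032.Fam.fam3 Vale.Agent.P032.Fam.im0) WQ004.W123 := ⟨[0, 8, 16, 24, 32, 40, 48, 4, 12, 20, 28, 36, 44, 52, 60, 68, 76, 84, 92, 100, 108, 116, 124, 92082053, 58527621, 130485721, 125636509, 82873433],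
  Vale.Agent.P032.Lt.q_of (e' := WQ004.e123) (by decide +kernel) WQ004.q123⟩

theorem w124 : Wx (EX xs7) Vale.Agent.P032X.Cert.X3.t1 (Vale.Agent.P032.Fam.fam3 Vale.Agent.P032.Fam.im0) WQ004.W124 := ⟨[0, 8, 16, 24, 32, 40, 48, 4, 12, 20, 28, 36, 44, 52, 60, 68, 76, 84, 92, 100, 108, 116, 124, 132, 140, 148, 156, 164, 172, 19398721, 61145497, 50954241, 61145089, 28311961, 34079129, 110100481, 26214809, 1966657, 122945945, 11550721, 13894041, 35520921, 8110081, 58851737, 17056153, 112066969, 43647385, 40386969, 77201817, 1196441, 5262817, 122945665, 1900550, 2949126],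
  Vale.Agent.P032.Lt.q_of (e' := WQ004.e124) (by decide +kernel) WQ004.q124⟩

theorem w125 : Wx (EX xs7) Vale.Agent.P032X.Cert.X3.t1 (Vale.Agent.P032.Fam.fam3 Vale.Agent.P032.Fam.im0) WQ005.W125 := ⟨[0, 8, 16, 24, 32, 40, 48, 4, 12, 20, 28, 36, 44, 52, 60, 68, 76, 84, 92, 100, 108, 116, 124, 132, 140, 148, 156, 164, 172, 180, 188, 130023769, 19398657, 67633305, 19398785, 91127809, 64618905, 96075777, 56754177, 62914969, 14287257, 57016729, 70910361, 54591489, 21266433, 29360129, 81395713, 7995801, 121373081, 123863041, 14811137, 67633177, 1376262, 2424838, 2949126],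
  Vale.Agent.P032.Lt.q_of (e' := WQ005.e125) (by decide +kernel) WQ005.q125⟩

theorem w126 : Wx (EX xs7) Vale.Agent.P032X.Cert.X3.t1 (Vale.Agent.P032.Fam.fam3 Vale.Agent.P032.Fam.im0) WQ005.W126 := ⟨[0, 8, 16, 24, 32, 40, 48, 4, 12, 20, 28, 36, 44, 52, 60, 68, 76, 84, 92, 100, 108, 116, 124, 132, 140, 148, 156, 164, 172, 61145497, 39094537, 98570273, 61145153, 1900550, 2949126],
  Vale.Agent.P032.Lt.q_of (e' := WQ005.e126) (by decide +kernel) WQ005.q126⟩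

theorem w127 : Wx (EX xs7) Vale.Agent.P032X.Cert.X3.t1 (Vale.Agent.P032.Fam.fam3 Vale.Agent.P032.Fam.im0) WQ005.W127 := ⟨[0, 8, 16, 24, 32, 40, 48, 4, 12, 20, 28, 36, 44, 52, 60, 68, 76, 84, 92, 100, 108, 116, 124, 132, 140, 148, 156, 164, 172, 122688257, 130023705, 74055833, 85885081, 88874065, 88873753, 98568993, 74055897, 88870681, 93363089, 93363473, 2424838, 2949126],
  Vale.Agent.P032.Lt.q_of (e' := WQ005.e127) (by decide +kernel) WQ005.q127⟩

theorem w128 : Wx (EX xs7) Vale.Agent.P032X.Cert.X3.t1 (Vale.Agent.P032.Fam.fam3 Vale.Agent.P032.Fam.im0) WQ005.W128 := ⟨[0, 8, 16, 24, 32, 40, 48, 4, 12, 20, 28, 36, 44, 52, 60, 68, 76, 84, 92, 100, 108, 116, 124, 132, 140, 148, 156, 55050241, 106168321],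
  Vale.Agent.P032.Lt.q_of (e' := WQ005.e128) (by decide +kernel) WQ005.q128⟩

theorem w129 : Wx (EX xs7) Vale.Agent.P032X.Cert.X3.t1 (Vale.Agent.P032.Fam.fam3 Vale.Agent.P032.Fam.im0) WQ005.W129 := ⟨[0, 8, 16, 24, 32, 40, 48, 4, 12, 20, 28, 36, 44, 52, 60, 68, 76, 84, 92, 100, 108, 116, 124, 132, 140, 148, 156, 164, 172, 180, 188, 196, 204, 212, 220, 228, 236, 132124057, 1052057, 68160921, 65015193],
  Vale.Agent.P032.Lt.q_of (e' := WQ005.e129) (by decide +kernel) WQ005.q129⟩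

theorem w130 : Wx (EX xs7) Vale.Agent.P032X.Cert.X3.t1 (Vale.Agent.P032.Fam.fam3 Vale.Agent.P032.Fam.im0) WQ005.W130 := ⟨[0, 8, 16, 24, 32, 40, 48, 4, 12, 20, 28, 36, 44, 52, 60, 68, 76, 84, 92, 100, 108, 116, 124, 132, 140, 148, 156, 164, 172, 180, 188, 196, 204, 212, 37224449, 39421517, 67633177, 1327833, 28147713, 113639833, 46535961, 80085401, 1376262, 2424838, 2949126],
  Vale.Agent.P032.Lt.q_of (e' := WQ005.e130) (by decide +kernel) WQ005.q130⟩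

theorem w131 : Wx (EX xs7) Vale.Agent.P032X.Cert.X3.t1 (Vale.Agent.P032.Fam.fam3 Vale.Agent.P032.Fam.im0) WQ005.W131 := ⟨[0, 8, 16, 24, 32, 40, 48, 4, 12, 20, 28, 36, 44, 52, 60, 68, 76, 84, 92, 100, 108, 116, 124, 132, 140, 148, 156, 164, 172, 180, 40370585, 130187673, 63078809, 46301593, 100663297, 46481817, 91133713, 71860633, 42221977, 851974, 1900550, 2949126, 2981894],
  Vale.Agent.P032.Lt.q_of (e' := WQ005.e131) (by decide +kernel) WQ005.q131⟩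

theorem w132 : Wx (EX xs7) Vale.Agent.P032X.Cert.X3.t1 (Vale.Agent.P032.Fam.fam3 Vale.Agent.P032.Fam.im0) WQ005.W132 := ⟨[0, 8, 16, 24, 32, 40, 48, 4, 12, 20, 28, 36, 44, 52, 60, 68, 76, 84, 92, 100, 108, 116, 124, 132, 140, 148, 156, 164, 172, 180, 188, 196, 204, 212, 220, 228, 115999129, 68813209, 278937, 65667481, 58725353, 76415449, 41828761, 24510873, 14286849, 130843033, 83492865, 121372673, 63668225, 10617305, 32113049, 61735321, 48628121],
  Vale.Agent.P032.Lt.q_of (e' := WQ005.e132) (by decide +kernel) WQ005.q132⟩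

theorem w133 : Wx (EX xs7) Vale.Agent.P032X.Cert.X3.t1 (Vale.Agent.P032.Fam.fam3 Vale.Agent.P032.Fam.im0) WQ005.W133 := ⟨[0, 8, 16, 24, 32, 40, 48, 4, 12, 20, 28, 36, 44, 52, 60, 68, 76, 84, 92, 100, 108, 116, 124, 132, 140, 148, 156, 164, 172, 180, 188, 196, 93357921, 590297, 69730577, 68813273, 115999193, 18481625, 111544849, 65667545, 67699161, 32113113, 279001, 44433881, 892934, 1900550, 2949126, 2990086],
  Vale.Agent.P032.Lt.q_of (e' := WQ005.e133) (by decide +kernel) WQ005.q133⟩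

theorem w134 : Wx (EX xs7) Vale.Agent.P032X.Cert.X3.t1 (Vale.Agent.P032.Fam.fam3 Vale.Agent.P032.Fam.im0) WQ005.W134 := ⟨[0, 8, 16, 24, 32, 40, 48, 4, 12, 20, 28, 36, 44, 52, 60, 68, 76, 84, 92, 100, 108, 116, 124, 132, 140, 148, 106790913, 39682329, 22905113, 73236761, 335878, 344070, 868358, 1376262, 1916934, 2424838, 2449414, 2949126, 2957318],
  Vale.Agent.P032.Lt.q_of (e' := WQ005.e134) (by decide +kernel) WQ005.q134⟩

theorem w135 : Wx (EX xs7) Vale.Agent.P032X.Cert.X3.t1 (Vale.Agent.P032.Fam.fam3 Vale.Agent.P032.Fam.im0) WQ005.W135 := ⟨[0, 8, 16, 24, 32, 40, 48, 4, 12, 20, 28, 36, 44, 52, 60, 68, 76, 84, 92, 100, 108, 116, 124, 132, 140, 31982849, 7605721, 5509729, 56774105, 53510413, 53511245, 91557337, 36179353, 7605657, 22056345, 17826393, 1900550, 2949126],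
  Vale.Agent.P032.Lt.q_of (e' := WQ005.e135) (by decide +kernel) WQ005.q135⟩

theorem w136 : Wx (EX xs7) Vale.Agent.P032X.Cert.X3.t1 (Vale.Agent.P032.Fam.fam3 Vale.Agent.P032.Fam.im0) WQ005.W136 := ⟨[0, 8, 16, 24, 32, 40, 48, 4, 12, 20, 28, 36, 44, 52, 60, 68, 76, 84, 92, 100, 108, 116, 124, 132, 140, 148, 156, 164, 172, 180, 188, 196, 31457297, 25021913, 53510413, 109645209, 70323609, 61345177, 103288217, 66194841, 65047961, 36457881, 111218073, 44109209, 33820057, 2919833, 32918937, 70028697, 97291737, 66473369, 63737241, 30182873, 32279961, 110038425, 3427737, 112758169, 130846361, 105778585, 58720297, 937369],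
  Vale.Agent.P032.Lt.q_of (e' := WQ005.e136) (by decide +kernel) WQ005.q136⟩

theorem w137 : Wx (EX xs7) Vale.Agent.P032X.Cert.X3.t1 (Vale.Agent.P032.Fam.fam3 Vale.Agent.P032.Fam.im0) WQ005.W137 := ⟨[0, 8, 16, 24, 32, 40, 48, 4, 12, 20, 28, 36, 44, 52, 60, 68, 76, 84, 92, 100, 108, 116, 124, 132, 140, 126255513, 851974, 1376262, 2949126],
  Vale.Agent.P032.Lt.q_of (e' := WQ005.e137) (by decide +kernel) WQ005.q137⟩

theorem w138 : Wx (EX xs7) Vale.Agent.P032X.Cert.X3.t1 (Vale.Agent.P032.Fam.fam3 Vale.Agent.P032.Fam.im0) WQ005.W138 := ⟨[0, 8, 16, 24, 32, 40, 48, 4, 12, 20, 28, 36, 44, 52, 60, 68, 76, 84, 92, 100, 108, 116, 124, 132, 140, 148, 156, 164, 172, 180, 188, 196, 204, 85854785, 50188737, 96210329, 94240769, 14683609],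
  Vale.Agent.P032.Lt.q_of (e' := WQ005.e138) (by decide +kernel) WQ005.q138⟩

theorem w139 : Wx (EX xs7) Vale.Agent.P032X.Cert.X3.t1 (Vale.Agent.P032.Fam.fam3 Vale.Agent.P032.Fam.im0) WQ005.W139 := ⟨[0, 8, 16, 24, 32, 40, 48, 4, 12, 20, 28, 36, 44, 52, 60, 68, 76, 84, 92, 100, 108, 116, 124, 132, 140, 148, 156, 164, 172, 180, 20974177, 11012129, 20168833, 3145881, 6946969, 125700513, 119668825, 851974, 2424838, 2949126],
  Vale.Agent.P032.Lt.q_of (e' := WQ005.e139) (by decide +kernel) WQ005.q139⟩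

theorem w140 : Wx (EX xs7) Vale.Agent.P032X.Cert.X3.t1 (Vale.Agent.P032.Fam.fam3 Vale.Agent.P032.Fam.im0) WQ005.W140 := ⟨[0, 8, 16, 24, 32, 40, 48, 4, 12, 20, 28, 36, 44, 52, 60, 68, 76, 84, 92, 100, 108, 116, 124, 132, 140, 148, 156, 164, 172, 20971649, 62652481, 48776449, 32000009, 99614721],
  Vale.Agent.P032.Lt.q_of (e' := WQ005.e140) (by decide +kernel) WQ005.q140⟩

theorem w141 : Wx (EX xs7) Vale.Agent.P032X.Cert.X3.t1 (Vale.Agent.P032.Fam.fam3 Vale.Agent.P032.Fam.im0) WQ005.W141 := ⟨[0, 8, 16, 24, 32, 40, 48, 4, 12, 20, 28, 36, 44, 52, 60, 68, 76, 84, 92, 100, 108, 116, 124, 132, 140, 148, 156, 164, 172, 180, 188, 196, 204, 212, 110690777, 26804697, 100666393, 851974, 1900550, 2949126],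
  Vale.Agent.P032.Lt.q_of (e' := WQ005.e141) (by decide +kernel) WQ005.q141⟩

theorem w142 : Wx (EX xs7) Vale.Agent.P032X.Cert.X3.t1 (Vale.Agent.P032.Fam.fam3 Vale.Agent.P032.Fam.im0) WQ005.W142 := ⟨[0, 8, 16, 24, 32, 40, 48, 4, 12, 20, 28, 36, 44, 52, 60, 68, 76, 84, 92, 100, 108, 116, 124, 132, 140, 148, 156, 164, 172, 180, 61145497, 57819137, 126025729, 131334209, 69206745, 67633433, 20974881],
  Vale.Agent.P032.Lt.q_of (e' := WQ005.e142) (by decide +kernel) WQ005.q142⟩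

theorem w143 : Wx (EX xs7) Vale.Agent.P032X.Cert.X3.t1 (Vale.Agent.P032.Fam.fam3 Vale.Agent.P032.Fam.im0) WQ005.W143 := ⟨[0, 8, 16, 24, 32, 40, 48, 4, 12, 20, 28, 36, 44, 52, 60, 68, 76, 84, 92, 100, 108, 116, 124, 132, 140, 148, 156, 164, 172, 50184833, 130023489, 92803929, 131334145, 76349441, 16974233, 100860313, 61145561, 6291521, 61079961, 67633177, 61079553, 67633665, 67633537, 11010177, 18874369, 2424838, 2949126],
  Vale.Agent.P032.Lt.q_of (e' := WQ005.e143) (by decide +kernel) WQ005.q143⟩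

theorem w144 : Wx (EX xs7) Vale.Agent.P032X.Cert.X3.t1 (Vale.Agent.P032.Fam.fam3 Vale.Agent.P032.Fam.im0) WQ005.W144 := ⟨[0, 8, 16, 24, 32, 40, 48, 4, 12, 20, 28, 36, 44, 52, 60, 68, 76, 84, 92, 100, 108, 116, 124, 132, 140, 148, 156, 164, 172, 180, 188, 196, 204, 6291521, 76414977, 78512129, 50429953, 9240577, 38944769, 105709569, 20119553, 87228417, 111084481, 4800985, 63799297, 11780097, 55132161, 63521241, 24936449, 29966809, 127959513, 29458433, 30294489, 46235649, 113344513, 1900550, 2949126],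
  Vale.Agent.P032.Lt.q_of (e' := WQ005.e144) (by decide +kernel) WQ005.q144⟩

theorem w145 : Wx (EX xs7) Vale.Agent.P032X.Cert.X3.t1 (Vale.Agent.P032.Fam.fam3 Vale.Agent.P032.Fam.im0) WQ005.W145 := ⟨[0, 8, 16, 24, 32, 40, 48, 4, 12, 20, 28, 36, 44, 52, 60, 68, 76, 84, 92, 100, 108, 116, 124, 132, 140, 148, 156, 164, 172, 118489173, 44699209, 39849545, 106958409],
  Vale.Agent.P032.Lt.q_of (e' := WQ005.e145) (by decide +kernel) WQ005.q145⟩

theorem w146 : Wx (EX xs7) Vale.Agent.P032X.Cert.X3.t1 (Vale.Agent.P032.Fam.fam3 Vale.Agent.P032.Fam.im0) WQ005.W146 := ⟨[0, 8, 16, 24, 32, 40, 48, 4, 12, 20, 28, 36, 44, 52, 60, 68, 76, 84, 92, 100, 108, 116, 124, 132, 140, 148, 156, 164, 126877697, 89063425, 63471617, 130023681, 96210329, 35147161, 130780569, 85854785, 107085889, 50188737, 92799193, 86245529, 63717593, 82903041, 120979457, 94240769, 15796553, 49348709, 124780697, 25691265, 116457689, 130023553,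 89063489, 50188353, 10488921, 55119321, 96210393, 63471681, 104992217, 851974, 1900550, 2949126],
  Vale.Agent.P032.Lt.q_of (e' := WQ005.e146) (by decide +kernel) WQ005.q146⟩

theorem w147 : Wx (EX xs7) Vale.Agent.P032X.Cert.X3.t1 (Vale.Agent.P032.Fam.fam3 Vale.Agent.P032.Fam.im0) WQ005.W147 := ⟨[0, 8, 16, 24, 32, 40, 48, 4, 12, 20, 28, 36, 44, 52, 60, 68, 76, 84, 92, 100, 108, 116, 124, 132, 140, 148, 156, 164, 63177985, 74711041, 7602177, 104992153],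
  Vale.Agent.P032.Lt.q_of (e' := WQ005.e147) (by decide +kernel) WQ005.q147⟩

theorem w148 : Wx (EX xs7) Vale.Agent.P032X.Cert.X3.t1 (Vale.Agent.P032.Fam.fam3 Vale.Agent.P032.Fam.im0) WQ005.W148 := ⟨[0, 8, 16, 24, 32, 40, 48, 4, 12, 20, 28, 36, 44, 52, 60, 68, 76, 84, 92, 100, 108, 116, 124, 132, 140, 148, 156, 164, 172, 180, 188, 196, 204, 212, 28311553, 78512537, 66977793, 4259841, 25231361, 20578305, 117309849, 117506049, 83951617, 92340225, 100532225, 33423361, 50397185, 66338817, 16842753, 58851329, 58785793, 851974, 1900550, 2949126],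
  Vale.Agent.P032.Lt.q_of (e' := WQ005.e148) (by decide +kernel) WQ005.q148⟩

theorem w149 : Wx (EX xs7) Vale.Agent.P032X.Cert.X3.t1 (Vale.Agent.P032.Fam.fam3 Vale.Agent.P032.Fam.im0) WQ005.W149 := ⟨[0, 8, 16, 24, 32, 40, 48, 4, 12, 20, 28, 36, 44, 52, 60, 68, 76, 84, 92, 100, 108, 116, 124, 132, 140, 148, 156, 164, 526097, 28837649, 95946513, 99653673, 15926825, 46157273],
  Vale.Agent.P032.Lt.q_of (e' := WQ005.e149) (by decide +kernel) WQ005.q149⟩

theorem w150 : Wx (EX xs7) Vale.Agent.P032X.Cert.X3.t1 (Vale.Agent.P032.Fam.fam3 Vale.Agent.P032.Fam.im0) WQ005.W150 := ⟨[0, 8, 16, 24, 32, 40, 48, 4, 12, 20, 28, 36, 44, 52, 60, 68, 76, 84, 92, 100, 108, 116, 124, 132, 140, 148, 156, 164, 172, 180, 188, 196, 204, 31592129, 132255641, 1183513, 65146265, 63211297, 57675545, 98701209, 15798169],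
  Vale.Agent.P032.Lt.q_of (e' := WQ005.e150) (by decide +kernel) WQ005.q150⟩

theorem w151 : Wx (EX xs7) Vale.Agent.P032X.Cert.X3.t1 (Vale.Agent.P032.Fam.fam3 Vale.Agent.P032.Fam.im0) WQ005.W151 := ⟨[0, 8, 16, 24, 32, 40, 48, 4, 12, 20, 28, 36, 44, 52, 60, 68, 76, 84, 92, 100, 108, 116, 124, 132, 140, 148, 156, 12848537, 126877697, 130023681, 851974, 892934, 1376262, 1900550, 2949126],
  Vale.Agent.P032.Lt.q_of (e' := WQ005.e151) (by decide +kernel) WQ005.q151⟩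

theorem w152 : Wx (EX xs7) Vale.Agent.P032X.Cert.X3.t1 (Vale.Agent.P032.Fam.fam3 Vale.Agent.P032.Fam.im0) WQ005.W152 := ⟨[0, 8, 16, 24, 32, 40, 48, 4, 12, 20, 28, 36, 44, 52, 60, 68, 76, 84, 92, 100, 108, 116, 124, 132, 140, 148, 156, 164, 172, 180, 51052545, 344070, 860166, 2424838, 2433030, 2949126],
  Vale.Agent.P032.Lt.q_of (e' := WQ005.e152) (by decide +kernel) WQ005.q152⟩

theorem w153 : Wx (EX xs7) Vale.Agent.P032X.Cert.X3.t1 (Vale.Agent.P032.Fam.fam3 Vale.Agent.P032.Fam.im0) WQ005.W153 := ⟨[0, 8, 16, 24, 32, 40, 48, 4, 12, 20, 28, 36, 44, 52, 60, 68, 76, 84, 92, 100, 108, 116, 124, 132, 140, 148, 156, 164, 172, 180, 188, 38538649, 527833, 83886081, 1900550, 2949126],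
  Vale.Agent.P032.Lt.q_of (e' := WQ005.e153) (by decide +kernel) WQ005.q153⟩

theorem w154 : Wx (EX xs7) Vale.Agent.P032X.Cert.X3.t1 (Vale.Agent.P032.Fam.fam3 Vale.Agent.P032.Fam.im0) WQ005.W154 := ⟨[0, 8, 16, 24, 32, 40, 48, 4, 12, 20, 28, 36, 44, 52, 60, 68, 76, 84, 92, 100, 108, 116, 124, 132, 140, 24641537, 851974, 860166, 1900550, 2949126],
  Vale.Agent.P032.Lt.q_of (e' := WQ005.e154) (by decide +kernel) WQ005.q154⟩

theorem w155 : Wx (EX xs7) Vale.Agent.P032X.Cert.X3.t1 (Vale.Agent.P032.Fam.fam3 Vale.Agent.P032.Fam.im0) WQ005.W155 := ⟨[0, 8, 16, 24, 32, 40, 48, 4, 12, 20, 28, 36, 44, 52, 60, 68, 76, 84, 92, 100, 108, 116, 124, 132, 140, 148, 21433817, 335878, 851974, 860166, 1392646, 1908742, 2424838, 2433030, 2949126],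
  Vale.Agent.P032.Lt.q_of (e' := WQ005.e155) (by decide +kernel) WQ005.q155⟩

theorem w156 : Wx (EX xs7) Vale.Agent.P032X.Cert.X3.t1 (Vale.Agent.P032.Fam.fam3 Vale.Agent.P032.Fam.im0) WQ005.W156 := ⟨[0, 8, 16, 24, 32, 40, 48, 4, 12, 20, 28, 36, 44, 52, 60, 68, 76, 84, 92, 100, 108, 116, 124, 132, 140, 148, 156, 164, 172, 180, 188, 196, 204, 30346713, 47123929, 344070, 868358, 1376262, 1392646, 1900550, 1925126, 2949126],
  Vale.Agent.P032.Lt.q_of (e' := WQ005.e156) (by decide +kernel) WQ005.q156⟩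

theorem w157 : Wx (EX xs7) Vale.Agent.P032X.Cert.X3.t1 (Vale.Agent.P032.Fam.fam3 Vale.Agent.P032.Fam.im0) WQ005.W157 := ⟨[0, 8, 16, 24, 32, 40, 48, 4, 12, 20, 28, 36, 44, 52, 60, 68, 76, 84, 92, 100, 108, 116, 124, 132, 140, 148, 156, 164, 172, 180, 188, 122688129, 80740505, 3146009, 127271065, 119439553, 1376262, 2949126, 2981894],
  Vale.Agent.P032.Lt.q_of (e' := WQ005.e157) (by decide +kernel) WQ005.q157⟩

theorem w158 : Wx (EX xs7) Vale.Agent.P032X.Cert.X3.t1 (Vale.Agent.P032.Fam.fam3 Vale.Agent.P032.Fam.im0) WQ005.W158 := ⟨[0, 8, 16, 24, 32, 40, 48, 4, 12, 20, 28, 36, 44, 52, 60, 68, 76, 84, 92, 100, 108, 116, 124, 132, 140, 88867713, 69732577, 22020161, 10485825, 55115841, 53513765, 85855129, 19529793, 2883929, 1900550, 2949126],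
  Vale.Agent.P032.Lt.q_of (e' := WQ005.e158) (by decide +kernel) WQ005.q158⟩

theorem w159 : Wx (EX xs7) Vale.Agent.P032X.Cert.X3.t1 (Vale.Agent.P032.Fam.fam3 Vale.Agent.P032.Fam.im0) WQ005.W159 := ⟨[0, 8, 16, 24, 32, 40, 48, 4, 12, 20, 28, 36, 44, 52, 60, 68, 76, 84, 92, 100, 108, 116, 124, 132, 140, 148, 156, 164, 172, 63177985, 73696801, 130974473, 64753545, 106563105, 130975265, 92802721, 50186953, 90015265, 30754337, 123569697, 74647073, 15009313, 12060425, 66848289, 45418017, 93652513, 4196833, 110233121, 112526881, 132641, 78972449, 38209057, 124061217, 4277793, 24053281, 57607713, 91162145, 56460833, 54167073, 14517793, 2965510],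
  Vale.Agent.P032.Lt.q_of (e' := WQ005.e159) (by decide +kernel) WQ005.q159⟩

theorem w160 : Wx (EX xs7) Vale.Agent.P032X.Cert.X3.t1 (Vale.Agent.P032.Fam.fam3 Vale.Agent.P032.Fam.im0) WQ005.W160 := ⟨[0, 8, 16, 24, 32, 40, 48, 4, 12, 20, 28, 36, 44, 52, 60, 68, 76, 84, 92, 100, 40894465, 108003329],
  Vale.Agent.P032.Lt.q_of (e' := WQ005.e160) (by decide +kernel) WQ005.q160⟩

theorem w161 : Wx (EX xs7) Vale.Agent.P032X.Cert.X3.t1 (Vale.Agent.P032.Fam.fam3 Vale.Agent.P032.Fam.im0) WQ005.W161 := ⟨[0, 8, 16, 24, 32, 40, 48, 4, 12, 20, 28, 36, 44, 52, 60, 68, 76, 84, 92, 100, 108, 116, 124, 132, 10223617, 15433729, 860166, 1376262, 2424838],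
  Vale.Agent.P032.Lt.q_of (e' := WQ005.e161) (by decide +kernel) WQ005.q161⟩

theorem w162 : Wx (EX xs7) Vale.Agent.P032X.Cert.X3.t1 (Vale.Agent.P032.Fam.fam3 Vale.Agent.P032.Fam.im0) WQ006.W162 := ⟨[0, 8, 16, 24, 32, 40, 48, 4, 12, 20, 28, 36, 44, 52, 60, 68, 76, 84, 92, 100, 108, 116, 124, 132, 140, 148, 156, 164, 172, 31461217, 31459201, 56623105, 10485761, 71303361, 123735065, 96206849, 31459233, 31459361, 85854745, 10371073, 39980441, 123735449, 56628257, 123735561, 60181913, 71305569, 96212001, 123736737, 77073817, 14685281, 70451201, 21889025, 36896769, 868358, 2424838, 2949126],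
  Vale.Agent.P032.Lt.q_of (e' := WQ006.e162) (by decide +kernel) WQ006.q162⟩

theorem w163 : Wx (EX xs7) Vale.Agent.P032X.Cert.X3.t1 (Vale.Agent.P032.Fam.fam3 Vale.Agent.P032.Fam.im0) WQ006.W163 := ⟨[0, 8, 16, 24, 32, 40, 48, 4, 12, 20, 28, 36, 44, 52, 60, 68, 76, 84, 92, 100, 108, 116, 124, 132, 140, 148, 156, 164, 77270105],
  Vale.Agent.P032.Lt.q_of (e' := WQ006.e163) (by decide +kernel) WQ006.q163⟩

theorem w164 : Wx (EX xs7) Vale.Agent.P032X.Cert.X3.t1 (Vale.Agent.P032.Fam.fam3 Vale.Agent.P032.Fam.im0) WQ006.W164 := ⟨[0, 8, 16, 24, 32, 40, 48, 4, 12, 20, 28, 36, 44, 52, 60, 68, 76, 84, 92, 100, 108, 116, 124, 132, 140, 148, 156, 164, 172, 180, 188, 196, 204, 212, 220, 228, 25018369, 99090497, 72876033, 25018433, 20172249, 10371137, 92405825, 121962497, 65536065, 132644865, 860166, 1900550, 1908742, 2949126],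
  Vale.Agent.P032.Lt.q_of (e' := WQ006.e164) (by decide +kernel) WQ006.q164⟩

theorem w165 : Wx (EX xs7) Vale.Agent.P032X.Cert.X3.t1 (Vale.Agent.P032.Fam.fam3 Vale.Agent.P032.Fam.im0) WQ006.W165 := ⟨[0, 8, 16, 24, 32, 40, 48, 4, 12, 20, 28, 36, 44, 52, 60, 68, 76, 84, 92, 100, 108, 116, 124, 132, 140, 148, 156, 164, 172, 180, 123732481, 102170689, 131268609, 39665793, 64159745, 130027417, 5390529, 3343297, 2424838, 2433030, 2949126],
  Vale.Agent.P032.Lt.q_of (e' := WQ006.e165) (by decide +kernel) WQ006.q165⟩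

theorem w166 : Wx (EX xs7) Vale.Agent.P032X.Cert.X3.t1 (Vale.Agent.P032.Fam.fam3 Vale.Agent.P032.Fam.im0) WQ006.W166 := ⟨[0, 8, 16, 24, 32, 40, 48, 4, 12, 20, 28, 36, 44, 52, 60, 68, 76, 84, 92, 100, 108, 116, 124, 132, 140, 148, 156, 164, 172, 46661633, 25657345, 130088961, 130095009, 18894617, 2162689],
  Vale.Agent.P032.Lt.q_of (e' := WQ006.e166) (by decide +kernel) WQ006.q166⟩

theorem w167 : Wx (EX xs7) Vale.Agent.P032X.Cert.X3.t1 (Vale.Agent.P032.Fam.fam3 Vale.Agent.P032.Fam.im0) WQ006.W167 := ⟨[0, 8, 16, 24, 32, 40, 48, 4, 12, 20, 28, 36, 44, 52, 60, 68, 76, 84, 92, 100, 108, 116, 124, 132, 140, 148, 156, 164, 172, 180, 188, 196, 204, 212, 220, 228, 236, 244, 252, 88868333, 71073793],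
  Vale.Agent.P032.Lt.q_of (e' := WQ006.e167) (by decide +kernel) WQ006.q167⟩

theorem w168 : Wx (EX xs7) Vale.Agent.P032X.Cert.X3.t1 (Vale.Agent.P032.Fam.fam3 Vale.Agent.P032.Fam.im0) WQ006.W168 := ⟨[0, 8, 16, 24, 32, 40, 48, 4, 12, 20, 28, 36, 44, 52, 60, 68, 76, 84, 92, 100, 108, 116, 124, 132, 140, 148, 156, 37224449, 82313217, 20316737, 67633537, 61079553, 67633305, 115867649, 48758785, 335878, 851974, 2424838, 2949126],
  Vale.Agent.P032.Lt.q_of (e' := WQ006.e168) (by decide +kernel) WQ006.q168⟩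

theorem w169 : Wx (EX xs7) Vale.Agent.P032X.Cert.X3.t1 (Vale.Agent.P032.Fam.fam3 Vale.Agent.P032.Fam.im0) WQ006.W169 := ⟨[0, 8, 16, 24, 32, 40, 48, 4, 12, 20, 28, 36, 44, 52, 60, 68, 76, 84, 92, 100, 108, 116, 124, 132, 140, 148, 156, 164, 79167961, 18874777, 108528025, 6291929, 42467329, 50184345, 12058777, 108527617, 130023489, 50184985, 1900550, 2949126],
  Vale.Agent.P032.Lt.q_of (e' := WQ006.e169) (by decide +kernel) WQ006.q169⟩

theorem w170 : Wx (EX xs7) Vale.Agent.P032X.Cert.X3.t1 (Vale.Agent.P032.Fam.fam3 Vale.Agent.P032.Fam.im0) WQ006.W170 := ⟨[0, 8, 16, 24, 32, 40, 48, 4, 12, 20, 28, 36, 44, 52, 60, 68, 76, 84, 92, 100, 108, 116, 124, 132, 140, 148, 156, 164, 172, 180, 188, 76677121, 9568257, 335878, 1376262, 1900550, 2949126],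
  Vale.Agent.P032.Lt.q_of (e' := WQ006.e170) (by decide +kernel) WQ006.q170⟩

theorem w171 : Wx (EX xs7) Vale.Agent.P032X.Cert.X3.t1 (Vale.Agent.P032.Fam.fam3 Vale.Agent.P032.Fam.im0) WQ006.W171 := ⟨[0, 8, 16, 24, 32, 40, 48, 4, 12, 20, 28, 36, 44, 52, 60, 68, 76, 84, 92, 100, 108, 116, 124, 132, 140, 148, 156, 164, 172, 180, 188, 196, 204, 212, 220, 11010049, 65294861],
  Vale.Agent.P032.Lt.q_of (e' := WQ006.e171) (by decide +kernel) WQ006.q171⟩

theorem w172 : Wx (EX xs7) Vale.Agent.P032X.Cert.X3.t1 (Vale.Agent.P032.Fam.fam3 Vale.Agent.P032.Fam.im0) WQ006.W172 := ⟨[0, 8, 16, 24, 32, 40, 48, 4, 12, 20, 28, 36, 44, 52, 60, 68, 76, 84, 92, 100, 108, 116, 124, 132, 140, 148, 156, 164, 172, 180, 188, 95813761, 16502617, 3538945, 4685825],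
  Vale.Agent.P032.Lt.q_of (e' := WQ006.e172) (by decide +kernel) WQ006.q172⟩

theorem w173 : Wx (EX xs7) Vale.Agent.P032X.Cert.X3.t1 (Vale.Agent.P032.Fam.fam3 Vale.Agent.P032.Fam.im0) WQ006.W173 := ⟨[0, 8, 16, 24, 32, 40, 48, 4, 12, 20, 28, 36, 44, 52, 60, 68, 76, 84, 92, 100, 108, 116, 124, 132, 140, 148, 156, 164, 172, 180, 25657345, 50151425, 56950785, 40173569, 23396353, 94637849, 107285661, 20480001, 131465217, 130973697, 97910785, 64356353, 851974, 2424838, 2949126],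
  Vale.Agent.P032.Lt.q_of (e' := WQ006.e173) (by decide +kernel) WQ006.q173⟩

theorem w174 : Wx (EX xs7) Vale.Agent.P032X.Cert.X3.t1 (Vale.Agent.P032.Fam.fam3 Vale.Agent.P032.Fam.im0) WQ006.W174 := ⟨[0, 8, 16, 24, 32, 40, 48, 4, 12, 20, 28, 36, 44, 52, 60, 68, 76, 84, 92, 100, 108, 116, 124, 132, 124292505],
  Vale.Agent.P032.Lt.q_of (e' := WQ006.e174) (by decide +kernel) WQ006.q174⟩

theorem w175 : Wx (EX xs7) Vale.Agent.P032X.Cert.X3.t1 (Vale.Agent.P032.Fam.fam3 Vale.Agent.P032.Fam.im0) WQ006.W175 := ⟨[0, 8, 16, 24, 32, 40, 48, 4, 12, 20, 28, 36, 44, 52, 60, 68, 76, 84, 92, 100, 108, 116, 124, 132, 140, 148, 156, 98568593, 4197401, 44564545, 4194305, 130976025, 63182785, 130023769, 53513573, 25021913, 44567961, 133103681, 120946689, 10829825, 1900550, 2949126],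
  Vale.Agent.P032.Lt.q_of (e' := WQ006.e175) (by decide +kernel) WQ006.q175⟩

theorem w176 : Wx (EX xs7) Vale.Agent.P032X.Cert.X3.t1 (Vale.Agent.P032.Fam.fam3 Vale.Agent.P032.Fam.im0) WQ006.W176 := ⟨[0, 8, 16, 24, 32, 40, 48, 4, 12, 20, 28, 36, 44, 52, 60, 68, 76, 84, 92, 100, 108, 116, 124, 132, 140, 148, 156, 164, 172, 180, 188, 196, 204, 79167961, 18874777, 108528857, 6291929, 85721089, 91127809, 50190241, 85852897, 35061761, 104993289, 1376262, 2424838, 2949126],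
  Vale.Agent.P032.Lt.q_of (e' := WQ006.e176) (by decide +kernel) WQ006.q176⟩

theorem w177 : Wx (EX xs7) Vale.Agent.P032X.Cert.X3.t1 (Vale.Agent.P032.Fam.fam3 Vale.Agent.P032.Fam.im0) WQ006.W177 := ⟨[0, 8, 16, 24, 32, 40, 48, 4, 12, 20, 28, 36, 44, 52, 60, 68, 76, 84, 92, 100, 108, 116, 124, 132, 140, 148, 156, 5508169, 17534745, 130023617, 90246177, 87556161],
  Vale.Agent.P032.Lt.q_of (e' := WQ006.e177) (by decide +kernel) WQ006.q177⟩

theorem w178 : Wx (EX xs7) Vale.Agent.P032X.Cert.X3.t1 (Vale.Agent.P032.Fam.fam3 Vale.Agent.P032.Fam.im0) WQ006.W178 := ⟨[0, 8, 16, 24, 32, 40, 48, 4, 12, 20, 28, 36, 44, 52, 60, 68, 76, 84, 92, 100, 108, 116, 124, 132, 140, 148, 156, 164, 172, 180, 188, 196, 204, 212, 220, 61145089, 67633601, 54001729, 98567321, 69730577, 37224513, 54001665, 5259329, 38158809, 8945665, 4603969, 64520257, 1900550, 1941510, 2457606, 2949126],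
  Vale.Agent.P032.Lt.q_of (e' := WQ006.e178) (by decide +kernel) WQ006.q178⟩

theorem w179 : Wx (EX xs7) Vale.Agent.P032X.Cert.X3.t1 (Vale.Agent.P032.Fam.fam3 Vale.Agent.P032.Fam.im0) WQ006.W179 := ⟨[0, 8, 16, 24, 32, 40, 48, 4, 12, 20, 28, 36, 44, 52, 60, 68, 76, 84, 92, 100, 108, 116, 124, 132, 140, 148, 156, 164, 172, 180, 188, 196, 204, 212, 220, 228, 236, 244, 252, 260, 268, 276, 284, 292, 30408705, 97517633, 36798465, 20024729, 265625, 103910809, 132287897],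
  Vale.Agent.P032.Lt.q_of (e' := WQ006.e179) (by decide +kernel) WQ006.q179⟩

theorem w180 : Wx (EX xs7) Vale.Agent.P032X.Cert.X3.t1 (Vale.Agent.P032.Fam.fam3 Vale.Agent.P032.Fam.im0) WQ006.W180 := ⟨[0, 8, 16, 24, 32, 40, 48, 4, 12, 20, 28, 36, 44, 52, 60, 68, 76, 84, 92, 100, 108, 116, 124, 132, 140, 148, 156, 164, 172, 180, 188, 196, 204, 212, 220, 228, 236, 244, 252, 74449369, 80415113, 69273993, 97192329],
  Vale.Agent.P032.Lt.q_of (e' := WQ006.e180) (by decide +kernel) WQ006.q180⟩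

theorem w181 : Wx (EX xs7) Vale.Agent.P032X.Cert.X3.t1 (Vale.Agent.P032.Fam.fam3 Vale.Agent.P032.Fam.im0) WQ006.W181 := ⟨[0, 8, 16, 24, 32, 40, 48, 4, 12, 20, 28, 36, 44, 52, 60, 68, 76, 84, 92, 100, 108, 116, 124, 132, 140, 148, 156, 164, 172, 180, 188, 196, 204, 212, 49480153, 6291457, 851974, 2424838, 2949126],
  Vale.Agent.P032.Lt.q_of (e' := WQ006.e181) (by decide +kernel) WQ006.q181⟩

theorem w182 : Wx (EX xs7) Vale.Agent.P032X.Cert.X3.t1 (Vale.Agent.P032.Fam.fam3 Vale.Agent.P032.Fam.im0) WQ006.W182 := ⟨[0, 8, 16, 24, 32, 40, 48, 4, 12, 20, 28, 36, 44, 52, 60, 68, 76, 84, 52363457, 104103937],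
  Vale.Agent.P032.Lt.q_of (e' := WQ006.e182) (by decide +kernel) WQ006.q182⟩

theorem w183 : Wx (EX xs7) Vale.Agent.P032X.Cert.X3.t1 (Vale.Agent.P032.Fam.fam3 Vale.Agent.P032.Fam.im0) WQ006.W183 := ⟨[0, 8, 16, 24, 32, 40, 48, 4, 12, 20, 28, 36, 44, 52, 60, 68, 76, 84, 92, 113770497, 860166, 2424838, 2949126],
  Vale.Agent.P032.Lt.q_of (e' := WQ006.e183) (by decide +kernel) WQ006.q183⟩

theorem w184 : Wx (EX xs7) Vale.Agent.P032X.Cert.X3.t1 (Vale.Agent.P032.Fam.fam3 Vale.Agent.P032.Fam.im0) WQ006.W184 := ⟨[0, 8, 16, 24, 32, 40, 48, 4, 12, 20, 28, 36, 44, 52, 60, 68, 76, 84, 92, 100, 116752385],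
  Vale.Agent.P032.Lt.q_of (e' := WQ006.e184) (by decide +kernel) WQ006.q184⟩

theorem w185 : Wx (EX xs7) Vale.Agent.P032X.Cert.X3.t1 (Vale.Agent.P032.Fam.fam3 Vale.Agent.P032.Fam.im0) WQ006.W185 := ⟨[0, 8, 16, 24, 32, 40, 48, 4, 12, 20, 28, 36, 44, 52, 60, 68, 76, 84, 92, 110364953, 130023681, 50188737, 49222697],
  Vale.Agent.P032.Lt.q_of (e' := WQ006.e185) (by decide +kernel) WQ006.q185⟩

theorem w186 : Wx (EX xs7) Vale.Agent.P032X.Cert.X3.t1 (Vale.Agent.P032.Fam.fam3 Vale.Agent.P032.Fam.im0) WQ006.W186 := ⟨[0, 8, 16, 24, 32, 40, 48, 4, 12, 20, 28, 36, 44, 52, 60, 68, 76, 84, 92, 100, 108, 116, 124, 132, 140, 148, 156, 88872897, 73662529, 40111513, 53020369, 60163793, 88874433, 130023553, 69730641, 851974, 860166, 1376262, 1900550, 2949126],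
  Vale.Agent.P032.Lt.q_of (e' := WQ006.e186) (by decide +kernel) WQ006.q186⟩

theorem w187 : Wx (EX xs7) Vale.Agent.P032X.Cert.X3.t1 (Vale.Agent.P032.Fam.fam3 Vale.Agent.P032.Fam.im0) WQ006.W187 := ⟨[0, 8, 16, 24, 32, 40, 48, 4, 12, 20, 28, 36, 44, 52, 60, 68, 76, 84, 92, 100, 108, 116, 124, 59523073],
  Vale.Agent.P032.Lt.q_of (e' := WQ006.e187) (by decide +kernel) WQ006.q187⟩

theorem w188 : Wx (EX xs7) Vale.Agent.P032X.Cert.X3.t1 (Vale.Agent.P032.Fam.fam3 Vale.Agent.P032.Fam.im0) WQ006.W188 := ⟨[0, 8, 16, 24, 32, 40, 48, 4, 12, 20, 28, 36, 44, 52, 60, 68, 76, 84, 92, 100, 108, 116, 124, 132, 140, 148, 156, 164, 172, 3538945, 97910785, 73931329, 96763905, 4685825, 16502617, 73924609, 90505217, 40173569, 56950785, 23396353, 8241153, 50151425, 64356353, 130973697, 860166, 2424838, 2949126],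
  Vale.Agent.P032.Lt.q_of (e' := WQ006.e188) (by decide +kernel) WQ006.q188⟩

theorem w189 : Wx (EX xs7) Vale.Agent.P032X.Cert.X3.t1 (Vale.Agent.P032.Fam.fam3 Vale.Agent.P032.Fam.im0) WQ006.W189 := ⟨[0, 8, 16, 24, 32, 40, 48, 4, 12, 20, 28, 36, 44, 52, 60, 68, 76, 84, 92, 100, 108, 116, 124, 132, 140, 148, 156, 164, 172, 888217, 19988481, 46399489, 57999361, 28855705, 67993665, 50921473, 15617433, 101551513, 34442649, 11599873, 127795201, 27626905, 79953921, 63733761, 133529665, 107347969, 66420737, 130023681, 1900550, 2949126],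
  Vale.Agent.P032.Lt.q_of (e' := WQ006.e189) (by decide +kernel) WQ006.q189⟩

theorem w190 : Wx (EX xs7) Vale.Agent.P032X.Cert.X3.t1 (Vale.Agent.P032.Fam.fam3 Vale.Agent.P032.Fam.im0) WQ006.W190 := ⟨[0, 8, 16, 24, 32, 40, 48, 4, 12, 20, 28, 36, 44, 52, 60, 68, 76, 84, 92, 100, 108, 116, 124, 132, 140, 148, 156, 164, 25018369, 31985817, 53515213, 93585409, 127144601, 34177025, 50189929, 15763793, 11927721, 25693977, 116592029, 2424838, 2949126],
  Vale.Agent.P032.Lt.q_of (e' := WQ006.e190) (by decide +kernel) WQ006.q190⟩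

theorem w191 : Wx (EX xs7) Vale.Agent.P032X.Cert.X3.t1 (Vale.Agent.P032.Fam.fam3 Vale.Agent.P032.Fam.im0) WQ006.W191 := ⟨[0, 8, 16, 24, 32, 40, 48, 4, 12, 20, 28, 36, 44, 52, 60, 68, 76, 84, 92, 100, 108, 116, 124, 132, 140, 148, 156, 164, 172, 96210393, 99090497, 60293121, 44109209, 130023681, 94109697, 63458713, 27004313, 110886913, 48136193, 103288217, 5506785, 69963545, 19418521, 60555265, 61345241, 860166, 1900550, 2949126],
  Vale.Agent.P032.Lt.q_of (e' := WQ006.e191) (by decide +kernel) WQ006.q191⟩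

theorem w192 : Wx (EX xs7) Vale.Agent.P032X.Cert.X3.t1 (Vale.Agent.P032.Fam.fam3 Vale.Agent.P032.Fam.im0) WQ006.W192 := ⟨[0, 8, 16, 24, 32, 40, 48, 4, 12, 20, 28, 36, 44, 52, 60, 68, 76, 84, 92, 100, 108, 116, 124, 132, 140, 148, 156, 164, 172, 180, 188, 196, 204, 212, 220, 228, 37453825, 95225769, 20791297, 66617345, 104562689, 92409241, 851974, 1376262, 2424838, 2949126],
  Vale.Agent.P032.Lt.q_of (e' := WQ006.e192) (by decide +kernel) WQ006.q192⟩

theorem w193 : Wx (EX xs7) Vale.Agent.P032X.Cert.X3.t1 (Vale.Agent.P032.Fam.fam3 Vale.Agent.P032.Fam.im0) WQ007.W193 := ⟨[0, 8, 16, 24, 32, 40, 48, 4, 12, 20, 28, 36, 44, 52, 60, 68, 76, 84, 92, 100, 108, 116, 124, 120324441, 50185433, 19660801, 53215577, 86770009, 335878, 860166, 1900550],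
  Vale.Agent.P032.Lt.q_of (e' := WQ007.e193) (by decide +kernel) WQ007.q193⟩

theorem w194 : Wx (EX xs7) Vale.Agent.P032X.Cert.X3.t1 (Vale.Agent.P032.Fam.fam3 Vale.Agent.P032.Fam.im0) WQ007.W194 := ⟨[0, 8, 16, 24, 32, 40, 48, 4, 12, 20, 28, 36, 44, 52, 60, 68, 76, 84, 92, 100, 9191425, 851974, 2424838, 2433030, 2949126],
  Vale.Agent.P032.Lt.q_of (e' := WQ007.e194) (by decide +kernel) WQ007.q194⟩

theorem w195 : Wx (EX xs7) Vale.Agent.P032X.Cert.X3.t1 (Vale.Agent.P032.Fam.fam3 Vale.Agent.P032.Fam.im0) WQ007.W195 := ⟨[0, 8, 16, 24, 32, 40, 48, 4, 12, 20, 28, 36, 44, 52, 60, 68, 76, 84, 92, 100, 108, 116, 124, 132, 77827865, 34426649],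
  Vale.Agent.P032.Lt.q_of (e' := WQ007.e195) (by decide +kernel) WQ007.q195⟩

theorem w196 : Wx (EX xs7) Vale.Agent.P032X.Cert.X3.t1 (Vale.Agent.P032.Fam.fam3 Vale.Agent.P032.Fam.im0) WQ007.W196 := ⟨[0, 8, 16, 24, 32, 40, 48, 4, 12, 20, 28, 36, 44, 52, 60, 68, 76, 84, 92, 100, 108, 129765249],
  Vale.Agent.P032.Lt.q_of (e' := WQ007.e196) (by decide +kernel) WQ007.q196⟩

theorem w197 : Wx (EX xs7) Vale.Agent.P032X.Cert.X3.t1 (Vale.Agent.P032.Fam.fam3 Vale.Agent.P032.Fam.im0) WQ007.W197 := ⟨[0, 8, 16, 24, 32, 40, 48, 4, 12, 20, 28, 36, 44, 52, 60, 68, 76, 84, 92, 100, 108, 116, 124, 132, 140, 148, 156, 9715737, 95420441, 860166, 1376262, 2424838],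
  Vale.Agent.P032.Lt.q_of (e' := WQ007.e197) (by decide +kernel) WQ007.q197⟩

theorem w198 : Wx (EX xs7) Vale.Agent.P032X.Cert.X3.t1 (Vale.Agent.P032.Fam.fam3 Vale.Agent.P032.Fam.im0) WQ007.W198 := ⟨[0, 8, 16, 24, 32, 40, 48, 4, 12, 20, 28, 36, 44, 52, 60, 68, 76, 84, 92, 100, 108, 116, 124, 132, 140, 148, 156, 104992153, 45485465, 112594329, 55119257, 91133329, 86245529, 123731969, 32247193, 50332033, 116133273, 30170497, 17698201, 84803585, 10488857, 38669721, 43270145, 118365569, 51256705, 30408705, 97517633, 860166, 2424838, 2433030, 2949126],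
  Vale.Agent.P032.Lt.q_of (e' := WQ007.e198) (by decide +kernel) WQ007.q198⟩

theorem w199 : Wx (EX xs7) Vale.Agent.P032X.Cert.X3.t1 (Vale.Agent.P032.Fam.fam3 Vale.Agent.P032.Fam.im0) WQ007.W199 := ⟨[0, 8, 16, 24, 32, 40, 48, 4, 12, 20, 28, 36, 44, 52, 60, 68, 76, 84, 92, 100, 108, 116, 124, 132, 140, 148, 156, 164, 54100185, 5210329],
  Vale.Agent.P032.Lt.q_of (e' := WQ007.e199) (by decide +kernel) WQ007.q199⟩

def L : List (List ℕ) := [WQ004.W100, WQ004.W101, WQ004.W102, WQ004.W103, WQ004.W104, WQ004.W105, WQ004.W106, WQ004.W107, WQ004.W108, WQ004.W109, WQ004.W110, WQ004.W111, WQ004.W112, WQ004.W113, WQ004.W114, WQ004.W115, WQ004.W116, WQ004.W117, WQ004.W118, WQ004.W119, WQ004.W120, WQ004.W121, WQ004.W122, WQ004.W123, WQ004.W124, WQ005.W125, WQ005.W126, WQ005.W127, WQ005.W128, WQ005.W129, WQ005.W130, WQ005.W131, WQ005.W132, WQ005.W133, WQ005.W134, WQ005.W135, WQ005.W136, WQ005.W137, WQ005.W138, WQ005.W139,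 WQ005.W140, WQ005.W141, WQ005.W142, WQ005.W143, WQ005.W144, WQ005.W145, WQ005.W146, WQ005.W147, WQ005.W148, WQ005.W149, WQ005.W150, WQ005.W151, WQ005.W152, WQ005.W153, WQ005.W154, WQ005.W155, WQ005.W156, WQ005.W157, WQ005.W158, WQ005.W159, WQ005.W160, WQ005.W161, WQ006.W162, WQ006.W163, WQ006.W164, WQ006.W165, WQ006.W166, WQ006.W167, WQ006.W168, WQ006.W169, WQ006.W170, WQ006.W171, WQ006.W172, WQ006.W173, WQ006.W174, WQ006.W175, WQ006.W176, WQ006.W177, WQ006.W178, WQ006.W179, WQ006.W180, WQ006.W181, WQ006.W182, WQ006.W183, WQ006.W184, WQ006.W185, WQ006.W186, WQ006.W187, WQ006.W188, WQ006.W189, WQ006.W190, WQ006.W191, WQ006.W192, WQ007.W193, WQ007.W194, WQ007.W195, WQ007.W196, WQ007.W197, WQ007.W198, WQ007.W199]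

theorem all : ∀ P ∈ L, Wx (EX xs7) Vale.Agent.P032X.Cert.X3.t1 (Vale.Agent.P032.Fam.fam3 Vale.Agent.P032.Fam.im0) P := wx_cons w100 (wx_cons w101 (wx_cons w102 (wx_cons w103 (wx_cons w104 (wx_cons w105 (wx_cons w106 (wx_cons w107 (wx_cons w108 (wx_cons w109 (wx_cons w110 (wx_cons w111 (wx_cons w112 (wx_cons w113 (wx_cons w114 (wx_cons w115 (wx_cons w116 (wx_cons w117 (wx_cons w118 (wx_cons w119 (wx_cons w120 (wx_cons w121 (wx_cons w122 (wx_cons w123 (wx_cons w124 (wx_cons w125 (wx_cons w126 (wx_cons w127 (wx_cons w128 (wx_cons w129 (wx_cons w130 (wx_cons w131 (wx_cons w132 (wx_cons w133 (wx_cons w134 (wx_cons w135 (wx_cons w136 (wx_cons w137 (wx_cons w138 (wx_cons w139 (wx_cons w140 (wx_cons w141 (wx_cons w142 (wx_cons w143 (wx_cons w144 (wx_cons w145 (wx_cons w146 (wx_cons w147 (wx_cons w148 (wx_cons w149 (wx_cons w150 (wx_cons w151 (wx_cons w152 (wx_cons w153 (wx_cons w154 (wx_cons w155 (wx_cons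 w156 (wx_cons w157 (wx_cons w158 (wx_cons w159 (wx_cons w160 (wx_cons w161 (wx_cons w162 (wx_cons w163 (wx_cons w164 (wx_cons w165 (wx_cons w166 (wx_cons w167 (wx_cons w168 (wx_cons w169 (wx_cons w170 (wx_cons w171 (wx_cons w172 (wx_cons w173 (wx_cons w174 (wx_cons w175 (wx_cons w176 (wx_cons w177 (wx_cons w178 (wx_cons w179 (wx_cons w180 (wx_cons w181 (wx_cons w182 (wx_cons w183 (wx_cons w184 (wx_cons w185 (wx_cons w186 (wx_cons w187 (wx_cons w188 (wx_cons w189 (wx_cons w190 (wx_cons w191 (wx_cons w192 (wx_cons w193 (wx_cons w194 (wx_cons w195 (wx_cons w196 (wx_cons w197 (wx_cons w198 (wx_cons w199 wx_nil)))))))))))))))))))))))))))))))))))))))))))))))))))))))))))))))))))))))))))))))))))))))))))))))))))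

theorem ch : chT 73 73 TCm Vale.Agent.P032X.Cert.X3.W2.sW_001 L = true := by decide +kernel

end Vale.Agent.P032X.Cert.X3.W2.WH001
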